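import Mathlib
import Vale.Agent.P322.Defs

set_option linter.all false

section

section

/-! Noise operator on the cube and the forward induction (dual certificate form). -/

namespace Vale.Agent.P322

open Finset

/-- Binary entropy (nats) as a function of the mean `x ∈ [-1,1]` of a sign. -/
noncomputable def HH (x : ℝ) : ℝ := Real.binEntropy ((1 + x) / 2)

/-- `hV r m c = (H(m + r c) + H(m - r c)) / 2`. -/
noncomputable def hV (r m c : ℝ) : ℝ := (HH (m + r * c) + HH (m - r * c)) / 2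

/-- Single coordinate kernel of the binary symmetric channel. -/
noncomputable def ker (ε : ℝ) (a b : ℤˣ) : ℝ := if a * b = -1 then ε else 1 - ε

/-- Noise operator. -/
noncomputable def TT (n : ℕ) (ε : ℝ) (g : (Fin n → ℤˣ) → ℝ) (y : Fin n → ℤˣ) : ℝ :=
  ∑ x : Fin n → ℤˣ, (∏ i, ker ε (x i) (y i)) * g x

/-- Uniform average on the cube. -/
noncomputable def avg (n : ℕ) (g : (Fin n → ℤˣ) → ℝ) : ℝ := (1 / 2) ^ n * ∑ x, g x

/-- The two-point certificate at noise correlation `ρ` for the potential `S`. -/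
def Cert (ρ : ℝ) (S : ℝ → ℝ) : Prop :=
  ∀ μ δ : ℝ, |μ| + |δ| ≤ 1 → ∃ θ q0 q1 q2 : ℝ, 0 ≤ θ ∧
    (∀ m c : ℝ, |m| + |c| ≤ 1 → θ * hV 1 m c + q0 + q1 * m + q2 * c ≤ hV ρ m c) ∧
    S μ ≤ θ * ((S (μ + δ) + S (μ - δ)) / 2) + q0 + q1 * μ + q2 * δ

lemma units_cases (a : ℤˣ) : a = 1 ∨ a = -1 := Int.units_eq_one_or a

lemma sum_units (g : ℤˣ → ℝ) : ∑ a : ℤˣ, g a = g 1 + g (-1) := by
  have : (Finset.univ : Finset ℤˣ) = {1, -1} := rfl
  rw [this, Finset.sum_pair (by decide)]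

lemma ker_one_one (ε : ℝ) : ker ε 1 1 = 1 - ε := by simp [ker]
lemma ker_neg_neg (ε : ℝ) : ker ε (-1) (-1) = 1 - ε := by simp [ker]
lemma ker_one_neg (ε : ℝ) : ker ε 1 (-1) = ε := by simp [ker]
lemma ker_neg_one (ε : ℝ) : ker ε (-1) 1 = ε := by simp [ker]

lemma sum_ker_left (ε : ℝ) (b : ℤˣ) : ∑ a : ℤˣ, ker ε a b = 1 := by
  rw [sum_units]
  rcases units_cases b with rfl | rfl
  · rw [ker_one_one, ker_neg_one]; ring
  · rw [ker_one_neg, ker_neg_neg]; ring

lemma sum_ker_right (ε : ℝ) (a : ℤˣ) : ∑ b : ℤˣ, ker ε a b = 1 := by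
  rw [sum_units]
  rcases units_cases a with rfl | rfl
  · rw [ker_one_one, ker_one_neg]; ring
  · rw [ker_neg_one, ker_neg_neg]; ring

lemma ker_nonneg {ε : ℝ} (h0 : 0 ≤ ε) (h1 : ε ≤ 1) (a b : ℤˣ) : 0 ≤ ker ε a b := by
  unfold ker; split_ifs <;> linarith

/-- Total mass of the kernel, summing over the input. -/
lemma sum_prod_ker_left (n : ℕ) (ε : ℝ) (y : Fin n → ℤˣ) :
    ∑ x : Fin n → ℤˣ, ∏ i, ker ε (x i) (y i) = 1 := by
  have := Finset.prod_univ_sum (fun _ : Fin n => (Finset.univ : Finset ℤˣ))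
    (fun i a => ker ε a (y i))
  rw [Fintype.piFinset_univ] at this
  rw [← this]
  exact Finset.prod_eq_one (fun i _ => sum_ker_left ε (y i))

lemma sum_prod_ker_right (n : ℕ) (ε : ℝ) (x : Fin n → ℤˣ) :
    ∑ y : Fin n → ℤˣ, ∏ i, ker ε (x i) (y i) = 1 := by
  have := Finset.prod_univ_sum (fun _ : Fin n => (Finset.univ : Finset ℤˣ))
    (fun i b => ker ε (x i) b)
  rw [Fintype.piFinset_univ] at this
  rw [← this]
  exact Finset.prod_eq_one (fun i _ => sum_ker_right ε (x i))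

/-- Splitting off the first coordinate of a sum over the cube. -/
lemma sum_cube_succ (n : ℕ) (g : (Fin (n + 1) → ℤˣ) → ℝ) :
    ∑ x, g x = ∑ x : Fin n → ℤˣ, g (Fin.cons 1 x) + ∑ x : Fin n → ℤˣ, g (Fin.cons (-1) x) := by
  rw [← (Fin.consEquiv (fun _ : Fin (n + 1) => ℤˣ)).sum_comp, Fintype.sum_prod_type, sum_units]
  rfl

lemma avg_succ (n : ℕ) (g : (Fin (n + 1) → ℤˣ) → ℝ) :
    avg (n + 1) g = (avg n (fun x => g (Fin.cons 1 x)) + avg n (fun x => g (Fin.cons (-1) x))) / 2 := by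
  unfold avg
  rw [sum_cube_succ]; ring

lemma TT_cons (n : ℕ) (ε : ℝ) (g : (Fin (n + 1) → ℤˣ) → ℝ) (a : ℤˣ) (y : Fin n → ℤˣ) :
    TT (n + 1) ε g (Fin.cons a y) = ker ε 1 a * TT n ε (fun x => g (Fin.cons 1 x)) y
      + ker ε (-1) a * TT n ε (fun x => g (Fin.cons (-1) x)) y := by
  unfold TT
  rw [sum_cube_succ, Finset.mul_sum, Finset.mul_sum]
  congr 1 <;>
  · refine Finset.sum_congr rfl (fun x _ => ?_)
    rw [Fin.prod_univ_succ]
    simp only [Fin.cons_zero, Fin.cons_succ]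
    ring

lemma TT_mono {n : ℕ} {ε : ℝ} (h0 : 0 ≤ ε) (h1 : ε ≤ 1) {g g' : (Fin n → ℤˣ) → ℝ}
    (h : ∀ x, g x ≤ g' x) (y : Fin n → ℤˣ) : TT n ε g y ≤ TT n ε g' y := by
  unfold TT
  refine Finset.sum_le_sum (fun x _ => ?_)
  exact mul_le_mul_of_nonneg_left (h x) (Finset.prod_nonneg (fun i _ => ker_nonneg h0 h1 _ _))

lemma TT_const (n : ℕ) (ε c : ℝ) (y : Fin n → ℤˣ) : TT n ε (fun _ => c) y = c := by
  unfold TT
  rw [← Finset.sum_mul, sum_prod_ker_left, one_mul]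

lemma abs_TT_le {n : ℕ} {ε : ℝ} (h0 : 0 ≤ ε) (h1 : ε ≤ 1) {g : (Fin n → ℤˣ) → ℝ}
    (h : ∀ x, |g x| ≤ 1) (y : Fin n → ℤˣ) : |TT n ε g y| ≤ 1 := by
  rw [abs_le]
  constructor
  · have := TT_mono h0 h1 (g := fun _ => (-1 : ℝ)) (g' := g) (fun x => (abs_le.mp (h x)).1) y
    rwa [TT_const] at this
  · have := TT_mono h0 h1 (g := g) (g' := fun _ => (1 : ℝ)) (fun x => (abs_le.mp (h x)).2) y
    rwa [TT_const] at this

lemma avg_TT (n : ℕ) (ε : ℝ) (g : (Fin n → ℤˣ) → ℝ) : avg n (TT n ε g) = avg n g := by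
  unfold avg TT
  rw [Finset.sum_comm]
  congr 1
  refine Finset.sum_congr rfl (fun x _ => ?_)
  rw [← Finset.sum_mul, sum_prod_ker_right, one_mul]

lemma avg_mono {n : ℕ} {g g' : (Fin n → ℤˣ) → ℝ} (h : ∀ x, g x ≤ g' x) : avg n g ≤ avg n g' := by
  unfold avg
  exact mul_le_mul_of_nonneg_left (Finset.sum_le_sum (fun x _ => h x)) (by positivity)

lemma avg_const (n : ℕ) (c : ℝ) : avg n (fun _ => c) = c := by
  unfold avg
  rw [Finset.sum_const, Finset.card_univ, Fintype.card_fun]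
  have hc : Fintype.card ℤˣ = 2 := rfl
  rw [hc, Fintype.card_fin, nsmul_eq_mul]
  push_cast
  rw [← mul_assoc, ← mul_pow]
  norm_num

lemma avg_add (n : ℕ) (g g' : (Fin n → ℤˣ) → ℝ) :
    avg n (fun x => g x + g' x) = avg n g + avg n g' := by
  unfold avg
  rw [Finset.sum_add_distrib]; ring

lemma avg_mul_left (n : ℕ) (c : ℝ) (g : (Fin n → ℤˣ) → ℝ) :
    avg n (fun x => c * g x) = c * avg n g := by
  unfold avg
  rw [← Finset.mul_sum]; ring

lemma abs_avg_le {n : ℕ} {g : (Fin n → ℤˣ) → ℝ} (h : ∀ x, |g x| ≤ 1) : |avg n g| ≤ 1 := by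
  rw [abs_le]
  constructor
  · have := avg_mono (n := n) (g := fun _ => (-1 : ℝ)) (g' := g) (fun x => (abs_le.mp (h x)).1)
    rwa [avg_const] at this
  · have := avg_mono (n := n) (g := g) (g' := fun _ => (1 : ℝ)) (fun x => (abs_le.mp (h x)).2)
    rwa [avg_const] at this

lemma abs_half_add_half {u v : ℝ} (hu : |u| ≤ 1) (hv : |v| ≤ 1) :
    |(u + v) / 2| + |(u - v) / 2| ≤ 1 := by
  rw [abs_le] at hu hv
  rcases abs_cases ((u + v) / 2) with h | h <;> rcases abs_cases ((u - v) / 2) with h' | h' <;>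
    linarith only [hu, h, h', hv]

/-- **Forward induction.**  A potential `S` that satisfies the two-point certificate is a lower
bound for the conditional entropy of every Boolean function. -/
theorem forward {ε : ℝ} (h0 : 0 ≤ ε) (h1 : ε ≤ 1) {S : ℝ → ℝ} (hS1 : S 1 ≤ 0) (hS2 : S (-1) ≤ 0)
    (hcert : Cert (1 - 2 * ε) S) (n : ℕ) :
    ∀ g : (Fin n → ℤˣ) → ℝ, (∀ x, g x = 1 ∨ g x = -1) →
      S (avg n g) ≤ avg n (fun y => HH (TT n ε g y)) := by
  induction n with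
  | zero =>
    intro g hg
    have hs : ∀ k : (Fin 0 → ℤˣ) → ℝ, ∑ x, k x = k Fin.elim0 := fun k => by
      rw [Fintype.sum_unique k]
      exact congrArg k (Subsingleton.elim _ _)
    have ha : avg 0 g = g Fin.elim0 := by
      unfold avg; rw [hs]; ring
    have hT : ∀ y, TT 0 ε g y = g Fin.elim0 := by
      intro y; unfold TT; rw [hs]; simp only [Finset.univ_eq_empty, Finset.prod_empty, one_mul]
    have hb : avg 0 (fun y => HH (TT 0 ε g y)) = HH (g Fin.elim0) := by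
      unfold avg; rw [hs, hT]; ring
    rw [ha, hb]
    rcases hg Fin.elim0 with h | h
    · rw [h]; simpa [HH] using hS1
    · rw [h]; simpa [HH] using hS2
  | succ n ih =>
    intro g hg
    set gp : (Fin n → ℤˣ) → ℝ := fun x => g (Fin.cons 1 x) with hgp
    set gm : (Fin n → ℤˣ) → ℝ := fun x => g (Fin.cons (-1) x) with hgm
    have habs : ∀ {t : ℝ}, (t = 1 ∨ t = -1) → |t| ≤ 1 := by
      rintro t (rfl | rfl) <;> simp
    have ihp := ih gp (fun x => hg _)
    have ihm := ih gm (fun x => hg _)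
    have hpabs : ∀ x, |gp x| ≤ 1 := fun x => habs (hg _)
    have hmabs : ∀ x, |gm x| ≤ 1 := fun x => habs (hg _)
    set m1 := avg n gp with hm1
    set m2 := avg n gm with hm2
    have hav : avg (n + 1) g = (m1 + m2) / 2 := avg_succ n g
    have hdiam : |(m1 + m2) / 2| + |(m1 - m2) / 2| ≤ 1 :=
      abs_half_add_half (abs_avg_le hpabs) (abs_avg_le hmabs)
    obtain ⟨θ, q0, q1, q2, hθ, hpt, hval⟩ := hcert _ _ hdiam
    set u := TT n ε gp with hu
    set v := TT n ε gm with hv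
    have hleft : avg (n + 1) (fun y => HH (TT (n + 1) ε g y))
        = avg n (fun y => hV (1 - 2 * ε) ((u y + v y) / 2) ((u y - v y) / 2)) := by
      rw [avg_succ]
      have e1 : (fun y : Fin n → ℤˣ => HH (TT (n + 1) ε g (Fin.cons 1 y)))
          = fun y => HH ((u y + v y) / 2 + (1 - 2 * ε) * ((u y - v y) / 2)) := by
        funext y
        rw [TT_cons, ker_one_one, ker_neg_one]
        congr 1
        simp only [hu, hv, hgp, hgm]
        ring
      have e2 : (fun y : Fin n → ℤˣ => HH (TT (n + 1) ε g (Fin.cons (-1) y)))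
          = fun y => HH ((u y + v y) / 2 - (1 - 2 * ε) * ((u y - v y) / 2)) := by
        funext y
        rw [TT_cons, ker_one_neg, ker_neg_neg]
        congr 1
        simp only [hu, hv, hgp, hgm]
        ring
      rw [e1, e2, ← avg_add]
      unfold avg hV
      rw [mul_div_assoc, Finset.sum_div]
    have hlow : avg n (fun y => θ * hV 1 ((u y + v y) / 2) ((u y - v y) / 2) + q0
          + q1 * ((u y + v y) / 2) + q2 * ((u y - v y) / 2))
        ≤ avg n (fun y => hV (1 - 2 * ε) ((u y + v y) / 2) ((u y - v y) / 2)) := by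
      refine avg_mono (fun y => ?_)
      exact hpt _ _ (abs_half_add_half (abs_TT_le h0 h1 hpabs y) (abs_TT_le h0 h1 hmabs y))
    have hcalc : avg n (fun y => θ * hV 1 ((u y + v y) / 2) ((u y - v y) / 2) + q0
          + q1 * ((u y + v y) / 2) + q2 * ((u y - v y) / 2))
        = θ * ((avg n (fun y => HH (u y)) + avg n (fun y => HH (v y))) / 2) + q0
          + q1 * ((m1 + m2) / 2) + q2 * ((m1 - m2) / 2) := by
      have hmu : avg n u = m1 := avg_TT n ε gp
      have hmv : avg n v = m2 := avg_TT n ε gm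
      have e3 : (fun y => θ * hV 1 ((u y + v y) / 2) ((u y - v y) / 2) + q0
          + q1 * ((u y + v y) / 2) + q2 * ((u y - v y) / 2))
          = fun y => (θ / 2) * HH (u y) + ((θ / 2) * HH (v y) + (q0
          + ((q1 + q2) / 2 * u y + (q1 - q2) / 2 * v y))) := by
        funext y
        have a1 : (u y + v y) / 2 + 1 * ((u y - v y) / 2) = u y := by ring
        have a2 : (u y + v y) / 2 - 1 * ((u y - v y) / 2) = v y := by ring
        unfold hV
        rw [a1, a2]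
        ring
      rw [e3, avg_add, avg_add, avg_add, avg_add, avg_const, avg_mul_left, avg_mul_left,
        avg_mul_left, avg_mul_left, hmu, hmv]
      ring
    rw [hcalc] at hlow
    rw [hav, hleft]
    have s1 : (m1 + m2) / 2 + (m1 - m2) / 2 = m1 := by ring
    have s2 : (m1 + m2) / 2 - (m1 - m2) / 2 = m2 := by ring
    rw [s1, s2] at hval
    have : θ * ((S m1 + S m2) / 2) ≤ θ * ((avg n (fun y => HH (u y)) + avg n (fun y => HH (v y))) / 2) := by
      refine mul_le_mul_of_nonneg_left ?_ hθ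
      linarith only [ihp, ihm]
    linarith only [hval, hlow, this]

end Vale.Agent.P322
end
end

section

section

/-! Series and Chebyshev-type lemma used for the pointwise two-point certificate. -/

namespace Vale.Agent.P322

open Real Filter Topology

lemma hasSum_of_eq {f g : ℕ → ℝ} {a b : ℝ} (h : HasSum g b) (hf : ∀ k, f k = g k)
    (hab : a = b) : HasSum f a := by
  rw [hab, show f = g from funext hf]; exact h

/-- `∑ y^(2k+2)/(2k+2) = -½ log (1 - y²)`. -/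
lemma hasSum_ser1 {y : ℝ} (hy : |y| < 1) :
    HasSum (fun k : ℕ => y ^ (2 * k + 2) / (2 * k + 2)) (-(Real.log (1 + y) + Real.log (1 - y)) / 2) := by
  have hlt := abs_lt.mp hy
  have h2 : |y ^ 2| < 1 := by
    rw [abs_pow]
    exact pow_lt_one₀ (abs_nonneg y) hy (by norm_num)
  have h := (Real.hasSum_pow_div_log_of_abs_lt_one h2).mul_left (1 / 2)
  have hlog : Real.log (1 - y ^ 2) = Real.log (1 + y) + Real.log (1 - y) := by
    rw [← Real.log_mul (by linarith) (by linarith)]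
    congr 1; ring
  refine hasSum_of_eq h (fun k => ?_) ?_
  · have : (2 * (k : ℝ) + 2) ≠ 0 := by positivity
    have h3 : ((k : ℝ) + 1) ≠ 0 := by positivity
    field_simp
    ring
  · rw [hlog]; ring

/-- `∑ y^(2k+2)/(2k+1) = y artanh y`. -/
lemma hasSum_ser2 {y : ℝ} (hy : |y| < 1) :
    HasSum (fun k : ℕ => y ^ (2 * k + 2) / (2 * k + 1))
      (y * (Real.log (1 + y) - Real.log (1 - y)) / 2) := by
  have h := (Real.hasSum_log_sub_log_of_abs_lt_one hy).mul_left (y / 2)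
  refine hasSum_of_eq h (fun k => ?_) ?_
  · have : (2 * (k : ℝ) + 1) ≠ 0 := by positivity
    field_simp
    ring
  · ring

/-- `φ y = (1+y)/2 log (1+y) + (1-y)/2 log (1-y)`. -/
noncomputable def ph (y : ℝ) : ℝ := (1 + y) / 2 * Real.log (1 + y) + (1 - y) / 2 * Real.log (1 - y)

lemma ph_eq (y : ℝ) :
    ph y = (1 + y) / 2 * Real.log (1 + y) + (1 - y) / 2 * Real.log (1 - y) := rfl

lemma hasSum_ph {y : ℝ} (hy : |y| < 1) :
    HasSum (fun k : ℕ => y ^ (2 * k + 2) / ((2 * k + 2) * (2 * k + 1))) (ph y) := by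
  have h := (hasSum_ser2 hy).sub (hasSum_ser1 hy)
  refine hasSum_of_eq h (fun k => ?_) ?_
  · have : (2 * (k : ℝ) + 1) ≠ 0 := by positivity
    have : (2 * (k : ℝ) + 2) ≠ 0 := by positivity
    field_simp
    ring
  · rw [ph_eq]; ring

/-- Normalised Bregman factor `ψ_k(s) = (s^(2k+2) - (2k+2) s + (2k+1))/(2k+1)`. -/
noncomputable def psi (k : ℕ) (s : ℝ) : ℝ :=
  (s ^ (2 * k + 2) - (2 * k + 2) * s + (2 * k + 1)) / (2 * k + 1)

lemma psi_eq (k : ℕ) (s : ℝ) :
    psi k s = (s ^ (2 * k + 2) - (2 * k + 2) * s + (2 * k + 1)) / (2 * k + 1) := rfl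

/-- For `s ≥ 0` the map `n ↦ (s^n - 1)/n` is nondecreasing: one step. -/
lemma pow_step {s : ℝ} (hs : 0 ≤ s) (n : ℕ) :
    ((n : ℝ) + 1) * (s ^ n - 1) ≤ n * (s ^ (n + 1) - 1) := by
  induction n with
  | zero => simp
  | succ n ih =>
    push_cast
    have h1 : 0 ≤ (s ^ (n + 1) - 1) * (s - 1) := by
      rcases le_total 1 s with h | h
      · exact mul_nonneg (sub_nonneg.mpr (one_le_pow₀ h)) (sub_nonneg.mpr h)
      · exact mul_nonneg_of_nonpos_of_nonpos (sub_nonpos.mpr (pow_le_one₀ hs h)) (sub_nonpos.mpr h)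
    have h2 := mul_nonneg hs (sub_nonneg.mpr ih)
    have e1 : (s ^ (n + 1 + 1) : ℝ) = s * (s * s ^ n) := by ring
    have e2 : (s ^ (n + 1) : ℝ) = s * s ^ n := by ring
    rw [e1, e2]
    rw [e2] at h1 h2
    linarith only [h1, h2]

lemma psi_nonneg {s : ℝ} (hs : 0 ≤ s) (k : ℕ) : 0 ≤ psi k s := by
  rw [psi_eq]
  refine div_nonneg ?_ (by positivity)
  have h := one_add_mul_le_pow (a := s - 1) (by linarith) (2 * k + 2)
  have e : (1 + (s - 1)) = s := by ring
  rw [e] at h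
  push_cast at h
  linarith

lemma pow_step2 {s : ℝ} (hs : 0 ≤ s) (k : ℕ) :
    (2 * (k : ℝ) + 3) * (s ^ (2 * k + 1) - 1) ≤ (2 * k + 1) * (s ^ (2 * k + 3) - 1) := by
  have h1 := pow_step hs (2 * k + 1)
  have h2 := pow_step hs (2 * k + 2)
  push_cast at h1 h2
  have e1 : (2 * (k : ℝ) + 1 + 1) = 2 * k + 2 := by ring
  have e2 : (2 * (k : ℝ) + 2 + 1) = 2 * k + 3 := by ring
  rw [e1] at h1
  rw [e2] at h2
  have e3 : 2 * k + 1 + 1 = 2 * k + 2 := by ring
  have e4 : 2 * k + 2 + 1 = 2 * k + 3 := by ring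
  rw [e3] at h1
  rw [e4] at h2
  have hk : (0 : ℝ) < 2 * k + 2 := by positivity
  have hk1 : (0 : ℝ) ≤ 2 * k + 1 := by positivity
  have hk3 : (0 : ℝ) ≤ 2 * k + 3 := by positivity
  have m1 := mul_le_mul_of_nonneg_left h1 hk3
  have m2 := mul_le_mul_of_nonneg_left h2 hk1
  have : (2 * (k : ℝ) + 2) * ((2 * (k : ℝ) + 3) * (s ^ (2 * k + 1) - 1))
      ≤ (2 * k + 2) * ((2 * k + 1) * (s ^ (2 * k + 3) - 1)) := by
    linarith only [m1, m2]
  exact le_of_mul_le_mul_left this hk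

lemma psi_eq' (k : ℕ) (s : ℝ) :
    psi k s = 1 - s + s * ((s ^ (2 * k + 1) - 1) / (2 * k + 1)) := by
  rw [psi_eq]
  have : (2 * (k : ℝ) + 1) ≠ 0 := by positivity
  field_simp
  ring

lemma psi_step {s : ℝ} (hs : 0 ≤ s) (k : ℕ) : psi k s ≤ psi (k + 1) s := by
  rw [psi_eq', psi_eq']
  have h := pow_step2 hs k
  have h2 : (s ^ (2 * k + 1) - 1) / (2 * (k : ℝ) + 1)
      ≤ (s ^ (2 * (k + 1) + 1) - 1) / (2 * ((k + 1 : ℕ) : ℝ) + 1) := by
    rw [div_le_div_iff₀ (by positivity) (by positivity)]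
    push_cast
    have e : 2 * (k + 1) + 1 = 2 * k + 3 := by ring
    rw [e]
    linarith only [h]
  have h3 := mul_le_mul_of_nonneg_left h2 hs
  linarith only [h3]

/-- **Chebyshev-type sign argument.**  `x` nondecreasing, `w ≥ 0`, `lam` nonincreasing; if
`∑ w x = T ∑ w` then `∑ lam w x ≤ T ∑ lam w`. -/
lemma cheb {x w lam : ℕ → ℝ} (hx : Monotone x) (hw : ∀ n, 0 ≤ w n) (hl : Antitone lam)
    (hl0 : ∀ n, 0 ≤ lam n) {g e g' e' T : ℝ}
    (hg : HasSum (fun n => w n * x n) g) (he : HasSum w e)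
    (hg' : HasSum (fun n => lam n * (w n * x n)) g') (he' : HasSum (fun n => lam n * w n) e')
    (hT : g = T * e) : g' ≤ T * e' := by
  have hd : HasSum (fun n => w n * x n - T * w n) (g - T * e) := hg.sub (he.mul_left T)
  have hd' : HasSum (fun n => lam n * (w n * x n) - T * (lam n * w n)) (g' - T * e') :=
    hg'.sub (he'.mul_left T)
  have hd0 : g - T * e = 0 := by rw [hT]; ring
  rw [hd0] at hd
  suffices h : g' - T * e' ≤ 0 by linarith
  by_cases hex : ∃ n, T < x n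
  · classical
    obtain ⟨hJ, hmin⟩ := And.intro (Nat.find_spec hex) (fun m (hm : m < Nat.find hex) => Nat.find_min hex hm)
    set J := Nat.find hex with hJdef
    have hle : ∀ n, lam n * (w n * x n) - T * (lam n * w n) ≤ lam J * (w n * x n - T * w n) := by
      intro n
      have key : (lam n - lam J) * (x n - T) ≤ 0 := by
        rcases lt_or_ge n J with h | h
        · have h1 := hmin n h
          have h2 : x n ≤ T := not_lt.mp h1
          have h3 : lam J ≤ lam n := hl h.le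
          exact mul_nonpos_of_nonneg_of_nonpos (by linarith) (by linarith)
        · have h1 : x J ≤ x n := hx h
          have h3 : lam n ≤ lam J := hl h
          exact mul_nonpos_of_nonpos_of_nonneg (by linarith) (by linarith)
      have := mul_le_mul_of_nonneg_left key (hw n)
      linarith only [this]
    have h2 := hasSum_le hle hd' (hd.mul_left (lam J))
    simpa using h2
  · push Not at hex
    refine hasSum_le (fun n => ?_) hd' hasSum_zero
    have := mul_nonneg (mul_nonneg (hl0 n) (hw n)) (sub_nonneg.mpr (hex n))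
    linarith only [this]

end Vale.Agent.P322
end
end

section

section

/-! One-variable inequalities for the pointwise certificate. -/

namespace Vale.Agent.P322

open Real Filter Topology Set

/-- `(1-a)² log(2/(1-a)) ≤ (1+a)² log(2/(1+a))` for `0 ≤ a < 1`. -/
lemma one_var {a : ℝ} (h0 : 0 ≤ a) (h1 : a < 1) :
    (1 - a) ^ 2 * (Real.log 2 - Real.log (1 - a)) ≤ (1 + a) ^ 2 * (Real.log 2 - Real.log (1 + a)) := by
  set f : ℝ → ℝ := fun x => x * Real.negMulLog x - (1 - x) * Real.negMulLog (1 - x) with hf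
  have hcont : Continuous f := by
    have := Real.continuous_negMulLog
    fun_prop
  have hder : ∀ x ∈ Ioo (2⁻¹ : ℝ) 1, HasDerivAt f (2 * Real.binEntropy x - 1) x := by
    intro x hx
    have hx0 : x ≠ 0 := by have := hx.1; intro h; rw [h] at this; norm_num at this
    have hx1 : (1 : ℝ) - x ≠ 0 := by have := hx.2; intro h; linarith
    have d1 := (hasDerivAt_id x).mul (Real.hasDerivAt_negMulLog hx0)
    have d2 : HasDerivAt (fun y : ℝ => 1 - y) (-1) x := by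
      simpa using (hasDerivAt_id x).const_sub 1
    have d3 := d2.mul ((Real.hasDerivAt_negMulLog hx1).comp x d2)
    have d4 : HasDerivAt f _ x := d1.sub d3
    refine d4.congr_deriv ?_
    rw [Real.binEntropy_eq_negMulLog_add_negMulLog_one_sub]
    simp only [Real.negMulLog, id, Function.comp]
    ring
  have hconc : ConcaveOn ℝ (Icc (2⁻¹ : ℝ) 1) f := by
    refine AntitoneOn.concaveOn_of_deriv (convex_Icc _ _) hcont.continuousOn ?_ ?_
    · rw [interior_Icc]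
      intro x hx
      exact (hder x hx).differentiableAt.differentiableWithinAt
    · rw [interior_Icc]
      intro x hx y hy hxy
      rw [(hder x hx).deriv, (hder y hy).deriv]
      have := Real.binEntropy_strictAntiOn.antitoneOn (Ioo_subset_Icc_self hx) (Ioo_subset_Icc_self hy) hxy
      linarith
  have hhalf : f (2⁻¹) = 0 := by simp only [hf]; norm_num
  have hone : f 1 = 0 := by simp [hf, Real.negMulLog]
  -- evaluate at `(1+a)/2`
  have hmem : (1 + a) / 2 ∈ Icc (2⁻¹ : ℝ) 1 := by constructor <;> norm_num <;> linarith only [h0, h1]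
  have hpos : 0 ≤ f ((1 + a) / 2) := by
    have hm1 : (2⁻¹ : ℝ) ∈ Icc (2⁻¹ : ℝ) 1 := by constructor <;> norm_num
    have hm2 : (1 : ℝ) ∈ Icc (2⁻¹ : ℝ) 1 := by constructor <;> norm_num
    have h := hconc.2 hm1 hm2 (sub_nonneg.mpr h1.le) h0 (by ring)
    rw [hhalf, hone] at h
    simp only [smul_eq_mul, mul_zero, add_zero, mul_one] at h
    have e : (1 - a) * 2⁻¹ + a = (1 + a) / 2 := by ring
    rwa [e] at h
  simp only [hf, Real.negMulLog] at hpos
  have e1 : Real.log ((1 + a) / 2) = Real.log (1 + a) - Real.log 2 :=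
    Real.log_div (by linarith only [h0]) (by norm_num)
  have e2 : (1 : ℝ) - (1 + a) / 2 = (1 - a) / 2 := by ring
  have e3 : Real.log ((1 - a) / 2) = Real.log (1 - a) - Real.log 2 :=
    Real.log_div (by linarith only [h1]) (by norm_num)
  rw [e2, e1, e3] at hpos
  linarith only [hpos]

/-- binary relative entropy of sign means. -/
noncomputable def KL (m a : ℝ) : ℝ :=
  (1 + m) / 2 * (Real.log (1 + m) - Real.log (1 + a)) + (1 - m) / 2 * (Real.log (1 - m) - Real.log (1 - a))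

lemma KL_eq (m a : ℝ) : KL m a =
  (1 + m) / 2 * (Real.log (1 + m) - Real.log (1 + a)) + (1 - m) / 2 * (Real.log (1 - m) - Real.log (1 - a)) := rfl

/-- `(1-s) log (1-s) = -s + ∑ s^(n+2)/((n+1)(n+2))`. -/
lemma hasSum_mul_log {s : ℝ} (hs : |s| < 1) :
    HasSum (fun n : ℕ => s ^ (n + 2) / ((n + 1) * (n + 2))) ((1 - s) * Real.log (1 - s) + s) := by
  have h := Real.hasSum_pow_div_log_of_abs_lt_one hs
  have h1 : HasSum (fun n : ℕ => s ^ (n + 2) / (n + 2)) (-Real.log (1 - s) - s) := by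
    have := (hasSum_nat_add_iff' (f := fun n : ℕ => s ^ (n + 1) / ((n : ℝ) + 1)) 1).mpr h
    simp only [Finset.range_one, Finset.sum_singleton] at this
    refine hasSum_of_eq this (fun n => ?_) ?_
    · push_cast
      have e : n + 1 + 1 = n + 2 := by ring
      have e' : (n : ℝ) + 1 + 1 = n + 2 := by ring
      rw [e, e']
    · simp
  have h2 := (h.mul_left s).sub h1
  refine hasSum_of_eq h2 (fun n => ?_) ?_
  · have : ((n : ℝ) + 1) ≠ 0 := by positivity
    have : ((n : ℝ) + 2) ≠ 0 := by positivity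
    field_simp
    ring
  · ring

/-- key function -/
noncomputable def gq (q s : ℝ) : ℝ :=
  (1 + q * s) * Real.log (1 + q * s) + q * ((1 - s) * Real.log (1 - s))

lemma gq_eq (q s : ℝ) : gq q s =
  (1 + q * s) * Real.log (1 + q * s) + q * ((1 - s) * Real.log (1 - s)) := rfl

lemma hasSum_gq {q s : ℝ} (hq0 : 0 ≤ q) (hq1 : q ≤ 1) (hs : |s| < 1) :
    HasSum (fun n : ℕ => (q + (-q) ^ (n + 2)) / ((n + 1) * (n + 2)) * s ^ (n + 2)) (gq q s) := by
  have hs' : |(-q * s)| < 1 := by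
    rw [abs_mul, abs_neg, abs_of_nonneg hq0]
    calc q * |s| ≤ 1 * |s| := mul_le_mul_of_nonneg_right hq1 (abs_nonneg s)
      _ < 1 := by simpa using hs
  have h1 := hasSum_mul_log hs'
  have h2 := (hasSum_mul_log hs).mul_left q
  refine hasSum_of_eq (h1.add h2) (fun n => ?_) ?_
  · rw [mul_pow]
    have : ((n : ℝ) + 1) ≠ 0 := by positivity
    have : ((n : ℝ) + 2) ≠ 0 := by positivity
    field_simp
    ring
  · rw [gq_eq]
    have e : 1 - -q * s = 1 + q * s := by ring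
    rw [e]; ring

lemma gq_ratio {q s t : ℝ} (hq0 : 0 ≤ q) (hq1 : q ≤ 1) (hs : 0 ≤ s) (hst : s ≤ t) (ht : t < 1) :
    t ^ 2 * gq q s ≤ s ^ 2 * gq q t := by
  have hs1 : |s| < 1 := by rw [abs_of_nonneg hs]; linarith
  have ht1 : |t| < 1 := by rw [abs_of_nonneg (hs.trans hst)]; linarith
  have h1 := (hasSum_gq hq0 hq1 hs1).mul_left (t ^ 2)
  have h2 := (hasSum_gq hq0 hq1 ht1).mul_left (s ^ 2)
  refine hasSum_le (fun n => ?_) h1 h2
  have hc : 0 ≤ (q + (-q) ^ (n + 2)) / (((n : ℝ) + 1) * (n + 2)) := by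
    refine div_nonneg ?_ (by positivity)
    have : |(-q) ^ (n + 2)| ≤ q := by
      rw [abs_pow, abs_neg, abs_of_nonneg hq0]
      calc q ^ (n + 2) = q * q ^ (n + 1) := by ring
        _ ≤ q * 1 := mul_le_mul_of_nonneg_left (pow_le_one₀ hq0 hq1) hq0
        _ = q := mul_one q
    have := (abs_le.mp this).1
    linarith
  have hp : t ^ 2 * s ^ (n + 2) ≤ s ^ 2 * t ^ (n + 2) := by
    have e1 : t ^ 2 * s ^ (n + 2) = (s ^ 2 * t ^ 2) * s ^ n := by ring
    have e2 : s ^ 2 * t ^ (n + 2) = (s ^ 2 * t ^ 2) * t ^ n := by ring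
    rw [e1, e2]
    exact mul_le_mul_of_nonneg_left (pow_le_pow_left₀ hs hst n) (by positivity)
  linarith only [mul_le_mul_of_nonneg_left hp hc]

lemma gq_le {q s : ℝ} (hq0 : 0 ≤ q) (hq1 : q ≤ 1) (hs : 0 ≤ s) (hs1 : s < 1) :
    gq q s ≤ s ^ 2 * ((1 + q) * Real.log (1 + q)) := by
  have hcont : Continuous (fun t : ℝ => s ^ 2 * gq q t) := by
    have h1 : Continuous (fun t : ℝ => (1 + q * t) * Real.log (1 + q * t)) :=
      Real.continuous_mul_log.comp (by fun_prop)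
    have h2 : Continuous (fun t : ℝ => (1 - t) * Real.log (1 - t)) :=
      Real.continuous_mul_log.comp (by fun_prop)
    exact (h1.add (h2.const_mul q)).const_mul _ 
  have hcont2 : Continuous (fun t : ℝ => t ^ 2 * gq q s) := by fun_prop
  have key : (1 : ℝ) ^ 2 * gq q s ≤ s ^ 2 * gq q 1 := by
    have t1 : Tendsto (fun t : ℝ => t ^ 2 * gq q s) (𝓝[<] 1) (𝓝 ((1 : ℝ) ^ 2 * gq q s)) :=
      (hcont2.tendsto 1).mono_left nhdsWithin_le_nhds
    have t2 : Tendsto (fun t : ℝ => s ^ 2 * gq q t) (𝓝[<] 1) (𝓝 (s ^ 2 * gq q 1)) :=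
      (hcont.tendsto 1).mono_left nhdsWithin_le_nhds
    refine le_of_tendsto_of_tendsto t1 t2 ?_
    filter_upwards [Ioo_mem_nhdsLT hs1] with t ht
    exact gq_ratio hq0 hq1 hs ht.1.le ht.2
  have e : gq q 1 = (1 + q) * Real.log (1 + q) := by
    rw [gq_eq]; simp
  rw [e] at key
  linarith

lemma KL_bound_right {a m : ℝ} (h0 : 0 ≤ a) (ham : a ≤ m) (hm : m < 1) :
    (1 - a) ^ 2 * KL m a ≤ (m - a) ^ 2 * (Real.log 2 - Real.log (1 + a)) := by
  have h1a : 0 < 1 - a := by linarith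
  have h1a' : 0 < 1 + a := by linarith
  have hs0 : 0 ≤ (m - a) / (1 - a) := div_nonneg (by linarith) h1a.le
  have hs1 : (m - a) / (1 - a) < 1 := by rw [div_lt_one h1a]; linarith
  have hq0 : 0 ≤ (1 - a) / (1 + a) := div_nonneg h1a.le h1a'.le
  have hq1 : (1 - a) / (1 + a) ≤ 1 := by rw [div_le_one h1a']; linarith
  have h := gq_le hq0 hq1 hs0 hs1
  rw [gq_eq] at h
  have e1 : 1 + (1 - a) / (1 + a) * ((m - a) / (1 - a)) = (1 + m) / (1 + a) := by
    field_simp; ring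
  have e2 : 1 - (m - a) / (1 - a) = (1 - m) / (1 - a) := by
    field_simp; ring
  have e3 : 1 + (1 - a) / (1 + a) = 2 / (1 + a) := by
    field_simp; ring
  rw [e1, e2, e3, Real.log_div (by linarith only [h0, ham]) h1a'.ne', Real.log_div (by linarith only [hm]) h1a.ne',
    Real.log_div (by norm_num) h1a'.ne'] at h
  rw [KL_eq]
  have hmul := mul_le_mul_of_nonneg_left h (show 0 ≤ (1 - a) ^ 2 * ((1 + a) / 2) by positivity)
  have e4 : (1 - a) ^ 2 * ((1 + a) / 2) *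
      ((1 + m) / (1 + a) * (Real.log (1 + m) - Real.log (1 + a)) +
        (1 - a) / (1 + a) * ((1 - m) / (1 - a) * (Real.log (1 - m) - Real.log (1 - a))))
      = (1 - a) ^ 2 * ((1 + m) / 2 * (Real.log (1 + m) - Real.log (1 + a)) +
        (1 - m) / 2 * (Real.log (1 - m) - Real.log (1 - a))) := by
    field_simp
  have e5 : (1 - a) ^ 2 * ((1 + a) / 2) *
      (((m - a) / (1 - a)) ^ 2 * (2 / (1 + a) * (Real.log 2 - Real.log (1 + a))))
      = (m - a) ^ 2 * (Real.log 2 - Real.log (1 + a)) := by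
    field_simp
  rw [e4, e5] at hmul
  exact hmul

lemma mul_log_le1 {u : ℝ} (hu : 1 / 2 ≤ u) (hu1 : u ≤ 1) :
    u * Real.log u ≤ (u - 1) + 3 / 4 * (u - 1) ^ 2 := by
  set L : ℝ → ℝ := fun x => (x - 1) + 3 / 4 * (x - 1) ^ 2 - x * Real.log x with hL
  have hlog : ∀ x ∈ Icc (1 / 2 : ℝ) 1, 3 / 2 * (x - 1) ≤ Real.log x := by
    intro x hx
    have hc := strictConcaveOn_log_Ioi.concaveOn.2 (x := (1 / 2 : ℝ)) (by simp) (y := (1 : ℝ)) (by simp)
      (show (0 : ℝ) ≤ 2 * (1 - x) by linarith only [hx.2]) (show (0 : ℝ) ≤ 2 * x - 1 by linarith only [hx.1]) (by ring)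
    simp only [smul_eq_mul, Real.log_one, mul_zero, add_zero, mul_one] at hc
    have e : 2 * (1 - x) * (1 / 2) + (2 * x - 1) = x := by ring
    rw [e] at hc
    have hl2 : Real.log (1 / 2) = - Real.log 2 := by
      rw [one_div, Real.log_inv]
    rw [hl2] at hc
    have h2 := Real.log_two_lt_d9
    have : 0 ≤ 1 - x := by linarith only [hx.2]
    linarith only [mul_nonneg (sub_nonneg.2 this) (le_of_lt (sub_pos.2 h2)), mul_nonneg (mul_self_nonneg (1 : ℝ)) (sub_nonneg.2 this), mul_nonneg (mul_self_nonneg (1 : ℝ)) (sub_nonneg.2 hc)]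
  have hanti : AntitoneOn L (Icc (1 / 2 : ℝ) 1) := by
    refine antitoneOn_of_deriv_nonpos (convex_Icc _ _) ?_ ?_ ?_
    · have : Continuous L := by
        have := Real.continuous_mul_log
        fun_prop
      exact this.continuousOn
    · rw [interior_Icc]
      intro x hx
      have hx0 : x ≠ 0 := by have := hx.1; intro h; rw [h] at this; norm_num at this
      have : DifferentiableAt ℝ L x := by
        refine DifferentiableAt.sub (by fun_prop) ?_
        exact (Real.hasDerivAt_mul_log hx0).differentiableAt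
      exact this.differentiableWithinAt
    · rw [interior_Icc]
      intro x hx
      have hx0 : x ≠ 0 := by have := hx.1; intro h; rw [h] at this; norm_num at this
      have hd : HasDerivAt L (3 / 2 * (x - 1) - Real.log x) x := by
        have d1 : HasDerivAt (fun y : ℝ => (y - 1)) 1 x := by
          simpa using (hasDerivAt_id x).sub_const 1
        have d2 := (d1.add ((d1.pow 2).const_mul (3 / 4))).sub (Real.hasDerivAt_mul_log hx0)
        refine HasDerivAt.congr_deriv (f := L) d2 ?_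
        push_cast
        ring
      rw [hd.deriv]
      have := hlog x (Ioo_subset_Icc_self hx)
      linarith only [this]
  have h := hanti (a := u) ⟨hu, hu1⟩ (b := 1) ⟨by norm_num, le_refl _⟩ hu1
  simp only [hL, Real.log_one, mul_zero, sub_self] at h
  norm_num at h
  linarith only [h]

lemma mul_log_le2 {v : ℝ} (hv : 1 ≤ v) :
    v * Real.log v ≤ (v - 1) + 1 / 2 * (v - 1) ^ 2 := by
  set L : ℝ → ℝ := fun x => (x - 1) + 1 / 2 * (x - 1) ^ 2 - x * Real.log x with hL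
  have hmono : MonotoneOn L (Ici (1 : ℝ)) := by
    refine monotoneOn_of_deriv_nonneg (convex_Ici _) ?_ ?_ ?_
    · have : Continuous L := by
        have := Real.continuous_mul_log
        fun_prop
      exact this.continuousOn
    · rw [interior_Ici]
      intro x hx
      have hx0 : x ≠ 0 := by have : (1:ℝ) < x := hx; intro h; rw [h] at this; norm_num at this
      have : DifferentiableAt ℝ L x := by
        refine DifferentiableAt.sub (by fun_prop) ?_
        exact (Real.hasDerivAt_mul_log hx0).differentiableAt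
      exact this.differentiableWithinAt
    · rw [interior_Ici]
      intro x hx
      have hx1 : (1:ℝ) < x := hx
      have hx0 : x ≠ 0 := by intro h; rw [h] at hx1; norm_num at hx1
      have hd : HasDerivAt L ((x - 1) - Real.log x) x := by
        have d1 : HasDerivAt (fun y : ℝ => (y - 1)) 1 x := by
          simpa using (hasDerivAt_id x).sub_const 1
        have d2 := (d1.add ((d1.pow 2).const_mul (1 / 2))).sub (Real.hasDerivAt_mul_log hx0)
        refine HasDerivAt.congr_deriv (f := L) d2 ?_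
        push_cast
        ring
      rw [hd.deriv]
      have := Real.log_le_sub_one_of_pos (show 0 < x by linarith)
      linarith
  have h := hmono (a := 1) (by simp) (b := v) (by simpa using hv) hv
  simp only [hL, Real.log_one, mul_zero, sub_self] at h
  norm_num at h
  linarith only [h]

lemma neg_log_ge {q : ℝ} (h0 : 0 ≤ q) (h1 : q < 1) : q + q ^ 2 / 2 ≤ -Real.log (1 - q) := by
  have h := Real.hasSum_pow_div_log_of_abs_lt_one (x := q) (by rw [abs_of_nonneg h0]; exact h1)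
  have h2 := sum_le_hasSum (Finset.range 2) (fun i _ => by positivity) h
  simp only [Finset.sum_range_succ, Finset.range_zero, Finset.sum_empty] at h2
  norm_num at h2
  linarith

lemma KL_bound_left {a m : ℝ} (h0 : 0 ≤ m) (ham : m ≤ a) (ha : a < 1) :
    (1 - a) ^ 2 * KL m a ≤ (m - a) ^ 2 * (Real.log 2 - Real.log (1 + a)) := by
  have h1a : 0 < 1 - a := by linarith
  have h1a' : 0 < 1 + a := by linarith
  have hu1 : (1 + m) / (1 + a) ≤ 1 := by rw [div_le_one h1a']; linarith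
  have hu : 1 / 2 ≤ (1 + m) / (1 + a) := by
    rw [div_le_div_iff₀ (by norm_num) h1a']; linarith
  have hv : 1 ≤ (1 - m) / (1 - a) := by rw [one_le_div h1a]; linarith
  have L1 := mul_log_le1 hu hu1
  have L2 := mul_log_le2 hv
  have L3 := neg_log_ge (q := (1 - a) / 2) (by linarith only [ha]) (by linarith only [h0, ham])
  have e0 : 1 - (1 - a) / 2 = (1 + a) / 2 := by ring
  rw [e0, Real.log_div (by linarith only [h0, ham]) (by norm_num)] at L3
  rw [Real.log_div (by linarith only [h0]) h1a'.ne'] at L1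
  rw [Real.log_div (by linarith only [ham, ha]) h1a.ne'] at L2
  rw [KL_eq]
  -- scale
  have L1' := mul_le_mul_of_nonneg_left L1 h1a'.le
  have L2' := mul_le_mul_of_nonneg_left L2 h1a.le
  have e1 : (1 + a) * ((1 + m) / (1 + a) * (Real.log (1 + m) - Real.log (1 + a)))
      = (1 + m) * (Real.log (1 + m) - Real.log (1 + a)) := by field_simp
  have e2 : (1 + a) * ((1 + m) / (1 + a) - 1 + 3 / 4 * ((1 + m) / (1 + a) - 1) ^ 2)
      = (m - a) + 3 / 4 * (m - a) ^ 2 / (1 + a) := by field_simp; ring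
  have e3 : (1 - a) * ((1 - m) / (1 - a) * (Real.log (1 - m) - Real.log (1 - a)))
      = (1 - m) * (Real.log (1 - m) - Real.log (1 - a)) := by field_simp
  have e4 : (1 - a) * ((1 - m) / (1 - a) - 1 + 1 / 2 * ((1 - m) / (1 - a) - 1) ^ 2)
      = (a - m) + 1 / 2 * (m - a) ^ 2 / (1 - a) := by field_simp; ring
  rw [e1, e2] at L1'
  rw [e3, e4] at L2'
  have hK : (1 + m) / 2 * (Real.log (1 + m) - Real.log (1 + a))
      + (1 - m) / 2 * (Real.log (1 - m) - Real.log (1 - a))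
      ≤ (m - a) ^ 2 * (3 / 8 / (1 + a) + 1 / 4 / (1 - a)) := by
    have : (m - a) ^ 2 * (3 / 8 / (1 + a) + 1 / 4 / (1 - a))
        = (3 / 4 * (m - a) ^ 2 / (1 + a) + 1 / 2 * (m - a) ^ 2 / (1 - a)) / 2 := by
      field_simp; ring
    rw [this]
    linarith only [L1', L2']
  have h5 : (1 - a) ^ 2 * (3 / 8 / (1 + a) + 1 / 4 / (1 - a)) ≤ Real.log 2 - Real.log (1 + a) := by
    have h6 : (1 - a) ^ 2 * (3 / 8 / (1 + a) + 1 / 4 / (1 - a)) ≤ (1 - a) / 2 + ((1 - a) / 2) ^ 2 / 2 := by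
      have e : (1 - a) ^ 2 * (3 / 8 / (1 + a) + 1 / 4 / (1 - a))
          = (1 - a) * ((3 / 8 * (1 - a) + 1 / 4 * (1 + a)) / (1 + a)) := by field_simp
      have e' : (1 - a) / 2 + ((1 - a) / 2) ^ 2 / 2 = (1 - a) * (1 / 2 + (1 - a) / 8) := by ring
      rw [e, e']
      refine mul_le_mul_of_nonneg_left ?_ h1a.le
      rw [div_le_iff₀ h1a']
      nlinarith only [h0, ham, ha]
    linarith only [L3, h6]
  calc (1 - a) ^ 2 * _ ≤ (1 - a) ^ 2 * ((m - a) ^ 2 * (3 / 8 / (1 + a) + 1 / 4 / (1 - a))) :=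
        mul_le_mul_of_nonneg_left hK (by positivity)
    _ = (m - a) ^ 2 * ((1 - a) ^ 2 * (3 / 8 / (1 + a) + 1 / 4 / (1 - a))) := by ring
    _ ≤ _ := mul_le_mul_of_nonneg_left h5 (by positivity)

/-- `KL(m‖a)/KL(1‖a) ≤ ((m-a)/(1-a))²` for `0 ≤ m < 1`, `0 ≤ a < 1`. -/
lemma KL_bound {a m : ℝ} (h0 : 0 ≤ a) (ha : a < 1) (hm0 : 0 ≤ m) (hm : m < 1) :
    (1 - a) ^ 2 * KL m a ≤ (m - a) ^ 2 * (Real.log 2 - Real.log (1 + a)) := by
  rcases le_total a m with h | h
  · exact KL_bound_right h0 h hm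
  · exact KL_bound_left hm0 h ha

end Vale.Agent.P322
end
end

section

section

/-! Pointwise two-point certificates: for every base `(a, r)` in the open diamond, `a ≥ 0`,
`r > 0`, an explicit affine-plus-`θ hV` minorant of `hV ρ`, with equality at `(a, r)` and
`(1, 0)`. -/

namespace Vale.Agent.P322

open Real Filter Topology Set

lemma HH_eq_ph {x : ℝ} (h : |x| < 1) : HH x = Real.log 2 - ph x := by
  have hlt := abs_lt.mp h
  unfold HH
  rw [Real.binEntropy_eq_negMulLog_add_negMulLog_one_sub, ph_eq]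
  have e : 1 - (1 + x) / 2 = (1 - x) / 2 := by ring
  rw [e]
  simp only [Real.negMulLog]
  rw [Real.log_div (by linarith) (by norm_num), Real.log_div (by linarith) (by norm_num)]
  ring

/-- half-sum of logs at the `+` cell -/
noncomputable def Lp (a x : ℝ) : ℝ := (Real.log (1 + a + x) + Real.log (1 + a - x)) / 2
/-- half-sum of logs at the `-` cell -/
noncomputable def Lm (a x : ℝ) : ℝ := (Real.log (1 - a + x) + Real.log (1 - a - x)) / 2
/-- sum of the two half log-ratios -/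
noncomputable def AA (a x : ℝ) : ℝ :=
  (Real.log (1 + a + x) - Real.log (1 + a - x)) / 2
    + (Real.log (1 - a + x) - Real.log (1 - a - x)) / 2
/-- relative entropy of `(1,0)` with respect to the base -/
noncomputable def NN (a x : ℝ) : ℝ := Real.log 2 - Lp a x

noncomputable def thC (ρ a r : ℝ) : ℝ := NN a (ρ * r) / NN a r
noncomputable def PC (ρ a r : ℝ) : ℝ := (thC ρ a r * AA a r - ρ * AA a (ρ * r)) / 2
noncomputable def QC (ρ a r : ℝ) : ℝ :=
  (thC ρ a r * (Lm a r - Lp a r) - (Lm a (ρ * r) - Lp a (ρ * r))) / 2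

/-- relative entropy of the `ρ`-noisy law `(m,c)` with respect to the base `(a,r)`. -/
noncomputable def DD (ρ a r m c : ℝ) : ℝ :=
  Real.log 2 - hV ρ m c - (1 + m) / 2 * Lp a (ρ * r) - (1 - m) / 2 * Lm a (ρ * r)
    - c / 2 * (ρ * AA a (ρ * r))

lemma Lp_eq (a x : ℝ) : Lp a x = (Real.log (1 + a + x) + Real.log (1 + a - x)) / 2 := rfl
lemma Lm_eq (a x : ℝ) : Lm a x = (Real.log (1 - a + x) + Real.log (1 - a - x)) / 2 := rfl
lemma AA_eq (a x : ℝ) : AA a x = (Real.log (1 + a + x) - Real.log (1 + a - x)) / 2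
    + (Real.log (1 - a + x) - Real.log (1 - a - x)) / 2 := rfl
lemma NN_eq (a x : ℝ) : NN a x = Real.log 2 - Lp a x := rfl
lemma thC_eq (ρ a r : ℝ) : thC ρ a r = NN a (ρ * r) / NN a r := rfl
lemma PC_eq (ρ a r : ℝ) : PC ρ a r = (thC ρ a r * AA a r - ρ * AA a (ρ * r)) / 2 := rfl
lemma QC_eq (ρ a r : ℝ) : QC ρ a r =
  (thC ρ a r * (Lm a r - Lp a r) - (Lm a (ρ * r) - Lp a (ρ * r))) / 2 := rfl
lemma DD_eq (ρ a r m c : ℝ) : DD ρ a r m c =
  Real.log 2 - hV ρ m c - (1 + m) / 2 * Lp a (ρ * r) - (1 - m) / 2 * Lm a (ρ * r)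
    - c / 2 * (ρ * AA a (ρ * r)) := rfl

lemma hasSum_T {y s : ℝ} (hy : |y| < 1) (hs : |s * y| < 1) :
    HasSum (fun k : ℕ => y ^ (2 * k + 2) / (2 * k + 2) * psi k s)
      (ph (s * y) - s * (y * (Real.log (1 + y) - Real.log (1 - y)) / 2)
        + (-(Real.log (1 + y) + Real.log (1 - y)) / 2)) := by
  have h := ((hasSum_ph hs).sub ((hasSum_ser2 hy).mul_left s)).add (hasSum_ser1 hy)
  refine hasSum_of_eq h (fun k => ?_) rfl
  rw [psi_eq, mul_pow]
  have : (2 * (k : ℝ) + 1) ≠ 0 := by positivity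
  have : (2 * (k : ℝ) + 2) ≠ 0 := by positivity
  field_simp

/-- weights -/
noncomputable def wC (a r : ℝ) : ℕ → ℝ
  | 0 => Real.log 2 - Real.log (1 + a)
  | (k + 1) => (r / (1 + a)) ^ (2 * k + 2) / (2 * k + 2)

/-- ratios -/
noncomputable def xC (a r m c : ℝ) : ℕ → ℝ
  | 0 => KL m a / (Real.log 2 - Real.log (1 + a))
  | (k + 1) => (1 + m) / 2 * psi k (c * (1 + a) / ((1 + m) * r))
      + (1 - m) / 2 * (((1 + a) / (1 - a)) ^ (2 * k + 2) * psi k (c * (1 - a) / ((1 - m) * r)))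

lemma wC_zero (a r : ℝ) : wC a r 0 = Real.log 2 - Real.log (1 + a) := rfl
lemma wC_succ (a r : ℝ) (k : ℕ) : wC a r (k + 1) = (r / (1 + a)) ^ (2 * k + 2) / (2 * k + 2) := rfl
lemma xC_zero (a r m c : ℝ) : xC a r m c 0 = KL m a / (Real.log 2 - Real.log (1 + a)) := rfl
lemma xC_succ (a r m c : ℝ) (k : ℕ) : xC a r m c (k + 1) =
    (1 + m) / 2 * psi k (c * (1 + a) / ((1 + m) * r))
      + (1 - m) / 2 * (((1 + a) / (1 - a)) ^ (2 * k + 2) * psi k (c * (1 - a) / ((1 - m) * r))) := rfl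

lemma k1_pos {a : ℝ} (h0 : 0 ≤ a) (h1 : a < 1) : 0 < Real.log 2 - Real.log (1 + a) := by
  have := Real.log_lt_log (show 0 < 1 + a by linarith) (show 1 + a < 2 by linarith)
  linarith

lemma hasSum_shift {f : ℕ → ℝ} {s : ℝ} (h : HasSum (fun n => f (n + 1)) s) :
    HasSum f (f 0 + s) := by
  have := (hasSum_nat_add_iff (f := f) 1).mp h
  simpa [add_comm] using this

lemma hasSum_w {ρ a r : ℝ} (hρ0 : 0 ≤ ρ) (hρ1 : ρ ≤ 1) (ha0 : 0 ≤ a) (hr0 : 0 ≤ r)
    (har : a + r < 1) : HasSum (fun n => ρ ^ (2 * n) * wC a r n) (NN a (ρ * r)) := by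
  have ha : 0 < 1 + a := by linarith
  have hb0 : 0 ≤ ρ * (r / (1 + a)) := by positivity
  have hb1 : ρ * (r / (1 + a)) < 1 := by
    have h1 : r / (1 + a) < 1 := by rw [div_lt_one ha]; linarith
    have h2 : 0 ≤ r / (1 + a) := by positivity
    nlinarith only [h1, hρ1, h2]
  have hρr : ρ * r ≤ r := by linarith only [mul_nonneg (sub_nonneg.2 hρ1) (sub_nonneg.2 hr0)]
  have hρr0 : 0 ≤ ρ * r := by positivity
  have h := hasSum_ser1 (y := ρ * (r / (1 + a))) (by rw [abs_of_nonneg hb0]; exact hb1)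
  have e1 : 1 + ρ * (r / (1 + a)) = (1 + a + ρ * r) / (1 + a) := by field_simp
  have e2 : 1 - ρ * (r / (1 + a)) = (1 + a - ρ * r) / (1 + a) := by field_simp
  rw [e1, e2, Real.log_div (by linarith) ha.ne', Real.log_div (by linarith) ha.ne'] at h
  have h2 : HasSum (fun k : ℕ => ρ ^ (2 * (k + 1)) * wC a r (k + 1))
      (-(Real.log (1 + a + ρ * r) - Real.log (1 + a) + (Real.log (1 + a - ρ * r) - Real.log (1 + a))) / 2) := by
    refine hasSum_of_eq h (fun k => ?_) rfl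
    rw [wC_succ, mul_pow]
    ring
  have h3 := hasSum_shift (f := fun n => ρ ^ (2 * n) * wC a r n) h2
  refine hasSum_of_eq h3 (fun k => rfl) ?_
  simp only [wC_zero, NN_eq, Lp_eq, Nat.mul_zero, pow_zero, one_mul]
  ring

lemma ph_scaled {u C : ℝ} (hu : 0 < u) (h1 : C < u) (h2 : -u < C) :
    u * ph (C / u) = (u + C) / 2 * (Real.log (u + C) - Real.log u)
      + (u - C) / 2 * (Real.log (u - C) - Real.log u) := by
  rw [ph_eq]
  have e1 : 1 + C / u = (u + C) / u := by field_simp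
  have e2 : 1 - C / u = (u - C) / u := by field_simp
  rw [e1, e2, Real.log_div (by linarith) hu.ne', Real.log_div (by linarith) hu.ne']
  field_simp

lemma DD_value {a m X C : ℝ} (ha0 : 0 ≤ a) (hX0 : 0 ≤ X) (haX : a + X < 1)
    (hm0 : 0 ≤ m) (hC0 : 0 ≤ C) (hmC : m + C < 1) :
    KL m a + ((1 + m) / 2 * (ph (C / (1 + m))
        - (C / (1 + m)) * ((Real.log (1 + X / (1 + a)) - Real.log (1 - X / (1 + a))) / 2)
        + (-(Real.log (1 + X / (1 + a)) + Real.log (1 - X / (1 + a))) / 2))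
      + (1 - m) / 2 * (ph (C / (1 - m))
        - (C / (1 - m)) * ((Real.log (1 + X / (1 - a)) - Real.log (1 - X / (1 - a))) / 2)
        + (-(Real.log (1 + X / (1 - a)) + Real.log (1 - X / (1 - a))) / 2)))
    = Real.log 2 - (HH (m + C) + HH (m - C)) / 2 - (1 + m) / 2 * Lp a X - (1 - m) / 2 * Lm a X
      - C / 2 * AA a X := by
  have ha : 0 < 1 + a := by linarith
  have ha' : 0 < 1 - a := by linarith
  have hm : 0 < 1 + m := by linarith
  have hm' : 0 < 1 - m := by linarith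
  have p1 := ph_scaled hm (C := C) (by linarith) (by linarith)
  have p2 := ph_scaled hm' (C := C) (by linarith) (by linarith)
  have hH1 : HH (m + C) = Real.log 2 - ph (m + C) := HH_eq_ph (by rw [abs_lt]; constructor <;> linarith only [hm0, hC0, hmC])
  have hH2 : HH (m - C) = Real.log 2 - ph (m - C) := HH_eq_ph (by rw [abs_lt]; constructor <;> linarith only [hm0, hmC, hC0])
  rw [hH1, hH2, ph_eq (m + C), ph_eq (m - C)]
  have e1 : 1 + X / (1 + a) = (1 + a + X) / (1 + a) := by field_simp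
  have e2 : 1 - X / (1 + a) = (1 + a - X) / (1 + a) := by field_simp
  have e3 : 1 + X / (1 - a) = (1 - a + X) / (1 - a) := by field_simp
  have e4 : 1 - X / (1 - a) = (1 - a - X) / (1 - a) := by field_simp
  rw [e1, e2, e3, e4, Real.log_div (by linarith only [ha0, hX0]) ha.ne', Real.log_div (by linarith only [ha0, haX]) ha.ne',
    Real.log_div (by linarith only [hX0, haX]) ha'.ne', Real.log_div (by linarith only [haX]) ha'.ne']
  rw [KL_eq, Lp_eq, Lm_eq, AA_eq]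
  have c1 : (1 + m) * (C / (1 + m)) = C := by field_simp
  have c2 : (1 - m) * (C / (1 - m)) = C := by field_simp
  have f1 : 1 + (m + C) = 1 + m + C := by ring
  have f2 : 1 - (m + C) = 1 - m - C := by ring
  have f3 : 1 + (m - C) = 1 + m - C := by ring
  have f4 : 1 - (m - C) = 1 - m + C := by ring
  rw [f1, f2, f3, f4]
  linear_combination (1 / 2) * p1 + (1 / 2) * p2
    - (1 / 2) * ((Real.log (1 + a + X) - Real.log (1 + a) - (Real.log (1 + a - X) - Real.log (1 + a))) / 2) * c1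
    - (1 / 2) * ((Real.log (1 - a + X) - Real.log (1 - a) - (Real.log (1 - a - X) - Real.log (1 - a))) / 2) * c2

lemma hasSum_wx {ρ a r m c : ℝ} (hρ0 : 0 ≤ ρ) (hρ1 : ρ ≤ 1) (ha0 : 0 ≤ a) (hr0 : 0 < r)
    (har : a + r < 1) (hm0 : 0 ≤ m) (hc0 : 0 ≤ c) (hmc : m + c < 1) :
    HasSum (fun n => ρ ^ (2 * n) * (wC a r n * xC a r m c n)) (DD ρ a r m c) := by
  have ha : 0 < 1 + a := by linarith
  have ha' : 0 < 1 - a := by linarith
  have hm : 0 < 1 + m := by linarith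
  have hm' : 0 < 1 - m := by linarith
  have hρr : ρ * r ≤ r := by linarith only [mul_nonneg (sub_nonneg.2 hρ1) (le_of_lt (sub_pos.2 hr0))]
  have hρr0 : 0 ≤ ρ * r := by positivity
  have hρc : ρ * c ≤ c := by linarith only [mul_nonneg (sub_nonneg.2 hρ1) (sub_nonneg.2 hc0)]
  have hρc0 : 0 ≤ ρ * c := by positivity
  have b1 : |ρ * r / (1 + a)| < 1 := by
    rw [abs_of_nonneg (by positivity), div_lt_one ha]; linarith
  have b2 : |ρ * r / (1 - a)| < 1 := by
    rw [abs_of_nonneg (by positivity), div_lt_one ha']; linarith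
  have s1 : (c * (1 + a) / ((1 + m) * r)) * (ρ * r / (1 + a)) = ρ * c / (1 + m) := by
    field_simp
  have s2 : (c * (1 - a) / ((1 - m) * r)) * (ρ * r / (1 - a)) = ρ * c / (1 - m) := by
    field_simp
  have z1 : |(c * (1 + a) / ((1 + m) * r)) * (ρ * r / (1 + a))| < 1 := by
    rw [s1, abs_of_nonneg (by positivity), div_lt_one hm]; linarith only [hm0, hmc, hρc]
  have z2 : |(c * (1 - a) / ((1 - m) * r)) * (ρ * r / (1 - a))| < 1 := by
    rw [s2, abs_of_nonneg (by positivity), div_lt_one hm']; linarith only [hmc, hρc]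
  have T1 := (hasSum_T b1 z1).mul_left ((1 + m) / 2)
  have T2 := (hasSum_T b2 z2).mul_left ((1 - m) / 2)
  have T := T1.add T2
  have hT : ∀ k : ℕ, ρ ^ (2 * (k + 1)) * (wC a r (k + 1) * xC a r m c (k + 1)) =
      (1 + m) / 2 * ((ρ * r / (1 + a)) ^ (2 * k + 2) / (2 * k + 2) * psi k (c * (1 + a) / ((1 + m) * r))) +
        (1 - m) / 2 * ((ρ * r / (1 - a)) ^ (2 * k + 2) / (2 * k + 2) * psi k (c * (1 - a) / ((1 - m) * r))) := by
    intro k
    rw [wC_succ, xC_succ, div_pow, div_pow, div_pow, div_pow, mul_pow]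
    have : (2 * (k : ℝ) + 2) ≠ 0 := by positivity
    have e : 2 * (k + 1) = 2 * k + 2 := by ring
    rw [e]
    field_simp
  have T' := hasSum_of_eq T hT rfl
  have h3 := hasSum_shift (f := fun n => ρ ^ (2 * n) * (wC a r n * xC a r m c n)) T'
  refine hasSum_of_eq h3 (fun k => rfl) ?_
  have hk1 := k1_pos ha0 (by linarith only [hr0, har] : a < 1)
  have v := DD_value ha0 hρr0 (by linarith only [har, hρr] : a + ρ * r < 1) hm0 hρc0 (by linarith only [hmc, hρc] : m + ρ * c < 1)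
  rw [DD_eq]
  simp only [wC_zero, xC_zero, Nat.mul_zero, pow_zero, one_mul]
  rw [mul_div_cancel₀ _ hk1.ne', s1, s2]
  have hh : hV ρ m c = (HH (m + ρ * c) + HH (m - ρ * c)) / 2 := rfl
  rw [hh]
  have s1' : (c * (1 + a) / ((1 + m) * r)) * (ρ * r / (1 + a) * (Real.log (1 + ρ * r / (1 + a)) - Real.log (1 - ρ * r / (1 + a))) / 2) = ρ * c / (1 + m) * ((Real.log (1 + ρ * r / (1 + a)) - Real.log (1 - ρ * r / (1 + a))) / 2) := by
    rw [← s1]; ring
  have s2' : (c * (1 - a) / ((1 - m) * r)) * (ρ * r / (1 - a) * (Real.log (1 + ρ * r / (1 - a)) - Real.log (1 - ρ * r / (1 - a))) / 2) = ρ * c / (1 - m) * ((Real.log (1 + ρ * r / (1 - a)) - Real.log (1 - ρ * r / (1 - a))) / 2) := by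
    rw [← s2]; ring
  rw [s1', s2', v]
  ring

lemma titu {m u v : ℝ} (hm : 0 < 1 + m) (hm' : 0 < 1 - m) :
    (u - v) ^ 2 / 2 ≤ u ^ 2 / (1 + m) + v ^ 2 / (1 - m) := by
  rw [div_add_div _ _ hm.ne' hm'.ne', div_le_div_iff₀ (by norm_num) (by positivity)]
  linarith only [sq_nonneg (u * (1 - m) + v * (1 + m))]

lemma xC_zero_le {a r m c : ℝ} (ha0 : 0 ≤ a) (hr0 : 0 < r)
    (har : a + r < 1) (hm0 : 0 ≤ m) (hm1 : m < 1) :
    xC a r m c 0 ≤ xC a r m c 1 := by
  have ha : 0 < 1 + a := by linarith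
  have ha' : 0 < 1 - a := by linarith
  have hm : 0 < 1 + m := by linarith
  have hm' : 0 < 1 - m := by linarith
  have hk1 := k1_pos ha0 (by linarith : a < 1)
  have hKL := KL_bound ha0 (by linarith : a < 1) hm0 hm1
  have h1 : xC a r m c 0 ≤ (m - a) ^ 2 / (1 - a) ^ 2 := by
    rw [xC_zero, div_le_div_iff₀ hk1 (by positivity)]
    linarith
  have h2 : (m - a) ^ 2 / (1 - a) ^ 2 ≤ xC a r m c 1 := by
    have e0 : xC a r m c 1 = (1 + m) / 2 * psi 0 (c * (1 + a) / ((1 + m) * r))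
      + (1 - m) / 2 * (((1 + a) / (1 - a)) ^ 2 * psi 0 (c * (1 - a) / ((1 - m) * r))) := by
      simpa using xC_succ a r m c 0
    have e1 : ∀ s, psi 0 s = (s - 1) ^ 2 := by intro s; rw [psi_eq]; push_cast; ring
    rw [e0, e1, e1]
    have e2 : (1 + m) / 2 * (c * (1 + a) / ((1 + m) * r) - 1) ^ 2
      + (1 - m) / 2 * (((1 + a) / (1 - a)) ^ 2 * (c * (1 - a) / ((1 - m) * r) - 1) ^ 2)
      = (1 + a) ^ 2 / 2 * ((c / r - (1 + m) / (1 + a)) ^ 2 / (1 + m)
        + (c / r - (1 - m) / (1 - a)) ^ 2 / (1 - m)) := by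
      field_simp
    have e3 : (m - a) ^ 2 / (1 - a) ^ 2 = (1 + a) ^ 2 / 2 *
        (((c / r - (1 + m) / (1 + a)) - (c / r - (1 - m) / (1 - a))) ^ 2 / 2) := by
      field_simp
      ring
    rw [e2, e3]
    exact mul_le_mul_of_nonneg_left (titu hm hm') (by positivity)
  exact h1.trans h2

lemma xC_mono {a r m c : ℝ} (ha0 : 0 ≤ a) (hr0 : 0 < r)
    (har : a + r < 1) (hm0 : 0 ≤ m) (hc0 : 0 ≤ c) (hm1 : m < 1) :
    Monotone (xC a r m c) := by
  have ha : 0 < 1 + a := by linarith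
  have ha' : 0 < 1 - a := by linarith
  have hm : 0 < 1 + m := by linarith
  have hm' : 0 < 1 - m := by linarith
  refine monotone_nat_of_le_succ (fun n => ?_)
  rcases n with _ | k
  · exact xC_zero_le ha0 hr0 har hm0 hm1
  · rw [xC_succ, xC_succ]
    have s1 : 0 ≤ c * (1 + a) / ((1 + m) * r) := by positivity
    have s2 : 0 ≤ c * (1 - a) / ((1 - m) * r) := by positivity
    have hR : 1 ≤ (1 + a) / (1 - a) := by rw [one_le_div ha']; linarith
    have g1 := psi_step s1 k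
    have g2 := psi_step s2 k
    have g3 : ((1 + a) / (1 - a)) ^ (2 * k + 2) ≤ ((1 + a) / (1 - a)) ^ (2 * (k + 1) + 2) :=
      pow_le_pow_right₀ hR (by omega)
    have g4 : ((1 + a) / (1 - a)) ^ (2 * k + 2) * psi k (c * (1 - a) / ((1 - m) * r))
        ≤ ((1 + a) / (1 - a)) ^ (2 * (k + 1) + 2) * psi (k + 1) (c * (1 - a) / ((1 - m) * r)) :=
      mul_le_mul g3 g2 (psi_nonneg s2 k) (by positivity)
    have t1 := mul_le_mul_of_nonneg_left g1 (show 0 ≤ (1 + m) / 2 by positivity)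
    have t2 := mul_le_mul_of_nonneg_left g4 (show 0 ≤ (1 - m) / 2 by positivity)
    exact add_le_add t1 t2

lemma wC_nonneg {a r : ℝ} (ha0 : 0 ≤ a) (ha1 : a < 1) (hr0 : 0 ≤ r) (n : ℕ) : 0 ≤ wC a r n := by
  rcases n with _ | k
  · rw [wC_zero]; exact (k1_pos ha0 ha1).le
  · rw [wC_succ]; positivity

lemma pow_anti {ρ : ℝ} (hρ0 : 0 ≤ ρ) (hρ1 : ρ ≤ 1) : Antitone (fun n : ℕ => ρ ^ (2 * n)) := by
  intro i j hij
  exact pow_le_pow_of_le_one hρ0 hρ1 (by omega)

lemma NN_pos {a r : ℝ} (ha0 : 0 ≤ a) (hr0 : 0 ≤ r) (har : a + r < 1) : 0 < NN a r := by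
  have h := hasSum_w (ρ := 1) (by norm_num) le_rfl ha0 hr0 har
  rw [one_mul] at h
  have h0 := le_hasSum h 0 (fun j _ => by
    have := wC_nonneg ha0 (by linarith : a < 1) hr0 j
    positivity)
  simp only [wC_zero, one_pow, one_mul] at h0
  exact (k1_pos ha0 (by linarith : a < 1)).trans_le h0

lemma main_ineq {ρ a r m c : ℝ} (hρ0 : 0 ≤ ρ) (hρ1 : ρ ≤ 1) (ha0 : 0 ≤ a) (hr0 : 0 < r)
    (har : a + r < 1) (hm0 : 0 ≤ m) (hc0 : 0 ≤ c) (hmc : m + c < 1) :
    DD ρ a r m c ≤ DD 1 a r m c / NN a r * NN a (ρ * r) := by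
  have hg := hasSum_wx (ρ := 1) (by norm_num) le_rfl ha0 hr0 har hm0 hc0 hmc
  have he := hasSum_w (ρ := 1) (by norm_num) le_rfl ha0 hr0.le har
  have hg' := hasSum_wx hρ0 hρ1 ha0 hr0 har hm0 hc0 hmc
  have he' := hasSum_w hρ0 hρ1 ha0 hr0.le har
  simp only [one_pow, one_mul] at hg he
  have hN := NN_pos ha0 hr0.le har
  refine cheb (xC_mono ha0 hr0 har hm0 hc0 (by linarith)) (wC_nonneg ha0 (by linarith) hr0.le)
    (pow_anti hρ0 hρ1) (fun n => by positivity) hg he hg' he' ?_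
  field_simp

/-- The sequence of ratios used for `Q ≤ 0`. -/
noncomputable def yC (a : ℝ) : ℕ → ℝ
  | 0 => (Real.log (1 + a) - Real.log (1 - a)) / (Real.log 2 - Real.log (1 + a))
  | (k + 1) => ((1 + a) / (1 - a)) ^ (2 * k + 2) - 1

lemma yC_zero (a : ℝ) : yC a 0 =
    (Real.log (1 + a) - Real.log (1 - a)) / (Real.log 2 - Real.log (1 + a)) := rfl
lemma yC_succ (a : ℝ) (k : ℕ) : yC a (k + 1) = ((1 + a) / (1 - a)) ^ (2 * k + 2) - 1 := rfl

lemma yC_mono {a : ℝ} (ha0 : 0 ≤ a) (ha1 : a < 1) : Monotone (yC a) := by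
  have ha : 0 < 1 + a := by linarith
  have ha' : 0 < 1 - a := by linarith
  have hR : 1 ≤ (1 + a) / (1 - a) := by rw [one_le_div ha']; linarith
  refine monotone_nat_of_le_succ (fun n => ?_)
  rcases n with _ | k
  · have e : yC a (0 + 1) = ((1 + a) / (1 - a)) ^ 2 - 1 := by
      simpa using yC_succ a 0
    rw [e, yC_zero]
    have hk1 := k1_pos ha0 ha1
    rw [div_le_iff₀ hk1]
    have h := one_var ha0 ha1
    have h2 : Real.log 2 - Real.log (1 - a)
        ≤ ((1 + a) / (1 - a)) ^ 2 * (Real.log 2 - Real.log (1 + a)) := by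
      rw [div_pow, div_mul_eq_mul_div, le_div_iff₀ (by positivity)]
      linarith
    linarith only [h2]
  · rw [yC_succ, yC_succ]
    have := pow_le_pow_right₀ hR (show 2 * k + 2 ≤ 2 * (k + 1) + 2 by omega)
    linarith

lemma hasSum_wy {ρ a r : ℝ} (hρ0 : 0 ≤ ρ) (hρ1 : ρ ≤ 1) (ha0 : 0 ≤ a) (hr0 : 0 ≤ r)
    (har : a + r < 1) :
    HasSum (fun n => ρ ^ (2 * n) * (wC a r n * yC a n)) (Lp a (ρ * r) - Lm a (ρ * r)) := by
  have ha : 0 < 1 + a := by linarith
  have ha' : 0 < 1 - a := by linarith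
  have hρr : ρ * r ≤ r := by linarith only [mul_nonneg (sub_nonneg.2 hρ1) (sub_nonneg.2 hr0)]
  have hρr0 : 0 ≤ ρ * r := by positivity
  have b1 : |ρ * r / (1 + a)| < 1 := by
    rw [abs_of_nonneg (by positivity), div_lt_one ha]; linarith
  have b2 : |ρ * r / (1 - a)| < 1 := by
    rw [abs_of_nonneg (by positivity), div_lt_one ha']; linarith
  have T := (hasSum_ser1 b2).sub (hasSum_ser1 b1)
  have hT : ∀ k : ℕ, ρ ^ (2 * (k + 1)) * (wC a r (k + 1) * yC a (k + 1)) =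
      (ρ * r / (1 - a)) ^ (2 * k + 2) / (2 * k + 2) - (ρ * r / (1 + a)) ^ (2 * k + 2) / (2 * k + 2) := by
    intro k
    rw [wC_succ, yC_succ, div_pow, div_pow, div_pow, div_pow, mul_pow]
    have : (2 * (k : ℝ) + 2) ≠ 0 := by positivity
    have e : 2 * (k + 1) = 2 * k + 2 := by ring
    rw [e]
    field_simp
  have T' := hasSum_of_eq T hT rfl
  have h3 := hasSum_shift (f := fun n => ρ ^ (2 * n) * (wC a r n * yC a n)) T'
  refine hasSum_of_eq h3 (fun k => rfl) ?_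
  have hk1 := k1_pos ha0 (by linarith : a < 1)
  simp only [wC_zero, yC_zero, Nat.mul_zero, pow_zero, one_mul]
  rw [mul_div_cancel₀ _ hk1.ne', Lp_eq, Lm_eq]
  have e1 : 1 + ρ * r / (1 + a) = (1 + a + ρ * r) / (1 + a) := by field_simp
  have e2 : 1 - ρ * r / (1 + a) = (1 + a - ρ * r) / (1 + a) := by field_simp
  have e3 : 1 + ρ * r / (1 - a) = (1 - a + ρ * r) / (1 - a) := by field_simp
  have e4 : 1 - ρ * r / (1 - a) = (1 - a - ρ * r) / (1 - a) := by field_simp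
  rw [e1, e2, e3, e4, Real.log_div (by linarith only [ha0, hρr0]) ha.ne', Real.log_div (by linarith only [ha0, har, hρr]) ha.ne',
    Real.log_div (by linarith only [hr0, har, hρr0]) ha'.ne', Real.log_div (by linarith only [har, hρr]) ha'.ne']
  ring

lemma QC_nonpos {ρ a r : ℝ} (hρ0 : 0 ≤ ρ) (hρ1 : ρ ≤ 1) (ha0 : 0 ≤ a) (hr0 : 0 ≤ r)
    (har : a + r < 1) : QC ρ a r ≤ 0 := by
  have hg := hasSum_wy (ρ := 1) (by norm_num) le_rfl ha0 hr0 har
  have he := hasSum_w (ρ := 1) (by norm_num) le_rfl ha0 hr0 har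
  have hg' := hasSum_wy hρ0 hρ1 ha0 hr0 har
  have he' := hasSum_w hρ0 hρ1 ha0 hr0 har
  simp only [one_pow, one_mul] at hg he
  have hN := NN_pos ha0 hr0 har
  have h := cheb (yC_mono ha0 (by linarith)) (wC_nonneg ha0 (by linarith) hr0)
    (pow_anti hρ0 hρ1) (fun n => by positivity) hg he hg' he'
    (T := (Lp a r - Lm a r) / NN a r) (by field_simp)
  rw [QC_eq, thC_eq]
  have e : NN a (ρ * r) / NN a r * (Lm a r - Lp a r)
      = -((Lp a r - Lm a r) / NN a r * NN a (ρ * r)) := by ring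
  rw [e]
  linarith only [h]

lemma thC_nonneg {ρ a r : ℝ} (hρ0 : 0 ≤ ρ) (hρ1 : ρ ≤ 1) (ha0 : 0 ≤ a) (hr0 : 0 ≤ r)
    (har : a + r < 1) : 0 ≤ thC ρ a r := by
  rw [thC_eq]
  have h1 : a + ρ * r < 1 := by linarith only [mul_nonneg (sub_nonneg.2 hρ1) (sub_nonneg.2 hr0), har]
  exact div_nonneg (NN_pos ha0 (by positivity) h1).le (NN_pos ha0 hr0 har).le

lemma thC_le_one {ρ a r : ℝ} (hρ0 : 0 ≤ ρ) (hρ1 : ρ ≤ 1) (ha0 : 0 ≤ a) (hr0 : 0 ≤ r)
    (har : a + r < 1) : thC ρ a r ≤ 1 := by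
  rw [thC_eq, div_le_one (NN_pos ha0 hr0 har)]
  have he := hasSum_w (ρ := 1) (by norm_num) le_rfl ha0 hr0 har
  have he' := hasSum_w hρ0 hρ1 ha0 hr0 har
  simp only [one_pow, one_mul] at he
  refine hasSum_le (fun n => ?_) he' he
  have h1 := wC_nonneg ha0 (by linarith : a < 1) hr0 n
  have h2 : ρ ^ (2 * n) ≤ 1 := pow_le_one₀ hρ0 hρ1
  linarith only [mul_nonneg (sub_nonneg.2 h1) (sub_nonneg.2 h2)]

/-- the certificate identity -/
lemma cert_identity {ρ a r m c : ℝ} (hN : NN a r ≠ 0) :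
    hV ρ m c - (thC ρ a r * hV 1 m c + QC ρ a r * (1 - m) + PC ρ a r * c)
      = thC ρ a r * DD 1 a r m c - DD ρ a r m c := by
  have hθ : thC ρ a r * NN a r = NN a (ρ * r) := by rw [thC_eq]; field_simp
  rw [DD_eq, DD_eq, QC_eq, PC_eq, one_mul, one_mul]
  rw [NN_eq, NN_eq] at hθ
  linear_combination -hθ

lemma cert_interior {ρ a r m c : ℝ} (hρ0 : 0 ≤ ρ) (hρ1 : ρ ≤ 1) (ha0 : 0 ≤ a) (hr0 : 0 < r)
    (har : a + r < 1) (hm0 : 0 ≤ m) (hc0 : 0 ≤ c) (hmc : m + c < 1) :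
    thC ρ a r * hV 1 m c + QC ρ a r * (1 - m) + PC ρ a r * c ≤ hV ρ m c := by
  have hN := NN_pos ha0 hr0.le har
  have h1 := cert_identity (ρ := ρ) (m := m) (c := c) hN.ne'
  have h2 := main_ineq hρ0 hρ1 ha0 hr0 har hm0 hc0 hmc
  have h3 : thC ρ a r * DD 1 a r m c = DD 1 a r m c / NN a r * NN a (ρ * r) := by
    rw [thC_eq]; ring
  rw [h3] at h1
  linarith only [h2, h1]

lemma continuous_HH : Continuous HH := by
  unfold HH
  exact Real.binEntropy_continuous.comp (by fun_prop)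

lemma cert_closed {ρ a r m c : ℝ} (hρ0 : 0 ≤ ρ) (hρ1 : ρ ≤ 1) (ha0 : 0 ≤ a) (hr0 : 0 < r)
    (har : a + r < 1) (hm0 : 0 ≤ m) (hc0 : 0 ≤ c) (hmc : m + c ≤ 1) :
    thC ρ a r * hV 1 m c + QC ρ a r * (1 - m) + PC ρ a r * c ≤ hV ρ m c := by
  have hc := continuous_HH
  have c1 : Continuous (fun t : ℝ => thC ρ a r * hV 1 (t * m) (t * c) + QC ρ a r * (1 - t * m)
      + PC ρ a r * (t * c)) := by
    unfold hV; fun_prop
  have c2 : Continuous (fun t : ℝ => hV ρ (t * m) (t * c)) := by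
    unfold hV; fun_prop
  have t1 := (c1.tendsto 1).mono_left (nhdsWithin_le_nhds (s := Iio 1))
  have t2 := (c2.tendsto 1).mono_left (nhdsWithin_le_nhds (s := Iio 1))
  have h := le_of_tendsto_of_tendsto t1 t2 (by
    filter_upwards [Ioo_mem_nhdsLT (show (0 : ℝ) < 1 by norm_num)] with t ht
    have h0 : 0 ≤ t * m := mul_nonneg ht.1.le hm0
    have h1 : 0 ≤ t * c := mul_nonneg ht.1.le hc0
    refine cert_interior hρ0 hρ1 ha0 hr0 har h0 h1 ?_
    have h3 : t * (m + c) ≤ t * 1 := mul_le_mul_of_nonneg_left hmc ht.1.le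
    have h4 := ht.2
    linarith)
  simpa using h

lemma HH_even (x : ℝ) : HH (-x) = HH x := by
  unfold HH
  rw [← Real.binEntropy_one_sub]
  congr 1; ring

lemma HH_nonneg {x : ℝ} (h : |x| ≤ 1) : 0 ≤ HH x := by
  have := abs_le.mp h
  exact Real.binEntropy_nonneg (by linarith) (by linarith)

lemma hV_neg_m (r m c : ℝ) : hV r (-m) c = hV r m c := by
  unfold hV
  have e1 : -m + r * c = -(m - r * c) := by ring
  have e2 : -m - r * c = -(m + r * c) := by ring
  rw [e1, e2, HH_even, HH_even]; ring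

lemma hV_neg_c (r m c : ℝ) : hV r m (-c) = hV r m c := by
  unfold hV
  have e1 : m + r * -c = m - r * c := by ring
  have e2 : m - r * -c = m + r * c := by ring
  rw [e1, e2]; ring

lemma HH_concave : ConcaveOn ℝ (Icc (-1 : ℝ) 1) HH := by
  have h := Real.strictConcave_binEntropy.concaveOn
  refine ⟨convex_Icc _ _, fun x hx y hy s t hs ht hst => ?_⟩
  have hx' : (1 + x) / 2 ∈ Icc (0 : ℝ) 1 := ⟨by linarith [hx.1], by linarith [hx.2]⟩
  have hy' : (1 + y) / 2 ∈ Icc (0 : ℝ) 1 := ⟨by linarith [hy.1], by linarith [hy.2]⟩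
  have := h.2 hx' hy' hs ht hst
  unfold HH
  have e : (1 + (s • x + t • y)) / 2 = s • ((1 + x) / 2) + t • ((1 + y) / 2) := by
    simp only [smul_eq_mul]
    linear_combination (-(1 : ℝ) / 2) * hst
  rw [e]
  exact this

lemma hV_one_le {ρ m c : ℝ} (hρ0 : 0 ≤ ρ) (hρ1 : ρ ≤ 1) (h1 : |m + c| ≤ 1) (h2 : |m - c| ≤ 1) :
    hV 1 m c ≤ hV ρ m c := by
  have a1 := abs_le.mp h1
  have a2 := abs_le.mp h2
  have hc := HH_concave.2 (x := m + c) ⟨a1.1, a1.2⟩ (y := m - c) ⟨a2.1, a2.2⟩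
    (show 0 ≤ (1 + ρ) / 2 by linarith) (show 0 ≤ (1 - ρ) / 2 by linarith) (by ring)
  have hc2 := HH_concave.2 (x := m + c) ⟨a1.1, a1.2⟩ (y := m - c) ⟨a2.1, a2.2⟩
    (show 0 ≤ (1 - ρ) / 2 by linarith) (show 0 ≤ (1 + ρ) / 2 by linarith) (by ring)
  simp only [smul_eq_mul] at hc hc2
  have e1 : (1 + ρ) / 2 * (m + c) + (1 - ρ) / 2 * (m - c) = m + ρ * c := by ring
  have e2 : (1 - ρ) / 2 * (m + c) + (1 + ρ) / 2 * (m - c) = m - ρ * c := by ring
  rw [e1] at hc
  rw [e2] at hc2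
  unfold hV
  rw [one_mul]
  linarith only [hc, hc2]

lemma DD_base {ρ a r : ℝ} (hρ0 : 0 ≤ ρ) (hρ1 : ρ ≤ 1) (ha0 : 0 ≤ a) (hr0 : 0 ≤ r)
    (har : a + r < 1) : DD ρ a r a r = 0 := by
  have hρr : ρ * r ≤ r := by linarith only [mul_nonneg (sub_nonneg.2 hρ1) (sub_nonneg.2 hr0)]
  have hρr0 : 0 ≤ ρ * r := by positivity
  have hH1 : HH (a + ρ * r) = Real.log 2 - ph (a + ρ * r) :=
    HH_eq_ph (by rw [abs_lt]; constructor <;> linarith)
  have hH2 : HH (a - ρ * r) = Real.log 2 - ph (a - ρ * r) :=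
    HH_eq_ph (by rw [abs_lt]; constructor <;> linarith)
  have hh : hV ρ a r = (HH (a + ρ * r) + HH (a - ρ * r)) / 2 := rfl
  rw [DD_eq, hh, hH1, hH2, ph_eq, ph_eq, Lp_eq, Lm_eq, AA_eq]
  have f1 : 1 + (a + ρ * r) = 1 + a + ρ * r := by ring
  have f2 : 1 - (a + ρ * r) = 1 - a - ρ * r := by ring
  have f3 : 1 + (a - ρ * r) = 1 + a - ρ * r := by ring
  have f4 : 1 - (a - ρ * r) = 1 - a + ρ * r := by ring
  rw [f1, f2, f3, f4]
  ring

/-- equality of the certificate at the base point -/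
lemma cert_base {ρ a r : ℝ} (hρ0 : 0 ≤ ρ) (hρ1 : ρ ≤ 1) (ha0 : 0 ≤ a) (hr0 : 0 ≤ r)
    (har : a + r < 1) :
    thC ρ a r * hV 1 a r + QC ρ a r * (1 - a) + PC ρ a r * r = hV ρ a r := by
  have hN := NN_pos ha0 hr0 har
  have h1 := cert_identity (ρ := ρ) (m := a) (c := r) hN.ne'
  rw [DD_base hρ0 hρ1 ha0 hr0 har, DD_base (by norm_num) le_rfl ha0 hr0 har] at h1
  linarith

lemma PC_nonneg {ρ a r : ℝ} (hρ0 : 0 ≤ ρ) (hρ1 : ρ ≤ 1) (ha0 : 0 ≤ a) (hr0 : 0 < r)
    (har : a + r < 1) : 0 ≤ PC ρ a r := by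
  have h1 := cert_base hρ0 hρ1 ha0 hr0.le har
  have h2 := QC_nonpos hρ0 hρ1 ha0 hr0.le har
  have h3 := thC_le_one hρ0 hρ1 ha0 hr0.le har
  have h3' := thC_nonneg hρ0 hρ1 ha0 hr0.le har
  have a1 : |a + r| ≤ 1 := by rw [abs_le]; constructor <;> linarith
  have a2 : |a - r| ≤ 1 := by rw [abs_le]; constructor <;> linarith
  have h4 := hV_one_le hρ0 hρ1 a1 a2
  have h5 : 0 ≤ hV 1 a r := by
    have g1 := HH_nonneg a1
    have g2 := HH_nonneg a2
    unfold hV
    rw [one_mul]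
    linarith
  have h6 : thC ρ a r * hV 1 a r ≤ hV 1 a r := by linarith only [mul_nonneg (sub_nonneg.2 h3) (sub_nonneg.2 h5)]
  have h7 : QC ρ a r * (1 - a) ≤ 0 := mul_nonpos_of_nonpos_of_nonneg h2 (by linarith)
  have h8 : 0 ≤ PC ρ a r * r := by linarith
  exact nonneg_of_mul_nonneg_left h8 hr0

/-- **Pointwise certificate**, for every base `(a, r)` of the open diamond with `a ≥ 0 < r`. -/
theorem cert_pointwise {ρ a r : ℝ} (hρ0 : 0 ≤ ρ) (hρ1 : ρ ≤ 1) (ha0 : 0 ≤ a) (hr0 : 0 < r)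
    (har : a + r < 1) (m c : ℝ) (hmc : |m| + |c| ≤ 1) :
    thC ρ a r * hV 1 m c + QC ρ a r * (1 - m) + PC ρ a r * c ≤ hV ρ m c := by
  have h := cert_closed hρ0 hρ1 ha0 hr0 har (abs_nonneg m) (abs_nonneg c) hmc
  have e1 : ∀ s, hV s |m| |c| = hV s m c := by
    intro s
    rcases abs_choice m with h1 | h1 <;> rcases abs_choice c with h2 | h2 <;> rw [h1, h2] <;>
      simp only [hV_neg_m, hV_neg_c]
  rw [e1, e1] at h
  have h2 := QC_nonpos hρ0 hρ1 ha0 hr0.le har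
  have h3 := PC_nonneg hρ0 hρ1 ha0 hr0 har
  have h4 : QC ρ a r * (1 - m) ≤ QC ρ a r * (1 - |m|) :=
    mul_le_mul_of_nonpos_left (by linarith [le_abs_self m]) h2
  have h5 : PC ρ a r * c ≤ PC ρ a r * |c| := mul_le_mul_of_nonneg_left (le_abs_self c) h3
  linarith

/-- The certificate of the base `(a, r)`, in the form used by `Cert`. -/
theorem cert_of_base {ρ a r : ℝ} (hρ0 : 0 ≤ ρ) (hρ1 : ρ ≤ 1) (ha0 : 0 ≤ a) (hr0 : 0 < r)
    (har : a + r < 1) {S : ℝ → ℝ} {μ δ : ℝ}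
    (h : S μ ≤ thC ρ a r * ((S (μ + δ) + S (μ - δ)) / 2) + QC ρ a r * (1 - μ) + PC ρ a r * δ) :
    ∃ θ q0 q1 q2 : ℝ, 0 ≤ θ ∧
    (∀ m c : ℝ, |m| + |c| ≤ 1 → θ * hV 1 m c + q0 + q1 * m + q2 * c ≤ hV ρ m c) ∧
    S μ ≤ θ * ((S (μ + δ) + S (μ - δ)) / 2) + q0 + q1 * μ + q2 * δ := by
  refine ⟨thC ρ a r, QC ρ a r, -QC ρ a r, PC ρ a r, thC_nonneg hρ0 hρ1 ha0 hr0.le har, ?_, ?_⟩
  · intro m c hmc
    have := cert_pointwise hρ0 hρ1 ha0 hr0 har m c hmc
    linarith
  · linarith only [h]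

end Vale.Agent.P322
end
end

section

section

/-! The certificate with base `(μ, δ)`: the scalar inequality that it needs. -/

namespace Vale.Agent.P322

open Real Filter Topology Set

/-- `LBmd ρ A μ δ` is the lower bound produced by the certificate with base `(μ, δ)`, when the
average potential of the two halves is `A`. -/
noncomputable def LBmd (ρ A μ δ : ℝ) : ℝ :=
  thC ρ μ δ * A + hV ρ μ δ - thC ρ μ δ * hV 1 μ δ

lemma LBmd_eq (ρ A μ δ : ℝ) :
    LBmd ρ A μ δ = thC ρ μ δ * A + hV ρ μ δ - thC ρ μ δ * hV 1 μ δ := rfl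

lemma continuousAt_NN {a x : ℝ} (h1 : 0 < 1 + a + x) (h2 : 0 < 1 + a - x) :
    ContinuousAt (fun x => NN a x) x := by
  unfold NN Lp
  have c1 : ContinuousAt (fun x : ℝ => Real.log (1 + a + x)) x :=
    (ContinuousAt.log (by fun_prop) h1.ne')
  have c2 : ContinuousAt (fun x : ℝ => Real.log (1 + a - x)) x :=
    (ContinuousAt.log (by fun_prop) h2.ne')
  exact continuousAt_const.sub ((c1.add c2).div_const 2)

/-- The certificate with base `(μ, δ)`, including the boundary `μ + δ = 1` with an arbitrarily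
small slack. -/
theorem certMD {ρ : ℝ} (hρ0 : 0 ≤ ρ) (hρ1 : ρ ≤ 1) {S : ℝ → ℝ} {μ δ : ℝ} (hμ : 0 ≤ μ)
    (hδ : 0 < δ) (hδ1 : δ < 1) (hμδ : μ + δ ≤ 1)
    (h : S μ ≤ LBmd ρ ((S (μ + δ) + S (μ - δ)) / 2) μ δ) {η : ℝ} (hη : 0 < η) :
    ∃ θ q0 q1 q2 : ℝ, 0 ≤ θ ∧
    (∀ m c : ℝ, |m| + |c| ≤ 1 → θ * hV 1 m c + q0 + q1 * m + q2 * c ≤ hV ρ m c) ∧
    S μ ≤ θ * ((S (μ + δ) + S (μ - δ)) / 2) + q0 + q1 * μ + q2 * δ + η := by
  set A := (S (μ + δ) + S (μ - δ)) / 2 with hA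
  have hcont : ContinuousAt (fun r => LBmd ρ A μ r) δ := by
    have hc := continuous_HH
    have c0 : ContinuousAt (fun r => NN μ (ρ * r)) δ := by
      have := continuousAt_NN (a := μ) (x := ρ * δ) (by nlinarith only [hμ, hδ, hρ0]) (by nlinarith only [hμ, hδ1, hρ1, hδ])
      exact ContinuousAt.comp (f := fun r : ℝ => ρ * r) (x := δ) this (by fun_prop)
    have c1 : ContinuousAt (fun r => NN μ r) δ := continuousAt_NN (by linarith) (by linarith)
    have hN : NN μ δ ≠ 0 := by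
      have h1 : (1 + μ + δ) * (1 + μ - δ) < 4 := by nlinarith only [hδ, hμδ, hμ]
      have h2 : 0 < (1 + μ + δ) := by linarith
      have h3 : 0 < (1 + μ - δ) := by linarith
      have h4 : Real.log (1 + μ + δ) + Real.log (1 + μ - δ) < Real.log 4 := by
        rw [← Real.log_mul h2.ne' h3.ne']
        exact Real.log_lt_log (by positivity) h1
      have h5 : Real.log 4 = 2 * Real.log 2 := by
        rw [show (4 : ℝ) = 2 ^ 2 by norm_num, Real.log_pow]; norm_num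
      rw [NN_eq, Lp_eq]
      intro h6
      linarith only [h6, h5, h4]
    have c2 : ContinuousAt (fun r => thC ρ μ r) δ := by
      unfold thC
      exact c0.div c1 hN
    have c3 : ContinuousAt (fun r => hV ρ μ r) δ := by
      unfold hV
      fun_prop
    have c4 : ContinuousAt (fun r => hV 1 μ r) δ := by
      unfold hV
      fun_prop
    unfold LBmd
    exact ((c2.mul continuousAt_const).add c3).sub (c2.mul c4)
  have hlt : S μ - η < LBmd ρ A μ δ := by linarith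
  have hev : ∀ᶠ r in 𝓝 δ, S μ - η < LBmd ρ A μ r := hcont.eventually (lt_mem_nhds hlt)
  have hev2 : ∀ᶠ r in 𝓝[<] δ, S μ - η < LBmd ρ A μ r := hev.filter_mono nhdsWithin_le_nhds
  have hev3 : ∀ᶠ r in 𝓝[<] δ, r ∈ Ioo 0 δ := Ioo_mem_nhdsLT hδ
  obtain ⟨r, hr1, hr2⟩ := (hev2.and hev3).exists
  have har : μ + r < 1 := by linarith [hr2.2]
  refine ⟨thC ρ μ r, QC ρ μ r, -QC ρ μ r, PC ρ μ r, thC_nonneg hρ0 hρ1 hμ hr2.1.le har, ?_, ?_⟩
  · intro m c hmc
    have := cert_pointwise hρ0 hρ1 hμ hr2.1 har m c hmc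
    linarith
  · have hb := cert_base hρ0 hρ1 hμ hr2.1.le har
    have hP := PC_nonneg hρ0 hρ1 hμ hr2.1 har
    have h1 : PC ρ μ r * r ≤ PC ρ μ r * δ := mul_le_mul_of_nonneg_left hr2.2.le hP
    rw [LBmd_eq] at hr1
    linarith

end Vale.Agent.P322
end
end

section

section

/-! Regime B (high noise): potential `SB ρ μ = (1-ρ²) H(μ) + b (1-μ²)`, `b = H(ρ) - (1-ρ²) log 2`,
and the certificate with base `(μ, δ)`. -/

namespace Vale.Agent.P322

open Real Filter Topology Set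

/-- coefficient `b = H(ρ) - (1-ρ²) log 2 = ρ² log 2 - φ(ρ)` -/
noncomputable def bB (ρ : ℝ) : ℝ := HH ρ - (1 - ρ ^ 2) * Real.log 2

/-- the potential of regime B -/
noncomputable def SB (ρ μ : ℝ) : ℝ := (1 - ρ ^ 2) * HH μ + bB ρ * (1 - μ ^ 2)

lemma bB_eq (ρ : ℝ) : bB ρ = HH ρ - (1 - ρ ^ 2) * Real.log 2 := rfl
lemma SB_eq (ρ μ : ℝ) : SB ρ μ = (1 - ρ ^ 2) * HH μ + bB ρ * (1 - μ ^ 2) := rfl

lemma HH_one : HH 1 = 0 := by unfold HH; norm_num
lemma HH_neg_one : HH (-1) = 0 := by unfold HH; norm_num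
lemma HH_zero : HH 0 = Real.log 2 := by
  unfold HH
  rw [show ((1 : ℝ) + 0) / 2 = 2⁻¹ by norm_num, Real.binEntropy_two_inv]

lemma SB_one (ρ : ℝ) : SB ρ 1 = 0 := by rw [SB_eq, HH_one]; ring
lemma SB_neg_one (ρ : ℝ) : SB ρ (-1) = 0 := by rw [SB_eq, HH_neg_one]; ring
lemma SB_zero (ρ : ℝ) : SB ρ 0 = HH ρ := by rw [SB_eq, HH_zero, bB_eq]; ring
lemma SB_even (ρ μ : ℝ) : SB ρ (-μ) = SB ρ μ := by rw [SB_eq, SB_eq, HH_even]; ring

lemma ph_ge {x : ℝ} (h : |x| < 1) : x ^ 2 / 2 ≤ ph x := by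
  have h1 := hasSum_ph h
  have h2 := le_hasSum h1 0 (fun j _ => by
    have : (0 : ℝ) ≤ x ^ (2 * j + 2) := by
      rw [show 2 * j + 2 = 2 * (j + 1) by ring, pow_mul]; positivity
    positivity)
  norm_num at h2
  linarith

lemma HH_le {x : ℝ} (h : |x| ≤ 1) : HH x ≤ Real.log 2 - x ^ 2 / 2 := by
  rcases h.lt_or_eq with h1 | h1
  · rw [HH_eq_ph h1]
    have := ph_ge h1
    linarith only [this]
  · have hl := Real.log_two_gt_d9
    rcases (abs_eq (by norm_num : (0 : ℝ) ≤ 1)).mp h1 with h2 | h2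
    · rw [h2, HH_one]; norm_num; linarith
    · rw [h2, HH_neg_one]; norm_num; linarith

lemma SB_ge {ρ μ : ℝ} (hρ : |ρ| ≤ 1) (hμ : |μ| ≤ 1) : HH ρ + HH μ - Real.log 2 ≤ SB ρ μ := by
  have h1 := HH_le hρ
  have h2 := HH_le hμ
  have hl : Real.log 2 ≤ 1 := by have := Real.log_two_lt_d9; linarith only [this]
  rw [SB_eq, bB_eq]
  have e1 : μ ^ 2 * HH ρ ≤ μ ^ 2 * (Real.log 2 - ρ ^ 2 / 2) :=
    mul_le_mul_of_nonneg_left h1 (sq_nonneg _)
  have e2 : ρ ^ 2 * HH μ ≤ ρ ^ 2 * (Real.log 2 - μ ^ 2 / 2) :=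
    mul_le_mul_of_nonneg_left h2 (sq_nonneg _)
  have e3 : ρ ^ 2 * μ ^ 2 * Real.log 2 ≤ ρ ^ 2 * μ ^ 2 * 1 :=
    mul_le_mul_of_nonneg_left hl (by positivity)
  linarith only [e3, e2, e1]

lemma SB_avg (ρ μ δ : ℝ) : (SB ρ (μ + δ) + SB ρ (μ - δ)) / 2
    = (1 - ρ ^ 2) * hV 1 μ δ + bB ρ * (1 - μ ^ 2 - δ ^ 2) := by
  rw [SB_eq, SB_eq]
  have : hV 1 μ δ = (HH (μ + 1 * δ) + HH (μ - 1 * δ)) / 2 := rfl
  rw [this, one_mul]
  ring

lemma NN_pos' {a x : ℝ} (ha : 0 ≤ a) (hx : 0 ≤ x) (hax : a + x ≤ 1) (hx1 : x < 1) (ha1 : a < 1) :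
    0 < NN a x := by
  have h2 : 0 < (1 + a + x) := by linarith
  have h3 : 0 < (1 + a - x) := by linarith
  have h1 : (1 + a + x) * (1 + a - x) < 4 := by nlinarith only [ha1, ha, hx]
  have h4 : Real.log (1 + a + x) + Real.log (1 + a - x) < Real.log 4 := by
    rw [← Real.log_mul h2.ne' h3.ne']
    exact Real.log_lt_log (by positivity) h1
  have h5 : Real.log 4 = 2 * Real.log 2 := by
    rw [show (4 : ℝ) = 2 ^ 2 by norm_num, Real.log_pow]; norm_num
  rw [NN_eq, Lp_eq]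
  linarith

/-- Product form of the scalar inequality (II0). -/
def IneqB (ρ μ δ : ℝ) : Prop :=
  NN μ (ρ * δ) * (ρ ^ 2 * hV 1 μ δ - bB ρ * (1 - μ ^ 2 - δ ^ 2))
    ≤ NN μ δ * (hV ρ μ δ - (1 - ρ ^ 2) * HH μ - bB ρ * (1 - μ ^ 2))

lemma LBmd_of_ineqB {ρ μ δ : ℝ} (hμ : 0 ≤ μ) (hδ : 0 < δ) (hδ1 : δ < 1) (hμδ : μ + δ ≤ 1)
    (h : IneqB ρ μ δ) :
    SB ρ μ ≤ LBmd ρ ((SB ρ (μ + δ) + SB ρ (μ - δ)) / 2) μ δ := by
  have hN : 0 < NN μ δ := NN_pos' hμ hδ.le hμδ hδ1 (by linarith)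
  unfold IneqB at h
  rw [LBmd_eq, SB_avg, SB_eq, thC_eq]
  have h2 : NN μ (ρ * δ) / NN μ δ * (ρ ^ 2 * hV 1 μ δ - bB ρ * (1 - μ ^ 2 - δ ^ 2))
      ≤ hV ρ μ δ - (1 - ρ ^ 2) * HH μ - bB ρ * (1 - μ ^ 2) := by
    rw [div_mul_eq_mul_div, div_le_iff₀ hN]
    linarith
  linarith only [h2]

/-- helper803's form `(1-θ)(D(μ)-J_ρ) ≥ θ (J_ρ - ρ² J_1 + b δ²)` of (II0), with `D = H - S`,
`J_r = H(μ) - hV r μ δ`. -/
lemma LBmd_of_form {ρ μ δ : ℝ}
    (h : thC ρ μ δ * ((HH μ - hV ρ μ δ) - ρ ^ 2 * (HH μ - hV 1 μ δ) + bB ρ * δ ^ 2)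
      ≤ (1 - thC ρ μ δ) * ((HH μ - SB ρ μ) - (HH μ - hV ρ μ δ))) :
    SB ρ μ ≤ LBmd ρ ((SB ρ (μ + δ) + SB ρ (μ - δ)) / 2) μ δ := by
  rw [LBmd_eq, SB_avg]
  rw [SB_eq] at h ⊢
  linarith only [h]

/-- The certificate of regime B (with slack) for `μ ≥ 0`, `δ > 0`. -/
theorem certB {ρ μ δ : ℝ} (hρ0 : 0 ≤ ρ) (hρ1 : ρ ≤ 1) (hμ : 0 ≤ μ) (hδ : 0 < δ) (hδ1 : δ < 1)
    (hμδ : μ + δ ≤ 1)
    (h : SB ρ μ ≤ LBmd ρ ((SB ρ (μ + δ) + SB ρ (μ - δ)) / 2) μ δ) {η : ℝ} (hη : 0 < η) :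
    ∃ θ q0 q1 q2 : ℝ, 0 ≤ θ ∧
    (∀ m c : ℝ, |m| + |c| ≤ 1 → θ * hV 1 m c + q0 + q1 * m + q2 * c ≤ hV ρ m c) ∧
    SB ρ μ ≤ θ * ((SB ρ (μ + δ) + SB ρ (μ - δ)) / 2) + q0 + q1 * μ + q2 * δ + η :=
  certMD hρ0 hρ1 hμ hδ hδ1 hμδ h hη

end Vale.Agent.P322
end
end

section

section

/-! Reduction of the scalar inequality `(S_A)` to two conditions at one point `x₀`
(Cauchy–Schwarz for a Stieltjes-type integral, done by two monotonicity arguments). -/

namespace Vale.Agent.P322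

open Real Set

/-- artanh -/
noncomputable def atx (x : ℝ) : ℝ := (Real.log (1 + x) - Real.log (1 - x)) / 2

lemma atx_def (x : ℝ) : atx x = (Real.log (1 + x) - Real.log (1 - x)) / 2 := rfl

lemma hasDerivAt_atx {x : ℝ} (hx : |x| < 1) : HasDerivAt atx (1 / (1 - x ^ 2)) x := by
  have h := abs_lt.mp hx
  have h1 : HasDerivAt (fun x : ℝ => Real.log (1 + x)) (1 / (1 + x)) x := by
    have := ((hasDerivAt_id x).const_add 1).log (by simp only [id]; linarith)
    simpa using this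
  have h2 : HasDerivAt (fun x : ℝ => Real.log (1 - x)) (-1 / (1 - x)) x := by
    have := ((hasDerivAt_id x).const_sub 1).log (by simp only [id]; linarith)
    simpa using this
  have h3 := (h1.sub h2).div_const 2
  have e : (1 / (1 + x) - -1 / (1 - x)) / 2 = 1 / (1 - x ^ 2) := by
    have a1 : (1 + x) ≠ 0 := by linarith
    have a2 : (1 - x) ≠ 0 := by linarith
    have a3 : (1 - x ^ 2) ≠ 0 := by nlinarith only [h]
    field_simp
    ring
  rw [e] at h3
  exact h3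

lemma hasDerivAt_ph {x : ℝ} (hx : |x| < 1) : HasDerivAt ph (atx x) x := by
  have h := abs_lt.mp hx
  have h1 : HasDerivAt (fun x : ℝ => Real.log (1 + x)) (1 / (1 + x)) x := by
    have := ((hasDerivAt_id x).const_add 1).log (by simp only [id]; linarith)
    simpa using this
  have h2 : HasDerivAt (fun x : ℝ => Real.log (1 - x)) (-1 / (1 - x)) x := by
    have := ((hasDerivAt_id x).const_sub 1).log (by simp only [id]; linarith)
    simpa using this
  have g1 : HasDerivAt (fun x : ℝ => (1 + x) / 2) (1 / 2) x := by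
    have := ((hasDerivAt_id x).const_add 1).div_const 2
    simpa using this
  have g2 : HasDerivAt (fun x : ℝ => (1 - x) / 2) (-1 / 2) x := by
    have := ((hasDerivAt_id x).const_sub 1).div_const 2
    simpa using this
  have h3 := (g1.mul h1).add (g2.mul h2)
  have e : 1 / 2 * Real.log (1 + x) + (1 + x) / 2 * (1 / (1 + x))
      + (-1 / 2 * Real.log (1 - x) + (1 - x) / 2 * (-1 / (1 - x))) = atx x := by
    have a1 : (1 + x) ≠ 0 := by linarith
    have a2 : (1 - x) ≠ 0 := by linarith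
    rw [atx_def]
    field_simp
    ring
  rw [e] at h3
  exact h3

lemma atx_zero : atx 0 = 0 := by simp [atx_def]

lemma sa1_abs {x σ : ℝ} (hx0 : 0 < x) (hx1 : x < 1) (h0 : 0 ≤ σ) (h1 : σ ≤ 1) : |x * σ| < 1 := by
  rw [abs_of_nonneg (mul_nonneg hx0.le h0)]
  nlinarith only [hx1, hx0, h1]

lemma sa1_pos {x σ : ℝ} (hx0 : 0 < x) (hx1 : x < 1) (h0 : 0 ≤ σ) (h1 : σ ≤ 1) :
    0 < 1 - x ^ 2 * σ ^ 2 := by
  have h := sa1_abs hx0 hx1 h0 h1
  have h2 := abs_lt.mp h
  nlinarith only [h2]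

lemma sa1_alg {x x₀ c σ P1 P2 : ℝ} (hP1 : P1 ≠ 0) (hP2 : P2 ≠ 0) (hx : x ≠ 0) (hx₀ : x₀ ≠ 0)
    (h1 : P1 = 1 - x ^ 2 * σ ^ 2) (h2 : P2 = 1 - x₀ ^ 2 * σ ^ 2) :
    1 / P1 * x / x - 2 * c * (1 / P2 * x₀ / x₀) +
      c ^ 2 * (1 / P2 * x₀ / x₀ + (x ^ 2 - x₀ ^ 2) / (2 * x₀ ^ 3) *
        (1 / P2 * x₀ - (x₀ * P2 - x₀ * σ * -(x₀ ^ 2 * (2 * σ))) / P2 ^ 2))
      = 1 / P1 * (1 - c * (P1 / P2)) ^ 2 := by
  have e1 : 1 / P1 * x / x = 1 / P1 := by field_simp
  have e2 : 1 / P2 * x₀ / x₀ = 1 / P2 := by field_simp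
  have e3 : (x ^ 2 - x₀ ^ 2) / (2 * x₀ ^ 3) *
        (1 / P2 * x₀ - (x₀ * P2 - x₀ * σ * -(x₀ ^ 2 * (2 * σ))) / P2 ^ 2)
        = (P1 - P2) / P2 ^ 2 := by
    have h3 : P1 - P2 = -((x ^ 2 - x₀ ^ 2) * σ ^ 2) := by rw [h1, h2]; ring
    rw [h3]
    field_simp
    ring
  rw [e1, e2, e3]
  field_simp
  ring

/-- inner function -/
noncomputable def sa1chi (x x₀ c σ : ℝ) : ℝ :=
  atx (x * σ) / x - 2 * c * (atx (x₀ * σ) / x₀)
    + c ^ 2 * (atx (x₀ * σ) / x₀ + (x ^ 2 - x₀ ^ 2) / (2 * x₀ ^ 3) *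
      (atx (x₀ * σ) - x₀ * σ / (1 - x₀ ^ 2 * σ ^ 2)))

lemma sa1chi_deriv {x x₀ c σ : ℝ} (hx0 : 0 < x) (hx1 : x < 1) (hy0 : 0 < x₀) (hy1 : x₀ < 1)
    (h0 : 0 ≤ σ) (h1 : σ ≤ 1) :
    HasDerivAt (sa1chi x x₀ c)
      (1 / (1 - x ^ 2 * σ ^ 2) * (1 - c * ((1 - x ^ 2 * σ ^ 2) / (1 - x₀ ^ 2 * σ ^ 2))) ^ 2) σ := by
  have p1 := sa1_pos hx0 hx1 h0 h1
  have p2 := sa1_pos hy0 hy1 h0 h1
  have lin : ∀ z : ℝ, HasDerivAt (fun σ : ℝ => z * σ) z σ := fun z => by
    simpa using (hasDerivAt_id σ).const_mul z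
  have a1 : HasDerivAt (fun σ => atx (x * σ)) (1 / (1 - (x * σ) ^ 2) * x) σ :=
    (hasDerivAt_atx (sa1_abs hx0 hx1 h0 h1)).comp σ (lin x)
  have a2 : HasDerivAt (fun σ => atx (x₀ * σ)) (1 / (1 - (x₀ * σ) ^ 2) * x₀) σ :=
    (hasDerivAt_atx (sa1_abs hy0 hy1 h0 h1)).comp σ (lin x₀)
  have a3 : HasDerivAt (fun σ : ℝ => 1 - x₀ ^ 2 * σ ^ 2) (-(x₀ ^ 2 * (2 * σ))) σ := by
    have := ((hasDerivAt_pow 2 σ).const_mul (x₀ ^ 2)).const_sub 1
    simpa using this
  have a4 := (lin x₀).div a3 p2.ne'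
  have a5 := ((a1.div_const x).sub ((a2.div_const x₀).const_mul (2 * c))).add
    (((a2.div_const x₀).add ((a2.sub a4).const_mul ((x ^ 2 - x₀ ^ 2) / (2 * x₀ ^ 3)))).const_mul
      (c ^ 2))
  refine a5.congr_deriv ?_
  have q1 : (x * σ) ^ 2 = x ^ 2 * σ ^ 2 := by ring
  have q2 : (x₀ * σ) ^ 2 = x₀ ^ 2 * σ ^ 2 := by ring
  rw [q1, q2]
  exact sa1_alg p1.ne' p2.ne' hx0.ne' hy0.ne' rfl rfl

lemma sa1chi_nonneg {x x₀ c σ : ℝ} (hx0 : 0 < x) (hx1 : x < 1) (hy0 : 0 < x₀) (hy1 : x₀ < 1)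
    (h0 : 0 ≤ σ) (h1 : σ ≤ 1) : 0 ≤ sa1chi x x₀ c σ := by
  have hmono : MonotoneOn (sa1chi x x₀ c) (Icc 0 1) := by
    apply monotoneOn_of_deriv_nonneg (convex_Icc 0 1)
    · intro s hs
      exact (sa1chi_deriv hx0 hx1 hy0 hy1 hs.1 hs.2).continuousAt.continuousWithinAt
    · intro s hs
      rw [interior_Icc] at hs
      exact (sa1chi_deriv hx0 hx1 hy0 hy1 hs.1.le hs.2.le).differentiableAt.differentiableWithinAt
    · intro s hs
      rw [interior_Icc] at hs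
      rw [(sa1chi_deriv hx0 hx1 hy0 hy1 hs.1.le hs.2.le).deriv]
      exact mul_nonneg (div_nonneg zero_le_one (sa1_pos hx0 hx1 hs.1.le hs.2.le).le) (sq_nonneg _)
  have h := hmono (left_mem_Icc.mpr zero_le_one) ⟨h0, h1⟩ h0
  have e : sa1chi x x₀ c 0 = 0 := by
    unfold sa1chi
    simp [atx_zero]
  rw [e] at h
  exact h

/-- outer function -/
noncomputable def sa1psi (x x₀ c ρ : ℝ) : ℝ :=
  (ph x - ph (x * ρ)) / x ^ 2 - 2 * c * ((ph x₀ - ph (x₀ * ρ)) / x₀ ^ 2)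
    + c ^ 2 * ((ph x₀ - ph (x₀ * ρ)) / x₀ ^ 2 - (x ^ 2 - x₀ ^ 2) / x₀ ^ 4 *
      (x₀ / 2 * (atx x₀ - ρ * atx (x₀ * ρ)) - (ph x₀ - ph (x₀ * ρ))))

lemma sa1psi_deriv {x x₀ c σ : ℝ} (hx0 : 0 < x) (hx1 : x < 1) (hy0 : 0 < x₀) (hy1 : x₀ < 1)
    (h0 : 0 ≤ σ) (h1 : σ ≤ 1) :
    HasDerivAt (sa1psi x x₀ c) (-(sa1chi x x₀ c σ)) σ := by
  have p2 := sa1_pos hy0 hy1 h0 h1
  have lin : ∀ z : ℝ, HasDerivAt (fun σ : ℝ => z * σ) z σ := fun z => by
    simpa using (hasDerivAt_id σ).const_mul z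
  have a1 : HasDerivAt (fun σ => ph (x * σ)) (atx (x * σ) * x) σ :=
    (hasDerivAt_ph (sa1_abs hx0 hx1 h0 h1)).comp σ (lin x)
  have a2 : HasDerivAt (fun σ => ph (x₀ * σ)) (atx (x₀ * σ) * x₀) σ :=
    (hasDerivAt_ph (sa1_abs hy0 hy1 h0 h1)).comp σ (lin x₀)
  have a3 : HasDerivAt (fun σ => atx (x₀ * σ)) (1 / (1 - (x₀ * σ) ^ 2) * x₀) σ :=
    (hasDerivAt_atx (sa1_abs hy0 hy1 h0 h1)).comp σ (lin x₀)
  have b1 := a1.const_sub (ph x)
  have b2 := a2.const_sub (ph x₀)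
  have b3 := ((hasDerivAt_id σ).mul a3).const_sub (atx x₀)
  have a5 := ((b1.div_const (x ^ 2)).sub ((b2.div_const (x₀ ^ 2)).const_mul (2 * c))).add
    (((b2.div_const (x₀ ^ 2)).sub (((b3.const_mul (x₀ / 2)).sub b2).const_mul
      ((x ^ 2 - x₀ ^ 2) / x₀ ^ 4))).const_mul (c ^ 2))
  refine a5.congr_deriv ?_
  have q2 : (x₀ * σ) ^ 2 = x₀ ^ 2 * σ ^ 2 := by ring
  rw [q2]
  unfold sa1chi
  have n2 : (1 - x₀ ^ 2 * σ ^ 2) ≠ 0 := p2.ne'
  have n3 : x ≠ 0 := hx0.ne'
  have n4 : x₀ ≠ 0 := hy0.ne'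
  simp only [id]
  field_simp
  ring

/-- The basic inequality `Q(y) ≥ 2 c Q₀ - c² D(y)`. -/
lemma sa1psi_nonneg {x x₀ c σ : ℝ} (hx0 : 0 < x) (hx1 : x < 1) (hy0 : 0 < x₀) (hy1 : x₀ < 1)
    (h0 : 0 ≤ σ) (h1 : σ ≤ 1) : 0 ≤ sa1psi x x₀ c σ := by
  have hanti : AntitoneOn (sa1psi x x₀ c) (Icc 0 1) := by
    apply antitoneOn_of_deriv_nonpos (convex_Icc 0 1)
    · intro s hs
      exact (sa1psi_deriv hx0 hx1 hy0 hy1 hs.1 hs.2).continuousAt.continuousWithinAt
    · intro s hs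
      rw [interior_Icc] at hs
      exact (sa1psi_deriv hx0 hx1 hy0 hy1 hs.1.le hs.2.le).differentiableAt.differentiableWithinAt
    · intro s hs
      rw [interior_Icc] at hs
      rw [(sa1psi_deriv hx0 hx1 hy0 hy1 hs.1.le hs.2.le).deriv]
      exact neg_nonpos.mpr (sa1chi_nonneg hx0 hx1 hy0 hy1 hs.1.le hs.2.le)
  have h := hanti ⟨h0, h1⟩ (right_mem_Icc.mpr zero_le_one) h1
  have e : sa1psi x x₀ c 1 = 0 := by
    unfold sa1psi
    simp
  rw [e] at h
  exact h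

lemma sa1_HH_pos {ρ : ℝ} (hρ0 : 0 ≤ ρ) (hρ1 : ρ < 1) : 0 < HH ρ := by
  unfold HH
  exact Real.binEntropy_pos (by linarith) (by linarith)

/-- Pure algebra: from the tangent inequality to the scalar bound. -/
lemma sa1_final {B P Q0 D k G y : ℝ} (hP : 0 < P) (hQ : 0 < Q0) (hk : 0 ≤ k)
    (hD : k * B ^ 2 * D ≤ P * Q0 ^ 2) (hy : 0 < y)
    (hpsi : ∀ c : ℝ, 0 ≤ G / y - 2 * c * Q0 + c ^ 2 * D) :
    k * B ^ 2 * y ≤ P * G := by
  have h := hpsi (k * B ^ 2 / (P * Q0))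
  have e1 : 2 * (k * B ^ 2 / (P * Q0)) * Q0 = 2 * (k * B ^ 2 / P) := by
    field_simp
  have e2 : (k * B ^ 2 / (P * Q0)) ^ 2 * D = (k * B ^ 2 / P) * ((k * B ^ 2 * D) / (P * Q0 ^ 2)) := by
    field_simp
  have h3 : (k * B ^ 2 * D) / (P * Q0 ^ 2) ≤ 1 := by
    rw [div_le_one (by positivity)]
    exact hD
  have h4 : 0 ≤ k * B ^ 2 / P := by positivity
  have h5 : (k * B ^ 2 / P) * ((k * B ^ 2 * D) / (P * Q0 ^ 2)) ≤ k * B ^ 2 / P := by
    calc (k * B ^ 2 / P) * ((k * B ^ 2 * D) / (P * Q0 ^ 2)) ≤ (k * B ^ 2 / P) * 1 :=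
          mul_le_mul_of_nonneg_left h3 h4
      _ = k * B ^ 2 / P := mul_one _
  rw [e1, e2] at h
  have h6 : k * B ^ 2 / P ≤ G / y := by linarith only [h, h5]
  rw [div_le_div_iff₀ hP hy] at h6
  linarith only [h6]

/-- **Reduction of `(S_A)` to one point.** -/
theorem SA_of_point {ρ x₀ k : ℝ} (hρ0 : 0 ≤ ρ) (hρ1 : ρ < 1) (hy0 : 0 < x₀) (hy1 : x₀ < 1)
    (hk0 : 0 ≤ k) (hk1 : k ≤ 1) (hg : 0 < HH (ρ * x₀) - HH x₀)
    (h1 : k * HH ρ ^ 2 * x₀ ^ 3 * (atx x₀ - ρ * atx (ρ * x₀))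
      ≤ 2 * Real.log 2 * (HH (ρ * x₀) - HH x₀) ^ 2)
    (h2 : 2 * (HH (ρ * x₀) - HH x₀) * (k * HH ρ - (HH (ρ * x₀) - HH x₀))
      ≤ k * HH ρ * x₀ * (1 - x₀ ^ 2) * (atx x₀ - ρ * atx (ρ * x₀))) :
    ∀ x : ℝ, 0 ≤ x → x ≤ 1 →
      k * HH ρ ^ 2 * x ^ 2
        ≤ (Real.log 2 - (Real.log 2 - HH ρ) * x ^ 2) * (HH (ρ * x) - HH x) := by
  intro x hx0 hx1
  have hB : 0 < HH ρ := sa1_HH_pos hρ0 hρ1
  have hL : 0 < Real.log 2 := Real.log_pos (by norm_num)
  rcases eq_or_lt_of_le hx0 with h0 | h0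
  · rw [← h0]; simp
  rcases eq_or_lt_of_le hx1 with h11 | h11
  · rw [h11]
    have e : HH 1 = 0 := by simp [HH]
    rw [e]
    have : k * HH ρ ^ 2 ≤ 1 * HH ρ ^ 2 := mul_le_mul_of_nonneg_right hk1 (sq_nonneg _)
    simp only [mul_one, one_pow]
    linarith only [this]
  set B := HH ρ with hBdef
  set g0 := HH (ρ * x₀) - HH x₀ with hg0
  set gp := atx x₀ - ρ * atx (ρ * x₀) with hgp
  have hρx0 : |ρ * x₀| < 1 := by
    rw [abs_of_nonneg (mul_nonneg hρ0 hy0.le)]; nlinarith only [hρ1, hρ0, hy1]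
  have hρx : |ρ * x| < 1 := by
    rw [abs_of_nonneg (mul_nonneg hρ0 h0.le)]; nlinarith only [hρ1, hρ0, hx1]
  have hx0' : |x₀| < 1 := by rw [abs_of_pos hy0]; exact hy1
  have hx' : |x| < 1 := by rw [abs_of_pos h0]; exact h11
  have eg : ph x₀ - ph (x₀ * ρ) = g0 := by
    rw [hg0, HH_eq_ph hρx0, HH_eq_ph hx0', mul_comm x₀ ρ]; ring
  have eG : ph x - ph (x * ρ) = HH (ρ * x) - HH x := by
    rw [HH_eq_ph hρx, HH_eq_ph hx', mul_comm x ρ]; ring
  have egp : atx x₀ - ρ * atx (x₀ * ρ) = gp := by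
    rw [hgp, mul_comm x₀ ρ]
  have hy : 0 < x ^ 2 := by positivity
  have hyl : x ^ 2 < 1 := by nlinarith only [h11, hx0]
  have hP : 0 < Real.log 2 - (Real.log 2 - B) * x ^ 2 := by nlinarith only [hB, hL, hyl]
  have hx04 : 0 < x₀ ^ 4 := by positivity
  refine sa1_final (Q0 := g0 / x₀ ^ 2)
    (D := g0 / x₀ ^ 2 - (x ^ 2 - x₀ ^ 2) / x₀ ^ 4 * (x₀ / 2 * gp - g0)) hP (by positivity) hk0 ?_ hy ?_
  · have e1 : g0 / x₀ ^ 2 - (x ^ 2 - x₀ ^ 2) / x₀ ^ 4 * (x₀ / 2 * gp - g0)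
        = ((1 - x ^ 2) * (x₀ ^ 3 * gp / 2) + x ^ 2 * (g0 - (1 - x₀ ^ 2) * x₀ * gp / 2)) / x₀ ^ 4 := by
      field_simp
      ring
    have e2 : (Real.log 2 - (Real.log 2 - B) * x ^ 2) * (g0 / x₀ ^ 2) ^ 2
        = ((1 - x ^ 2) * (Real.log 2 * g0 ^ 2) + x ^ 2 * (B * g0 ^ 2)) / x₀ ^ 4 := by
      field_simp
      ring
    rw [e1, e2, ← mul_div_assoc]
    apply div_le_div_of_nonneg_right _ hx04.le
    have a1 : k * B ^ 2 * (x₀ ^ 3 * gp / 2) ≤ Real.log 2 * g0 ^ 2 := by linarith only [h1]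
    have a2 : k * B ^ 2 * (g0 - (1 - x₀ ^ 2) * x₀ * gp / 2) ≤ B * g0 ^ 2 := by
      have := mul_le_mul_of_nonneg_left h2 hB.le
      linarith only [this]
    have a3 := mul_le_mul_of_nonneg_left a1 (sub_nonneg.mpr hyl.le)
    have a4 := mul_le_mul_of_nonneg_left a2 hy.le
    calc k * B ^ 2 * ((1 - x ^ 2) * (x₀ ^ 3 * gp / 2) + x ^ 2 * (g0 - (1 - x₀ ^ 2) * x₀ * gp / 2))
        = (1 - x ^ 2) * (k * B ^ 2 * (x₀ ^ 3 * gp / 2))
          + x ^ 2 * (k * B ^ 2 * (g0 - (1 - x₀ ^ 2) * x₀ * gp / 2)) := by ring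
      _ ≤ _ := add_le_add a3 a4
  · intro c
    have h := sa1psi_nonneg (c := c) h0 h11 hy0 hy1 hρ0 hρ1.le
    unfold sa1psi at h
    rw [eg, eG, egp] at h
    linarith only [h]

end Vale.Agent.P322
end
end

section

section

/-! Scalar inequalities (1), (2) of the low-noise regime, at `x₀ = (1+ρ)/2`, `k = 112/125`. -/

namespace Vale.Agent.P322

open Set

/-- Generic tool: a function with nonnegative derivative on `[0,b)` and value `≥ 0` at `0`. -/
lemma sa_mono {f f' : ℝ → ℝ} {b : ℝ} (hf : ∀ x ∈ Ico 0 b, HasDerivAt f (f' x) x)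
    (hf' : ∀ x ∈ Ico 0 b, 0 ≤ f' x) (h0 : 0 ≤ f 0) {x : ℝ} (hx : x ∈ Ico 0 b) : 0 ≤ f x := by
  have hmono : MonotoneOn f (Ico 0 b) := by
    apply monotoneOn_of_deriv_nonneg (convex_Ico 0 b)
    · exact fun y hy => (hf y hy).continuousAt.continuousWithinAt
    · intro y hy
      rw [interior_Ico] at hy
      exact (hf y ⟨hy.1.le, hy.2⟩).differentiableAt.differentiableWithinAt
    · intro y hy
      rw [interior_Ico] at hy
      rw [(hf y ⟨hy.1.le, hy.2⟩).deriv]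
      exact hf' y ⟨hy.1.le, hy.2⟩
  have hb : 0 < b := lt_of_le_of_lt hx.1 hx.2
  have := hmono (left_mem_Ico.mpr hb) hx hx.1
  linarith

/-- `v + v²/2 + v³/3 ≤ -log(1-v)`. -/
lemma sa_log_lower {v : ℝ} (h0 : 0 ≤ v) (h1 : v < 1) :
    v + v ^ 2 / 2 + v ^ 3 / 3 ≤ -Real.log (1 - v) := by
  have key : 0 ≤ -Real.log (1 - v) - (v + v ^ 2 / 2 + v ^ 3 / 3) := by
    refine sa_mono (b := 1) (f := fun v => -Real.log (1 - v) - (v + v ^ 2 / 2 + v ^ 3 / 3))
      (f' := fun v => 1 / (1 - v) - (1 + v + v ^ 2)) ?_ ?_ ?_ ⟨h0, h1⟩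
    · intro x hx
      have hx1 : (1 - x) ≠ 0 := by linarith [hx.2]
      have h := ((((hasDerivAt_id x).const_sub 1).log hx1).neg).sub
        ((((hasDerivAt_id x)).add (((hasDerivAt_id x).pow 2).div_const 2)).add
          (((hasDerivAt_id x).pow 3).div_const 3))
      refine h.congr_deriv ?_
      simp only [id]
      field_simp
      ring
    · intro x hx
      have hx1 : 0 < 1 - x := by linarith [hx.2]
      have : 1 / (1 - x) - (1 + x + x ^ 2) = x ^ 3 / (1 - x) := by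
        field_simp
        ring
      rw [this]
      exact div_nonneg (pow_nonneg hx.1 3) hx1.le
    · simp
  linarith only [key]

/-- `-log(1-v) ≤ v + v²/2 + v³/2` for `v ≤ 1/3`. -/
lemma sa_log_upper {v : ℝ} (h0 : 0 ≤ v) (h1 : v < 1 / 3) :
    -Real.log (1 - v) ≤ v + v ^ 2 / 2 + v ^ 3 / 2 := by
  have key : 0 ≤ (v + v ^ 2 / 2 + v ^ 3 / 2) + Real.log (1 - v) := by
    refine sa_mono (b := 1 / 3) (f := fun v => (v + v ^ 2 / 2 + v ^ 3 / 2) + Real.log (1 - v))
      (f' := fun v => (1 + v + 3 / 2 * v ^ 2) - 1 / (1 - v)) ?_ ?_ ?_ ⟨h0, h1⟩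
    · intro x hx
      have hx1 : (1 - x) ≠ 0 := by linarith [hx.2]
      have h := ((((hasDerivAt_id x)).add (((hasDerivAt_id x).pow 2).div_const 2)).add
          (((hasDerivAt_id x).pow 3).div_const 2)).add
          (((hasDerivAt_id x).const_sub 1).log hx1)
      refine h.congr_deriv ?_
      simp only [id]
      field_simp
      ring
    · intro x hx
      have hx1 : 0 < 1 - x := by linarith [hx.2]
      have : (1 + x + 3 / 2 * x ^ 2) - 1 / (1 - x) = x ^ 2 * (1 / 2 - 3 / 2 * x) / (1 - x) := by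
        field_simp
        ring
      rw [this]
      apply div_nonneg _ hx1.le
      apply mul_nonneg (sq_nonneg x)
      linarith only [hx.2]
    · simp
  linarith only [key]

/-- `-(1-v) log(1-v) ≤ v - v²/2`. -/
lemma sa_P_upper {v : ℝ} (h0 : 0 ≤ v) (h1 : v < 1) :
    -((1 - v) * Real.log (1 - v)) ≤ v - v ^ 2 / 2 := by
  have key : 0 ≤ (v - v ^ 2 / 2) / (1 - v) + Real.log (1 - v) := by
    refine sa_mono (b := 1) (f := fun v => (v - v ^ 2 / 2) / (1 - v) + Real.log (1 - v))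
      (f' := fun v => v ^ 2 / (2 * (1 - v) ^ 2)) ?_ ?_ ?_ ⟨h0, h1⟩
    · intro x hx
      have hx1 : (1 - x) ≠ 0 := by linarith [hx.2]
      have h := (((hasDerivAt_id x).sub (((hasDerivAt_id x).pow 2).div_const 2)).div
        ((hasDerivAt_id x).const_sub 1) hx1).add
          (((hasDerivAt_id x).const_sub 1).log hx1)
      refine h.congr_deriv ?_
      simp only [id, Pi.sub_apply, Pi.pow_apply]
      field_simp
      ring
    · intro x hx
      positivity
    · simp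
  have h2 : 0 < 1 - v := by linarith
  have h3 := mul_nonneg h2.le key
  have h4 : (1 - v) * ((v - v ^ 2 / 2) / (1 - v) + Real.log (1 - v)) =
      (v - v ^ 2 / 2) + (1 - v) * Real.log (1 - v) := by
    field_simp
  linarith only [h4, h3]

/-- `v + v²/2 + v³/3 + v⁴/4 ≤ -log(1-v)`. -/
lemma sa_log_lower4 {v : ℝ} (h0 : 0 ≤ v) (h1 : v < 1) :
    v + v ^ 2 / 2 + v ^ 3 / 3 + v ^ 4 / 4 ≤ -Real.log (1 - v) := by
  have key : 0 ≤ -Real.log (1 - v) - (v + v ^ 2 / 2 + v ^ 3 / 3 + v ^ 4 / 4) := by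
    refine sa_mono (b := 1) (f := fun v => -Real.log (1 - v)
      - (v + v ^ 2 / 2 + v ^ 3 / 3 + v ^ 4 / 4))
      (f' := fun v => 1 / (1 - v) - (1 + v + v ^ 2 + v ^ 3)) ?_ ?_ ?_ ⟨h0, h1⟩
    · intro x hx
      have hx1 : (1 - x) ≠ 0 := by linarith [hx.2]
      have h := ((((hasDerivAt_id x).const_sub 1).log hx1).neg).sub
        (((((hasDerivAt_id x)).add (((hasDerivAt_id x).pow 2).div_const 2)).add
          (((hasDerivAt_id x).pow 3).div_const 3)).add (((hasDerivAt_id x).pow 4).div_const 4))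
      refine h.congr_deriv ?_
      simp only [id]
      field_simp
      ring
    · intro x hx
      have hx1 : 0 < 1 - x := by linarith [hx.2]
      have : 1 / (1 - x) - (1 + x + x ^ 2 + x ^ 3) = x ^ 4 / (1 - x) := by
        field_simp
        ring
      rw [this]
      exact div_nonneg (pow_nonneg hx.1 4) hx1.le
    · simp
  linarith

/-- `-(1-v) log(1-v) ≥ v - v²/2 - v³/6 - (3/20) v⁴` for `v ≤ 1/4`. -/
lemma sa_P_lower {v : ℝ} (h0 : 0 ≤ v) (h1 : v ≤ 1 / 4) :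
    v - v ^ 2 / 2 - v ^ 3 / 6 - 3 / 20 * v ^ 4 ≤ -((1 - v) * Real.log (1 - v)) := by
  have h := mul_le_mul_of_nonneg_left (sa_log_lower4 h0 (by linarith)) (by linarith : (0:ℝ) ≤ 1 - v)
  have h4 : 0 ≤ v ^ 4 * (1 / 4 - v) := mul_nonneg (pow_nonneg h0 4) (by linarith only [h1])
  linarith only [mul_nonneg (sq_nonneg (1 * v : ℝ)) (sq_nonneg (1 * v : ℝ)), mul_nonneg (mul_self_nonneg (1 : ℝ)) (sub_nonneg.2 h4), mul_nonneg (mul_self_nonneg (1 : ℝ)) (sub_nonneg.2 h)]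

lemma sa_log32 : 0.40545 ≤ Real.log (3 / 2) ∧ Real.log (3 / 2) ≤ 0.40548 := by
  have e1 : Real.log (3 / 2) = Real.log 3 - Real.log 2 := Real.log_div (by norm_num) (by norm_num)
  have e2 : 12 * Real.log 3 - 19 * Real.log 2 = Real.log (531441 / 524288) := by
    rw [Real.log_div (by norm_num) (by norm_num), show (531441:ℝ) = 3 ^ 12 by norm_num,
      show (524288:ℝ) = 2 ^ 19 by norm_num, Real.log_pow, Real.log_pow]
    norm_num
  have h1 : Real.log (531441 / 524288) ≤ 531441 / 524288 - 1 :=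
    Real.log_le_sub_one_of_pos (by norm_num)
  have h2 : 1 - (531441 / 524288 : ℝ)⁻¹ ≤ Real.log (531441 / 524288) :=
    Real.one_sub_inv_le_log_of_pos (by norm_num)
  have h3 := Real.log_two_gt_d9
  have h4 := Real.log_two_lt_d9
  norm_num at h1 h2
  constructor <;> linarith only [e1, e2, h3, h4, h2, h1]

/-- `HH(1-2v) = -v log v - (1-v) log (1-v)`. -/
lemma HH_one_sub (v : ℝ) : HH (1 - 2 * v) = -(v * Real.log v) - (1 - v) * Real.log (1 - v) := by
  unfold HH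
  have : (1 + (1 - 2 * v)) / 2 = 1 - v := by ring
  rw [this, Real.binEntropy_one_sub, Real.binEntropy]
  rw [Real.log_inv, Real.log_inv]
  ring

/-- decomposition of all the quantities of (1), (2) at `η = 1-ρ`. -/
lemma sa_decomp {η : ℝ} (h0 : 0 < η) (h1 : η ≤ 3 / 10) :
    HH (1 - η) = η / 2 * (Real.log (2 / η) + 2 / η * (-((1 - η / 2) * Real.log (1 - η / 2)))) ∧
    HH ((1 - η) * (1 - η / 2)) - HH (1 - η / 2) = η / 2 * ((1 - η / 2) * Real.log (2 / η)
      + (-(Real.log 2 / 2) - (3 / 2 - η / 2) * (Real.log (3 / 2) + Real.log (1 - η / 3))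
      + 2 / η * (-((1 - η * (3 - η) / 4) * Real.log (1 - η * (3 - η) / 4)))
      - 2 / η * (-((1 - η / 4) * Real.log (1 - η / 4))))) ∧
    (Real.log (1 + (1 - η / 2)) - Real.log (1 - (1 - η / 2))) / 2
      - (1 - η) * (Real.log (1 + (1 - η) * (1 - η / 2)) - Real.log (1 - (1 - η) * (1 - η / 2))) / 2
      = (η * Real.log (2 / η) + (Real.log 2 + (1 - η) * (Real.log (3 / 2) + Real.log (1 - η / 3))
        + Real.log (1 - η / 4) - (1 - η) * Real.log (1 - η * (3 - η) / 4))) / 2 := by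
  have hη : η ≠ 0 := h0.ne'
  have e1 : Real.log (2 / η) = Real.log 2 - Real.log η := Real.log_div (by norm_num) hη
  have e2 : Real.log (η / 2) = Real.log η - Real.log 2 := Real.log_div hη (by norm_num)
  have e3 : Real.log (η / 4) = Real.log η - 2 * Real.log 2 := by
    rw [Real.log_div hη (by norm_num), show (4:ℝ) = 2 ^ 2 by norm_num, Real.log_pow]
    norm_num
  have h3 : (0:ℝ) < 1 - η / 3 := by linarith only [h1]
  have e4 : Real.log (η * (3 - η) / 4) = Real.log η - Real.log 2 + Real.log (3 / 2)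
      + Real.log (1 - η / 3) := by
    have : η * (3 - η) / 4 = (η / 2) * ((3 / 2) * (1 - η / 3)) := by ring
    rw [this, Real.log_mul (by positivity) (by positivity), Real.log_mul (by norm_num) h3.ne', e2]
    ring
  refine ⟨?_, ?_, ?_⟩
  · have := HH_one_sub (η / 2)
    rw [show 1 - 2 * (η / 2) = 1 - η by ring] at this
    rw [this, e1, e2]
    field_simp
    ring
  · have t1 := HH_one_sub (η / 4)
    rw [show 1 - 2 * (η / 4) = 1 - η / 2 by ring] at t1
    have t2 := HH_one_sub (η * (3 - η) / 4)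
    rw [show 1 - 2 * (η * (3 - η) / 4) = (1 - η) * (1 - η / 2) by ring] at t2
    rw [t1, t2, e1, e3, e4]
    field_simp
    ring
  · have s1 : Real.log (1 + (1 - η / 2)) = Real.log 2 + Real.log (1 - η / 4) := by
      rw [← Real.log_mul (by norm_num) (by linarith only [h1])]
      congr 1; ring
    have s2 : Real.log (1 - (1 - η / 2)) = Real.log η - Real.log 2 := by
      rw [← e2]; congr 1; ring
    have h4 : (0:ℝ) < 1 - η * (3 - η) / 4 := by nlinarith only [h1]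
    have s3 : Real.log (1 + (1 - η) * (1 - η / 2)) =
        Real.log 2 + Real.log (1 - η * (3 - η) / 4) := by
      rw [← Real.log_mul (by norm_num) h4.ne']
      congr 1; ring
    have s4 : Real.log (1 - (1 - η) * (1 - η / 2)) = Real.log η + Real.log (3 / 2)
      + Real.log (1 - η / 3) := by
      have : 1 - (1 - η) * (1 - η / 2) = 2 * (η * (3 - η) / 4) := by ring
      rw [this, Real.log_mul (by norm_num) (by
        have : (0:ℝ) < 3 - η := by linarith only [h1]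
        positivity), e4]
      ring
    rw [s1, s2, s3, s4, e1]
    ring

/-- The constant `c₁(η)`. -/
noncomputable def saC1 (η : ℝ) : ℝ :=
  -(Real.log 2 / 2) - (3 / 2 - η / 2) * (Real.log (3 / 2) + Real.log (1 - η / 3))
      + 2 / η * (-((1 - η * (3 - η) / 4) * Real.log (1 - η * (3 - η) / 4)))
      - 2 / η * (-((1 - η / 4) * Real.log (1 - η / 4)))

/-- The constant `c₀(η)`. -/
noncomputable def saC0 (η : ℝ) : ℝ :=
  Real.log 2 + (1 - η) * (Real.log (3 / 2) + Real.log (1 - η / 3))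
        + Real.log (1 - η / 4) - (1 - η) * Real.log (1 - η * (3 - η) / 4)

lemma saC1_poly {η : ℝ} (h0 : 0 < η) (h1 : η ≤ 3 / 10) :
    -(0.34657359041) - (3 / 2 - η / 2) * (0.40548 - η / 3 - η ^ 2 / 18)
      + (3 / 2 - η / 2) * (1 - (η * (3 - η) / 4) / 2 - (η * (3 - η) / 4) ^ 2 / 6
          - 3 / 20 * (η * (3 - η) / 4) ^ 3) - (1 / 2 - η / 16) ≤ saC1 η := by
  have hη : η ≠ 0 := h0.ne'
  set v := η * (3 - η) / 4 with hv
  have hv0 : 0 ≤ v := by
    have : (0:ℝ) < 3 - η := by linarith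
    positivity
  have hv1 : v ≤ 1 / 4 := by nlinarith only [h1, hv]
  have a1 := sa_P_lower hv0 hv1
  have a2 := sa_P_upper (v := η / 4) (by linarith only [h0]) (by linarith only [h1])
  have a3 := sa_log_lower (v := η / 3) (by linarith only [h0]) (by linarith only [h1])
  have hη2 : 0 < 2 / η := by positivity
  have b1 := mul_le_mul_of_nonneg_left a1 hη2.le
  have b2 := mul_le_mul_of_nonneg_left a2 hη2.le
  have c1 : 2 / η * (v - v ^ 2 / 2 - v ^ 3 / 6 - 3 / 20 * v ^ 4) =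
      (3 / 2 - η / 2) * (1 - v / 2 - v ^ 2 / 6 - 3 / 20 * v ^ 3) := by
    rw [hv]; field_simp; ring
  have c2 : 2 / η * (η / 4 - (η / 4) ^ 2 / 2) = 1 / 2 - η / 16 := by
    field_simp; ring
  rw [c1] at b1
  rw [c2] at b2
  have h2 := Real.log_two_lt_d9
  have h3 := sa_log32.2
  have a4 : Real.log (3 / 2) + Real.log (1 - η / 3) ≤ 0.40548 - η / 3 - η ^ 2 / 18 := by
    have : 0 ≤ (η / 3) ^ 3 := by positivity
    linarith only [a3, h3, this]
  have a5 := mul_le_mul_of_nonneg_left a4 (by linarith only [h1] : (0:ℝ) ≤ 3 / 2 - η / 2)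
  unfold saC1
  rw [← hv]
  linarith only [b1, b2, h2, a5]

lemma saC1_lin {η : ℝ} (h0 : 0 < η) (h1 : η ≤ 1 / 4) :
    0.045 - 0.29 * η ≤ saC1 η := by
  have h := saC1_poly h0 (by linarith)
  refine le_trans ?_ h
  have e1 : 0 ≤ η ^ 2 := by positivity
  have e2 : η ^ 3 ≤ η ^ 2 / 4 := by linarith only [mul_nonneg (sq_nonneg (1 * η : ℝ)) (sub_nonneg.2 h1)]
  have e3 : 0 ≤ η ^ 3 := by positivity
  have e4 : 0 ≤ η ^ 4 := by positivity
  have e5 : η ^ 5 ≤ η ^ 4 / 4 := by nlinarith only [e2]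
  have e5' : 0 ≤ η ^ 5 := by positivity
  have e6 : 0 ≤ η ^ 6 := by positivity
  have e7 : η ^ 7 ≤ η ^ 6 / 4 := by (by_contra nlg; linarith only [nlg, mul_nonneg (sub_nonneg.2 e3) (sub_nonneg.2 e5), mul_pos (sub_pos.2 (not_le.1 nlg)) (sub_pos.2 h0)])
  linarith only [h0, e2, e4, e5, e6, e7, sq_nonneg (η - 0.028)]

lemma saC1_lin2 {η : ℝ} (h0 : 1 / 4 ≤ η) (h1 : η ≤ 3 / 10) :
    -0.0203 - 0.22 * (η - 1 / 4) ≤ saC1 η := by
  have h := saC1_poly (by linarith : (0:ℝ) < η) (by linarith)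
  refine le_trans ?_ h
  obtain ⟨u, rfl⟩ : ∃ u, η = 1 / 4 + u := ⟨η - 1 / 4, by ring⟩
  have hu0 : 0 ≤ u := by linarith only [h0]
  have hu1 : u ≤ 1 / 20 := by linarith only [h1]
  have e1 : 0 ≤ u ^ 2 := by positivity
  have e2 : u ^ 2 ≤ u / 20 := by linarith only [mul_nonneg (sub_nonneg.2 h0) (sub_nonneg.2 h1)]
  have e3 : 0 ≤ u ^ 3 := by positivity
  have e3' : u ^ 3 ≤ u ^ 2 / 20 := by nlinarith only [h1]
  have e4 : 0 ≤ u ^ 4 := by positivity
  have e4' : u ^ 4 ≤ u ^ 3 / 20 := by nlinarith only [e2]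
  have e5 : 0 ≤ u ^ 5 := by positivity
  have e5' : u ^ 5 ≤ u ^ 4 / 20 := by linarith only [mul_nonneg (sq_nonneg (1 * u : ℝ)) (sub_nonneg.2 e3')]
  have e6 : 0 ≤ u ^ 6 := by positivity
  have e6' : u ^ 6 ≤ u ^ 5 / 20 := by linarith only [mul_nonneg (sub_nonneg.2 e5') (sub_nonneg.2 e5'), mul_nonneg (sub_nonneg.2 e5) (sub_nonneg.2 e5'), mul_nonneg (sub_nonneg.2 e4') (sub_nonneg.2 e5'), mul_nonneg (sub_nonneg.2 e4') (sub_nonneg.2 e4'), mul_nonneg (sub_nonneg.2 e3') (sub_nonneg.2 e4')]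
  have e7 : 0 ≤ u ^ 7 := by positivity
  have e7' : u ^ 7 ≤ u ^ 6 / 20 := by nlinarith
  nlinarith only [e3, e5', sq_nonneg (u - 0.025)]

lemma saC0_upper {η : ℝ} (h0 : 0 < η) (h1 : η ≤ 3 / 10) :
    saC0 η ≤ 0.69314719 + (1 - η) * (0.40548 - η / 3 - η ^ 2 / 18) - η / 4 - η ^ 2 / 32
      + (1 - η) * (η * (3 - η) / 4 + (η * (3 - η) / 4) ^ 2 / 2 + (η * (3 - η) / 4) ^ 3 / 2) := by
  set v := η * (3 - η) / 4 with hv
  have hv0 : 0 ≤ v := by
    have : (0:ℝ) < 3 - η := by linarith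
    positivity
  have hv1 : v ≤ 1 / 4 := by nlinarith only [h1, hv]
  have a1 := sa_log_upper hv0 (by linarith only [hv1])
  have a2 := sa_log_lower (v := η / 4) (by linarith only [h0]) (by linarith only [h1])
  have a3 := sa_log_lower (v := η / 3) (by linarith only [h0]) (by linarith only [h1])
  have h2 := Real.log_two_lt_d9
  have h3 := sa_log32.2
  have p3 : 0 ≤ (η / 3) ^ 3 := by positivity
  have p4 : 0 ≤ (η / 4) ^ 3 := by positivity
  have a4 : Real.log (3 / 2) + Real.log (1 - η / 3) ≤ 0.40548 - η / 3 - η ^ 2 / 18 := by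
    linarith only [a3, h3, p3]
  have hη1 : (0:ℝ) ≤ 1 - η := by linarith only [h1]
  have a5 := mul_le_mul_of_nonneg_left a4 hη1
  have a6 := mul_le_mul_of_nonneg_left a1 hη1
  unfold saC0
  rw [← hv]
  linarith only [a2, h2, p3, a5, a6]

lemma saC0_lower {η : ℝ} (h0 : 0 < η) (h1 : η ≤ 3 / 10) :
    0.69314718 + (1 - η) * (0.40545 - η / 3 - η ^ 2 / 18 - η ^ 3 / 54) - η / 4 - η ^ 2 / 32
      - η ^ 3 / 128
      + (1 - η) * (η * (3 - η) / 4 + (η * (3 - η) / 4) ^ 2 / 2 + (η * (3 - η) / 4) ^ 3 / 3)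
      ≤ saC0 η := by
  set v := η * (3 - η) / 4 with hv
  have hv0 : 0 ≤ v := by
    have : (0:ℝ) < 3 - η := by linarith
    positivity
  have hv1 : v ≤ 1 / 4 := by nlinarith only [h1, hv]
  have a1 := sa_log_lower hv0 (by linarith)
  have a2 := sa_log_upper (v := η / 4) (by linarith only [h0]) (by linarith only [h1])
  have a3 := sa_log_upper (v := η / 3) (by linarith only [h0]) (by linarith only [h1])
  have h2 := Real.log_two_gt_d9
  have h3 := sa_log32.1
  have a4 : 0.40545 - η / 3 - η ^ 2 / 18 - η ^ 3 / 54 ≤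
      Real.log (3 / 2) + Real.log (1 - η / 3) := by
    linarith only [a3, h3]
  have hη1 : (0:ℝ) ≤ 1 - η := by linarith only [h1]
  have a5 := mul_le_mul_of_nonneg_left a4 hη1
  have a6 := mul_le_mul_of_nonneg_left a1 hη1
  unfold saC0
  rw [← hv]
  linarith only [a2, h2, a5, a6]

lemma saC0_lin {η : ℝ} (h0 : 0 < η) (h1 : η ≤ 1 / 4) :
    1.098 - 0.36 * η ≤ saC0 η ∧ saC0 η ≤ 1.099 - 0.24 * η := by
  have hU := saC0_upper h0 (by linarith)
  have hL := saC0_lower h0 (by linarith only [h1])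
  have e1 : 0 ≤ η ^ 2 := by positivity
  have e3 : 0 ≤ η ^ 3 := by positivity
  have e3' : η ^ 3 ≤ η ^ 2 / 4 := by linarith only [mul_nonneg (sq_nonneg (1 * η : ℝ)) (sub_nonneg.2 h1)]
  have e4 : 0 ≤ η ^ 4 := by positivity
  have e4' : η ^ 4 ≤ η ^ 3 / 4 := by nlinarith only [h0, e3']
  have e5 : 0 ≤ η ^ 5 := by positivity
  have e5' : η ^ 5 ≤ η ^ 4 / 4 := by linarith only [mul_nonneg (sq_nonneg (1 * η : ℝ)) (sub_nonneg.2 e3')]
  have e6 : 0 ≤ η ^ 6 := by positivity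
  have e6' : η ^ 6 ≤ η ^ 5 / 4 := by (by_contra nlg; linarith only [nlg, mul_nonneg (sub_nonneg.2 e5') (sub_nonneg.2 e5'), mul_nonneg (sub_nonneg.2 e5) (sub_nonneg.2 e5'), mul_nonneg (sub_nonneg.2 e4') (sub_nonneg.2 e5'), mul_nonneg (sub_nonneg.2 e4') (sub_nonneg.2 e4'), mul_pos (sub_pos.2 (not_le.1 nlg)) (sub_pos.2 h0)])
  have e7 : 0 ≤ η ^ 7 := by positivity
  have e7' : η ^ 7 ≤ η ^ 6 / 4 := by (by_contra nlg; linarith only [nlg, mul_nonneg (sub_nonneg.2 e6') (sub_nonneg.2 e6'), mul_nonneg (sub_nonneg.2 e6) (sub_nonneg.2 e6'), mul_nonneg (sub_nonneg.2 e5') (sub_nonneg.2 e6'), mul_nonneg (sub_nonneg.2 e5') (sub_nonneg.2 e5'), mul_nonneg (sub_nonneg.2 e4') (sub_nonneg.2 e5'), mul_pos (sub_pos.2 (not_le.1 nlg)) (sub_pos.2 h0)])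
  constructor
  · refine le_trans ?_ hL
    linarith only [h1, e3', e4', e5, e6', e7, mul_nonneg h0.le (by linarith only [h1] : (0:ℝ) ≤ 1 / 4 - η)]
  · refine le_trans hU ?_
    nlinarith only [h1, e5']

lemma saC0_lin2 {η : ℝ} (h0 : 1 / 4 ≤ η) (h1 : η ≤ 3 / 10) :
    1.0085 - 0.51 * (η - 1 / 4) ≤ saC0 η ∧ saC0 η ≤ 1.0099 - 0.49 * (η - 1 / 4) := by
  have hU := saC0_upper (by linarith : (0:ℝ) < η) (by linarith)
  have hL := saC0_lower (by linarith only [h0] : (0:ℝ) < η) (by linarith only [h1])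
  obtain ⟨u, rfl⟩ : ∃ u, η = 1 / 4 + u := ⟨η - 1 / 4, by ring⟩
  have hu0 : 0 ≤ u := by linarith only [h0]
  have hu1 : u ≤ 1 / 20 := by linarith only [h1]
  have e1 : 0 ≤ u ^ 2 := by positivity
  have e2 : u ^ 2 ≤ u / 20 := by linarith only [mul_nonneg (sub_nonneg.2 h0) (sub_nonneg.2 h1)]
  have e3 : 0 ≤ u ^ 3 := by positivity
  have e3' : u ^ 3 ≤ u ^ 2 / 20 := by nlinarith only [h1]
  have e4 : 0 ≤ u ^ 4 := by positivity
  have e4' : u ^ 4 ≤ u ^ 3 / 20 := by nlinarith only [e2]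
  have e5 : 0 ≤ u ^ 5 := by positivity
  have e5' : u ^ 5 ≤ u ^ 4 / 20 := by nlinarith only [e3']
  have e6 : 0 ≤ u ^ 6 := by positivity
  have e6' : u ^ 6 ≤ u ^ 5 / 20 := by linarith only [mul_nonneg (sub_nonneg.2 e5') (sub_nonneg.2 e5'), mul_nonneg (sub_nonneg.2 e5) (sub_nonneg.2 e5'), mul_nonneg (sub_nonneg.2 e4') (sub_nonneg.2 e5'), mul_nonneg (sub_nonneg.2 e4') (sub_nonneg.2 e4'), mul_nonneg (sub_nonneg.2 e3') (sub_nonneg.2 e4')]
  have e7 : 0 ≤ u ^ 7 := by positivity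
  have e7' : u ^ 7 ≤ u ^ 6 / 20 := by linarith only [mul_nonneg (sub_nonneg.2 e6') (sub_nonneg.2 e6'), mul_nonneg (sub_nonneg.2 e6) (sub_nonneg.2 e6'), mul_nonneg (sub_nonneg.2 e5') (sub_nonneg.2 e6'), mul_nonneg (sub_nonneg.2 e5') (sub_nonneg.2 e5'), mul_nonneg (sub_nonneg.2 e4') (sub_nonneg.2 e5'), mul_nonneg (sub_nonneg.2 e4') (sub_nonneg.2 e4')]
  constructor
  · refine le_trans ?_ hL
    linarith only [h0, e2, e3', e4, e5, e6', e7]
  · refine le_trans hU ?_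
    nlinarith only [h1, e3, e7', e6]



end Vale.Agent.P322
end
end

section

section

/-! Polynomial inequalities used in the scalar inequalities (1), (2) of the low-noise regime. -/

namespace Vale.Agent.P322

/-- the cross-ratio monotonicity step -/
lemma sa_quad {A C x g b t : ℝ} (hA : 0 ≤ A) (hg : 0 ≤ g) (hb : 0 < b)
    (ht : 0 ≤ t) (h : C * b ^ 2 ≤ A * g ^ 2) (hxb : g ≤ x * b) :
    C * (t + b) ^ 2 ≤ A * (x * t + g) ^ 2 := by
  have h1 : g * (t + b) ≤ (x * t + g) * b := by linarith only [mul_le_mul_of_nonneg_right hxb ht]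
  have h2 : (g * (t + b)) ^ 2 ≤ ((x * t + g) * b) ^ 2 := by
    apply pow_le_pow_left₀ (by positivity) h1
  have h3 : C * b ^ 2 * (t + b) ^ 2 ≤ A * g ^ 2 * (t + b) ^ 2 :=
    mul_le_mul_of_nonneg_right h (sq_nonneg _)
  have h4 : A * (g * (t + b)) ^ 2 ≤ A * ((x * t + g) * b) ^ 2 := mul_le_mul_of_nonneg_left h2 hA
  have hb2 : 0 < b ^ 2 := by positivity
  have : C * (t + b) ^ 2 * b ^ 2 ≤ A * (x * t + g) ^ 2 * b ^ 2 := by linarith only [h3, h4]
  exact le_of_mul_le_mul_right this hb2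

/-- (1) on `1/4 ≤ η ≤ 3/10`, `u = η - 1/4`. -/
lemma sa_poly3 {u t : ℝ} (h0 : 0 ≤ u) (h1 : u ≤ 1 / 20) (ht : 0 ≤ t) :
    112 / 125 * (7 / 8 - u / 2) ^ 3 * ((1 / 4 + u) * (2.0797 - 3.64 * u) + 1.0099 - 0.49 * u)
        * (t + (3.0124 - 3.89 * u)) ^ 2 ≤
      2.77256 * ((7 / 8 - u / 2) * t + ((7 / 8 - u / 2) * (2.0749 - 3.64 * u)
        - 0.0203 - 0.22 * u)) ^ 2 := by
  have e1 : 0 ≤ u ^ 2 := by positivity
  have e2 : u ^ 2 ≤ u / 20 := by linarith only [mul_nonneg (sub_nonneg.2 h0) (sub_nonneg.2 h1)]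
  have e3 : 0 ≤ u ^ 3 := by positivity
  have e3' : u ^ 3 ≤ u ^ 2 / 20 := by linarith only [mul_nonneg (sq_nonneg (1 * u : ℝ)) (sub_nonneg.2 h1)]
  have e4 : 0 ≤ u ^ 4 := by positivity
  have e4' : u ^ 4 ≤ u ^ 3 / 20 := by nlinarith only [e2]
  have e5 : 0 ≤ u ^ 5 := by positivity
  have e5' : u ^ 5 ≤ u ^ 4 / 20 := by linarith only [mul_nonneg (sq_nonneg (1 * u : ℝ)) (sub_nonneg.2 e3')]
  have e6 : 0 ≤ u ^ 6 := by positivity
  have e6' : u ^ 6 ≤ u ^ 5 / 20 := by nlinarith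
  have e7 : 0 ≤ u ^ 7 := by positivity
  have e7' : u ^ 7 ≤ u ^ 6 / 20 := by nlinarith
  apply sa_quad (by norm_num) (by nlinarith only [h1]) (by linarith only [h1]) ht
  · nlinarith only [e2, e3', e5']
  · nlinarith only [h1]

/-- (2) on `1/4 ≤ η ≤ 3/10`, `u = η - 1/4`. -/
lemma sa_poly4 {u t : ℝ} (h0 : 0 ≤ u) (h1 : u ≤ 1 / 20) (ht : 0 ≤ t) (ht' : t ≤ 1 / 200) :
    0 ≤ 56 / 125 * (15 / 16 - u / 4) * (7 / 8 - u / 2) * (t + (3.0124 - 3.89 * u))
        * ((1 / 4 + u) * (t + (2.0749 - 3.64 * u)) + 1.0085 - 0.51 * u)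
      - 112 / 125 * (t + (3.0124 - 3.89 * u)) * ((7 / 8 - u / 2) * t
        + ((7 / 8 - u / 2) * (2.0749 - 3.64 * u) - 0.0203 - 0.22 * u))
      + ((7 / 8 - u / 2) * t + ((7 / 8 - u / 2) * (2.0749 - 3.64 * u) - 0.0203 - 0.22 * u)) ^ 2 := by
  have e1 : 0 ≤ u ^ 2 := by positivity
  have e2 : u ^ 2 ≤ u / 20 := by linarith only [mul_nonneg (sub_nonneg.2 h0) (sub_nonneg.2 h1)]
  have e3 : 0 ≤ u ^ 3 := by positivity
  have e3' : u ^ 3 ≤ u ^ 2 / 20 := by linarith only [mul_nonneg (sq_nonneg (1 * u : ℝ)) (sub_nonneg.2 h1)]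
  have e4 : 0 ≤ u ^ 4 := by positivity
  have e4' : u ^ 4 ≤ u ^ 3 / 20 := by linarith only [mul_nonneg (sq_nonneg (1 * u : ℝ)) (sub_nonneg.2 e2)]
  have e5 : 0 ≤ u ^ 5 := by positivity
  have e5' : u ^ 5 ≤ u ^ 4 / 20 := by nlinarith only [e3']
  have e6 : 0 ≤ u ^ 6 := by positivity
  have e6' : u ^ 6 ≤ u ^ 5 / 20 := by nlinarith
  have q2 : 0 ≤ 56 / 125 * (15 / 16 - u / 4) * (7 / 8 - u / 2) * (1 / 4 + u)
    - 112 / 125 * (7 / 8 - u / 2) + (7 / 8 - u / 2) ^ 2 := by linarith only [h1, e2, e3]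
  have q1 : -1 ≤ 56 / 125 * (15 / 16 - u / 4) * (7 / 8 - u / 2) * ((1 / 4 + u) * (3.0124 - 3.89 * u)
      + ((1 / 4 + u) * (2.0749 - 3.64 * u) + 1.0085 - 0.51 * u))
      - 112 / 125 * ((7 / 8 - u / 2) * (3.0124 - 3.89 * u)
      + ((7 / 8 - u / 2) * (2.0749 - 3.64 * u) - 0.0203 - 0.22 * u))
      + 2 * (7 / 8 - u / 2) * ((7 / 8 - u / 2) * (2.0749 - 3.64 * u) - 0.0203 - 0.22 * u) := by
    nlinarith only [h1, e3]
  have q0 : 1 / 200 ≤ 56 / 125 * (15 / 16 - u / 4) * (7 / 8 - u / 2) * (3.0124 - 3.89 * u)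
      * ((1 / 4 + u) * (2.0749 - 3.64 * u) + 1.0085 - 0.51 * u)
      - 112 / 125 * (3.0124 - 3.89 * u) * ((7 / 8 - u / 2) * (2.0749 - 3.64 * u) - 0.0203 - 0.22 * u)
      + ((7 / 8 - u / 2) * (2.0749 - 3.64 * u) - 0.0203 - 0.22 * u) ^ 2 := by nlinarith only [h1, e4']
  nlinarith only [h1, ht', e3', e4', ht, mul_nonneg q2 (mul_nonneg ht ht)]

/-- (1) on `η ≤ 1/4`. -/
lemma sa_poly1 {η t : ℝ} (h0 : 0 ≤ η) (h1 : η ≤ 1 / 4) (ht : 0 ≤ t) :
    112 / 125 * (1 - η / 2) ^ 3 * (1.349 + 0.84 * η) * (t + (3.0794 - η / 4)) ^ 2 ≤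
      2.77256 * ((1 - η / 2) * t + (2.1244 - 1.3297 * η)) ^ 2 := by
  apply sa_quad (by norm_num) (by linarith) (by linarith only [h1]) ht
  · have e1 : 0 ≤ η ^ 2 := by positivity
    have e2 : η ^ 2 ≤ η / 4 := by linarith only [mul_nonneg (sub_nonneg.2 h0) (sub_nonneg.2 h1)]
    have e3 : 0 ≤ η ^ 3 := by positivity
    have e3' : η ^ 3 ≤ η ^ 2 / 4 := by nlinarith only [h1]
    have e4 : 0 ≤ η ^ 4 := by positivity
    have e4' : η ^ 4 ≤ η ^ 3 / 4 := by nlinarith only [e2]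
    have e5 : 0 ≤ η ^ 5 := by positivity
    have e5' : η ^ 5 ≤ η ^ 4 / 4 := by linarith only [mul_nonneg (sq_nonneg (1 * η : ℝ)) (sub_nonneg.2 e3')]
    have e6 : 0 ≤ η ^ 6 := by positivity
    have e6' : η ^ 6 ≤ η ^ 5 / 4 := by nlinarith
    nlinarith only [h1, e3']
  · nlinarith

/-- (2) on `η ≤ 1/4`. -/
lemma sa_poly2 {η t : ℝ} (h0 : 0 ≤ η) (h1 : η ≤ 1 / 4) (ht : 0 ≤ t) :
    0 ≤ 56 / 125 * (1 - η / 4) * (1 - η / 2) * (t + (3.0794 - η / 4))
        * (η * (t + 2.0794) + 1.098 - 0.36 * η)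
      - 112 / 125 * (t + (3.0794 - η / 4)) * ((1 - η / 2) * t + (2.1244 - 1.3297 * η))
      + ((1 - η / 2) * t + (2.1244 - 1.3297 * η)) ^ 2 := by
  have e1 : 0 ≤ η ^ 2 := by positivity
  have e2 : η ^ 2 ≤ η / 4 := by linarith only [mul_nonneg (sub_nonneg.2 h0) (sub_nonneg.2 h1)]
  have e3 : 0 ≤ η ^ 3 := by positivity
  have e3' : η ^ 3 ≤ η ^ 2 / 4 := by linarith only [mul_nonneg (sq_nonneg (1 * η : ℝ)) (sub_nonneg.2 h1)]
  have e4 : 0 ≤ η ^ 4 := by positivity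
  have e4' : η ^ 4 ≤ η ^ 3 / 4 := by nlinarith only [e2]
  have q2 : 0 ≤ 56 / 125 * (1 - η / 4) * (1 - η / 2) * η - 112 / 125 * (1 - η / 2)
    + (1 - η / 2) ^ 2 := by linarith only [e3, e2, h1]
  have q1 : 0 ≤ 56 / 125 * (1 - η / 4) * (1 - η / 2) * (η * (3.0794 - η / 4)
      + (η * 2.0794 + 1.098 - 0.36 * η)) - 112 / 125 * ((1 - η / 2) * (3.0794 - η / 4)
      + (2.1244 - 1.3297 * η)) + 2 * (1 - η / 2) * (2.1244 - 1.3297 * η) := by nlinarith only [h1, e2]
  have q0 : 0 ≤ 56 / 125 * (1 - η / 4) * (1 - η / 2) * (3.0794 - η / 4)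
      * (η * 2.0794 + 1.098 - 0.36 * η) - 112 / 125 * (3.0794 - η / 4) * (2.1244 - 1.3297 * η)
      + (2.1244 - 1.3297 * η) ^ 2 := by linarith only [h1, e2, e3, e4']
  linarith only [h1, e2, e3, e4', mul_nonneg q2 (mul_nonneg ht ht), mul_nonneg q1 ht]


end Vale.Agent.P322
end
end

section

section

/-! Elementary bounds used for the scalar inequality of regime B at `ρ = 3/4`. -/

namespace Vale.Agent.P322

open Real Filter Topology

/-- `φ(x) ≤ x²/2 + 0.112 x⁴` for `|x| ≤ 3/4`. -/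
lemma pt_ph_le {x : ℝ} (hx : |x| ≤ 3 / 4) : ph x ≤ x ^ 2 / 2 + 112 / 1000 * x ^ 4 := by
  have hx1 : |x| < 1 := by linarith
  have hs := hasSum_ph hx1
  set u := x ^ 2 with hu
  have hu0 : 0 ≤ u := sq_nonneg x
  have hu1 : u ≤ 9 / 16 := by
    have := abs_nonneg x
    have h2 : |x| ^ 2 ≤ (3 / 4) ^ 2 := by nlinarith only [hx, this]
    rw [sq_abs] at h2
    rw [hu]; linarith
  -- split off the first five terms
  have hsplit := hs.summable.sum_add_tsum_nat_add 5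
  rw [hs.tsum_eq] at hsplit
  have hgeo : HasSum (fun n : ℕ => u ^ 2 / 132 * ((9 / 16 : ℝ) ^ 4 * (9 / 16 : ℝ) ^ n))
      (u ^ 2 / 132 * ((9 / 16 : ℝ) ^ 4 * (1 - 9 / 16)⁻¹)) :=
    ((hasSum_geometric_of_lt_one (by norm_num) (by norm_num)).mul_left _).mul_left _
  have htail : ∑' i : ℕ, x ^ (2 * (i + 5) + 2) / ((2 * ((i + 5 : ℕ) : ℝ) + 2) * (2 * ((i + 5 : ℕ) : ℝ) + 1))
      ≤ u ^ 2 / 132 * ((9 / 16 : ℝ) ^ 4 * (1 - 9 / 16)⁻¹) := by
    rw [← hgeo.tsum_eq]
    refine Summable.tsum_le_tsum (fun i => ?_) ((summable_nat_add_iff 5).mpr hs.summable) hgeo.summable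
    have e1 : x ^ (2 * (i + 5) + 2) = u ^ 2 * (u ^ 4 * u ^ i) := by
      rw [hu]; ring
    rw [e1]
    have h1 : u ^ 4 * u ^ i ≤ (9 / 16 : ℝ) ^ 4 * (9 / 16 : ℝ) ^ i :=
      mul_le_mul (pow_le_pow_left₀ hu0 hu1 4) (pow_le_pow_left₀ hu0 hu1 i) (by positivity)
        (by positivity)
    have h2 : (132 : ℝ) ≤ (2 * ((i + 5 : ℕ) : ℝ) + 2) * (2 * ((i + 5 : ℕ) : ℝ) + 1) := by
      push_cast
      have : (0 : ℝ) ≤ i := Nat.cast_nonneg i
      nlinarith only
    calc u ^ 2 * (u ^ 4 * u ^ i) / ((2 * ((i + 5 : ℕ) : ℝ) + 2) * (2 * ((i + 5 : ℕ) : ℝ) + 1))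
        ≤ u ^ 2 * (u ^ 4 * u ^ i) / 132 := by
          apply div_le_div_of_nonneg_left (by positivity) (by norm_num) h2
      _ ≤ u ^ 2 * ((9 / 16 : ℝ) ^ 4 * (9 / 16 : ℝ) ^ i) / 132 := by
          apply div_le_div_of_nonneg_right _ (by norm_num)
          exact mul_le_mul_of_nonneg_left h1 (by positivity)
      _ = u ^ 2 / 132 * ((9 / 16 : ℝ) ^ 4 * (9 / 16 : ℝ) ^ i) := by ring
  have hfirst : ∑ i ∈ Finset.range 5, x ^ (2 * i + 2) / ((2 * (i : ℝ) + 2) * (2 * (i : ℝ) + 1))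
      = u / 2 + u ^ 2 / 12 + u ^ 3 / 30 + u ^ 4 / 56 + u ^ 5 / 90 := by
    simp only [Finset.sum_range_succ, Finset.sum_range_zero]
    rw [hu]; norm_num; ring
  have e4 : x ^ 4 = u ^ 2 := by rw [hu]; ring
  rw [e4]
  have h3 : u ^ 3 ≤ 9 / 16 * u ^ 2 := by linarith only [mul_nonneg (sq_nonneg (1 * u : ℝ)) (sub_nonneg.2 hu1)]
  have h4 : u ^ 4 ≤ (9 / 16) ^ 2 * u ^ 2 := by linarith only [mul_nonneg (sub_nonneg.2 hu1) (sub_nonneg.2 (mul_nonneg hu0 (sq_nonneg u))), mul_nonneg (sub_nonneg.2 hu1) (sq_nonneg u)]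
  have h5 : u ^ 5 ≤ (9 / 16) ^ 3 * u ^ 2 := by
    have : u ^ 5 = u * u ^ 4 := by ring
    rw [this]
    have := mul_le_mul hu1 h4 (by positivity) (by norm_num)
    linarith only [this]
  have hf : ph x = (u / 2 + u ^ 2 / 12 + u ^ 3 / 30 + u ^ 4 / 56 + u ^ 5 / 90)
    + ∑' i : ℕ, x ^ (2 * (i + 5) + 2) / ((2 * ((i + 5 : ℕ) : ℝ) + 2) * (2 * ((i + 5 : ℕ) : ℝ) + 1)) := by
    rw [← hfirst]; exact hsplit.symm
  rw [hf]
  norm_num at htail ⊢
  linarith only [h3, h4, h5, htail, sq_nonneg u]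

/-- lower bound by the first terms of the series of `φ(x) - φ(3x/4)/(9/16)`. -/
lemma pt_diff_ge {x : ℝ} (hx0 : 0 ≤ x) (hx : x ≤ 1) :
    7 / 192 * x ^ 4 + 35 / 1536 * x ^ 6 + 481 / 32768 * x ^ 8
      ≤ ph x - ph (3 / 4 * x) / (9 / 16) := by
  rcases hx.lt_or_eq with h1 | h1
  · have ha : |x| < 1 := by rw [abs_of_nonneg hx0]; exact h1
    have hb : |3 / 4 * x| < 1 := by rw [abs_of_nonneg (by positivity)]; linarith
    have hs := (hasSum_ph ha).sub ((hasSum_ph hb).div_const (9 / 16))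
    have := sum_le_hasSum (Finset.range 4) (fun i _ => ?_) hs
    · refine le_trans ?_ this
      simp only [Finset.sum_range_succ, Finset.sum_range_zero]
      norm_num
      ring_nf
      linarith only
    · have e : (3 / 4 * x) ^ (2 * i + 2) / ((2 * (i : ℝ) + 2) * (2 * (i : ℝ) + 1)) / (9 / 16)
        = ((9 / 16 : ℝ) ^ i) * (x ^ (2 * i + 2) / ((2 * (i : ℝ) + 2) * (2 * (i : ℝ) + 1))) := by
        have : (3 / 4 * x) ^ (2 * i + 2) = (9 / 16) * (9 / 16 : ℝ) ^ i * x ^ (2 * i + 2) := by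
          have e9 : (3 / 4 : ℝ) ^ (2 * i + 2) = (9 / 16) * (9 / 16 : ℝ) ^ i := by
            rw [pow_add, pow_mul]
            have e16 : (3 / 4 : ℝ) ^ 2 = 9 / 16 := by norm_num
            rw [e16]; ring
          rw [mul_pow, e9]
        rw [this]; ring
      rw [e]
      have h9 : (9 / 16 : ℝ) ^ i ≤ 1 := pow_le_one₀ (by norm_num) (by norm_num)
      have h0 : 0 ≤ x ^ (2 * i + 2) / ((2 * (i : ℝ) + 2) * (2 * (i : ℝ) + 1)) := by positivity
      linarith only [mul_nonneg (sub_nonneg.2 h9) (sub_nonneg.2 h0)]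
  · rw [h1]
    have h2 := pt_ph_le (x := 3 / 4 * 1) (by norm_num)
    have h3 : ph 1 = Real.log 2 := by
      rw [ph_eq]; norm_num
    rw [h3]
    have := Real.log_two_gt_d9
    norm_num at h2 ⊢
    linarith only [this, h2]

/-- `k = log 2 - φ(3/4)/(9/16) ≤ 0.1308`. -/
lemma pt_k_le : Real.log 2 - ph (3 / 4) / (9 / 16) ≤ 1308 / 10000 := by
  have h2 := Real.log_two_lt_d9
  -- first eight terms of the series of φ(3/4)
  have hs := hasSum_ph (y := 3 / 4) (by rw [abs_of_nonneg] <;> norm_num)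
  have := sum_le_hasSum (Finset.range 12) (fun i _ => by positivity) hs
  simp only [Finset.sum_range_succ, Finset.sum_range_zero] at this
  norm_num at this
  rw [sub_le_iff_le_add]
  have h3 : (0.5624 : ℝ) ≤ ph (3 / 4) / (9 / 16) := by
    rw [le_div_iff₀ (by norm_num)]
    norm_num
    linarith
  linarith only [this, h2]

/-- two terms of the series of `log (1 - 9X/16) - log (1 - X)`. -/
lemma pt_log_diff {X : ℝ} (h0 : 0 ≤ X) (h1 : X < 1) :
    7 / 16 * X + 175 / 512 * X ^ 2 ≤ Real.log (1 - 9 / 16 * X) - Real.log (1 - X) := by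
  have ha : |X| < 1 := by rw [abs_of_nonneg h0]; exact h1
  have hb : |9 / 16 * X| < 1 := by rw [abs_of_nonneg (by positivity)]; linarith
  have hs := (Real.hasSum_pow_div_log_of_abs_lt_one ha).sub
    (Real.hasSum_pow_div_log_of_abs_lt_one hb)
  have := sum_le_hasSum (Finset.range 2) (fun i _ => ?_) hs
  · simp only [Finset.sum_range_succ, Finset.sum_range_zero] at this
    norm_num at this
    linarith only [this]
  · rw [mul_pow, ← sub_div]
    apply div_nonneg _ (by positivity)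
    have h9 : (9 / 16 : ℝ) ^ (i + 1) ≤ 1 := pow_le_one₀ (by norm_num) (by norm_num)
    have h0 : 0 ≤ X ^ (i + 1) := by positivity
    linarith only [mul_nonneg (sub_nonneg.2 h9) (sub_nonneg.2 h0)]

/-- `-log (1-u) ≤ 1.0826 u` for `0 ≤ u ≤ 9/64`. -/
lemma pt_log_le {u : ℝ} (h0 : 0 ≤ u) (h1 : u ≤ 9 / 64) :
    -Real.log (1 - u) ≤ 10826 / 10000 * u := by
  have h := Real.abs_log_sub_add_sum_range_le (x := u) (by rw [abs_of_nonneg h0]; linarith) 3
  rw [abs_of_nonneg h0] at h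
  have h2 := (abs_le.mp h).1
  simp only [Finset.sum_range_succ, Finset.sum_range_zero] at h2
  norm_num at h2
  have h3 : u ^ 4 / (1 - u) ≤ u * (0.0033) := by
    rw [div_le_iff₀ (by linarith only [h1])]
    have : u ^ 3 ≤ (9 / 64) ^ 3 := pow_le_pow_left₀ h0 h1 3
    have e : u ^ 4 = u * u ^ 3 := by ring
    rw [e]
    have : u * u ^ 3 ≤ u * (9 / 64) ^ 3 := mul_le_mul_of_nonneg_left this h0
    nlinarith only [this, h0]
  have h4 : u ^ 2 ≤ 9 / 64 * u := by nlinarith only [h0, h1]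
  have h5 : u ^ 3 ≤ (9 / 64) ^ 2 * u := by nlinarith only [h4]
  linarith only [h0, h2, h3, h4, h5]

/-- tangent lower bound for `-log (1-q)` -/
lemma pt_tan_lo {q q0 lo : ℝ} (hq : q < 1) (hq0 : q0 < 1) (h : lo ≤ -Real.log (1 - q0)) :
    lo + (q - q0) / (1 - q0) ≤ -Real.log (1 - q) := by
  have h1 : 0 < 1 - q := by linarith
  have h2 : 0 < 1 - q0 := by linarith
  have h3 := Real.log_le_sub_one_of_pos (div_pos h1 h2)
  rw [Real.log_div h1.ne' h2.ne'] at h3
  have h4 : (1 - q) / (1 - q0) - 1 = -((q - q0) / (1 - q0)) := by field_simp; ring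
  linarith

/-- upper bound for `-log (1-q)` (tangent in the variable `1/(1-q)`) -/
lemma pt_tan_up {q q0 up : ℝ} (hq : q < 1) (hq0 : q0 < 1) (h : -Real.log (1 - q0) ≤ up) :
    -Real.log (1 - q) ≤ up + (q - q0) / (1 - q) := by
  have h1 : 0 < 1 - q := by linarith
  have h2 : 0 < 1 - q0 := by linarith
  have h3 := Real.log_le_sub_one_of_pos (div_pos h2 h1)
  rw [Real.log_div h2.ne' h1.ne'] at h3
  have h4 : (1 - q0) / (1 - q) - 1 = ((q - q0) / (1 - q)) := by field_simp; ring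
  linarith

/-- tangent lower bound for `-log q` -/
lemma pt_tan_la {q q0 la : ℝ} (hq : 0 < q) (hq0 : 0 < q0) (h : la ≤ -Real.log q0) :
    la - (q - q0) / q0 ≤ -Real.log q := by
  have h3 := Real.log_le_sub_one_of_pos (div_pos hq hq0)
  rw [Real.log_div hq.ne' hq0.ne'] at h3
  have h4 : q / q0 - 1 = ((q - q0) / q0) := by field_simp
  linarith

/-- numerical enclosure of `-log (1-x)` by `n` terms of the series. -/
lemma pt_num {x : ℝ} (h0 : 0 ≤ x) (h1 : x < 1) (n : ℕ) :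
    ∑ i ∈ Finset.range n, x ^ (i + 1) / (i + 1) - x ^ (n + 1) / (1 - x) ≤ -Real.log (1 - x) ∧
    -Real.log (1 - x) ≤ ∑ i ∈ Finset.range n, x ^ (i + 1) / (i + 1) + x ^ (n + 1) / (1 - x) := by
  have h := Real.abs_log_sub_add_sum_range_le (x := x) (by rw [abs_of_nonneg h0]; exact h1) n
  rw [abs_of_nonneg h0] at h
  have h2 := abs_le.mp h
  constructor <;> linarith only [h2]

end Vale.Agent.P322
end
end

section

section

/-! Polynomial inequalities (Bernstein certificates) for the scalar inequality at `ρ = 3/4`. -/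

namespace Vale.Agent.P322

lemma pt_cell0 {q y : ℝ} (ha : 0 ≤ q) (hb : q ≤ 1/8) (hy : 0 ≤ y) (hy1 : y ≤ 1) :
    8 * ((1 - q) ^ 2 * (q + q ^ 2 / 2 + 2/5 * q ^ 3) + 3045 / 10000 * q ^ 2 * y)
          * (1308 / 10000 * q * (1 - q) ^ 3 - 1 / 4 * (7 / 192 * y * ((1 - q) ^ 3 + q ^ 3)
            + (35 / 1536 * y ^ 2 + 481 / 32768 * y ^ 3) * (1 - q) ^ 3))
      ≤ q * (7 / 16 * (1 - q) ^ 2 + 175 / 512 * q ^ 2 * y)
          * ((1 - q) * ((1 - q) * (q + q ^ 2 / 2) + q * (2079/1000) - 4 * (1308 / 10000) * (1 - q) * q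
            - q * (y / 2 + (1 + 3/1000) * (63 / 1000) * y ^ 2)) - q ^ 2 * y / 2) := by
  obtain ⟨t, ht⟩ : ∃ t : ℝ, q = 1/8 * t := ⟨q / (1/8), by ring⟩
  obtain ⟨s, hs⟩ : ∃ s : ℝ, y = s := ⟨y, rfl⟩
  have h0 : 0 ≤ t := by linarith
  have h1 : 0 ≤ 1 - t := by linarith
  have h2 : 0 ≤ s := by linarith
  have h3 : 0 ≤ 1 - s := by linarith
  rw [← sub_nonneg]
  have key : q * (7 / 16 * (1 - q) ^ 2 + 175 / 512 * q ^ 2 * y)
          * ((1 - q) * ((1 - q) * (q + q ^ 2 / 2) + q * (2079/1000) - 4 * (1308 / 10000) * (1 - q) * q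
            - q * (y / 2 + (1 + 3/1000) * (63 / 1000) * y ^ 2)) - q ^ 2 * y / 2)
      - 8 * ((1 - q) ^ 2 * (q + q ^ 2 / 2 + 2/5 * q ^ 3) + 3045 / 10000 * q ^ 2 * y)
          * (1308 / 10000 * q * (1 - q) ^ 3 - 1 / 4 * (7 / 192 * y * ((1 - q) ^ 3 + q ^ 3)
            + (35 / 1536 * y ^ 2 + 481 / 32768 * y ^ 3) * (1 - q) ^ 3))
      = 1/8 * t * (s ^ 0 * (1 - s) ^ 4 * (
        (5741/640000) * (t ^ 1 * (1 - t) ^ 7)
        + (430653/5120000) * (t ^ 2 * (1 - t) ^ 6)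
        + (62712691/204800000) * (t ^ 3 * (1 - t) ^ 5)
        + (38340967/65536000) * (t ^ 4 * (1 - t) ^ 4)
        + (52931221/81920000) * (t ^ 5 * (1 - t) ^ 3)
        + (437288299/1048576000) * (t ^ 6 * (1 - t) ^ 2)
        + (384344877/2621440000) * (t ^ 7 * (1 - t) ^ 1)
        + (570278317/26214400000) * (t ^ 8 * (1 - t) ^ 0))
      + s ^ 1 * (1 - s) ^ 3 * (
        (7/96) * (t ^ 0 * (1 - t) ^ 8)
        + (528821/960000) * (t ^ 1 * (1 - t) ^ 7)
        + (1834038443/960000000) * (t ^ 2 * (1 - t) ^ 6)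
        + (387325938263/98304000000) * (t ^ 3 * (1 - t) ^ 5)
        + (20548141030361/3932160000000) * (t ^ 4 * (1 - t) ^ 4)
        + (3549765789577/786432000000) * (t ^ 5 * (1 - t) ^ 3)
        + (154620402011929/62914560000000) * (t ^ 6 * (1 - t) ^ 2)
        + (1607019289519/2097152000000) * (t ^ 7 * (1 - t) ^ 1)
        + (2187846592099/20971520000000) * (t ^ 8 * (1 - t) ^ 0))
      + s ^ 2 * (1 - s) ^ 2 * (
        (203/768) * (t ^ 0 * (1 - t) ^ 8)
        + (743812631/384000000) * (t ^ 1 * (1 - t) ^ 7)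
        + (97143024479/15360000000) * (t ^ 2 * (1 - t) ^ 6)
        + (393764072127/32768000000) * (t ^ 3 * (1 - t) ^ 5)
        + (57091662409663/3932160000000) * (t ^ 4 * (1 - t) ^ 4)
        + (448402495597/39321600000) * (t ^ 5 * (1 - t) ^ 3)
        + (356897643603557/62914560000000) * (t ^ 6 * (1 - t) ^ 2)
        + (6837036428033/4194304000000) * (t ^ 7 * (1 - t) ^ 1)
        + (2166833052671/10485760000000) * (t ^ 8 * (1 - t) ^ 0))
      + s ^ 3 * (1 - s) ^ 1 * (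
        (16675/49152) * (t ^ 0 * (1 - t) ^ 8)
        + (30442583909/12288000000) * (t ^ 1 * (1 - t) ^ 7)
        + (3920092823333/491520000000) * (t ^ 2 * (1 - t) ^ 6)
        + (3876904514023/262144000000) * (t ^ 3 * (1 - t) ^ 5)
        + (543647297542069/31457280000000) * (t ^ 4 * (1 - t) ^ 4)
        + (655968175515961/50331648000000) * (t ^ 5 * (1 - t) ^ 3)
        + (12469224743032589/2013265920000000) * (t ^ 6 * (1 - t) ^ 2)
        + (455081570076903/268435456000000) * (t ^ 7 * (1 - t) ^ 1)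
        + (274545748249493/1342177280000000) * (t ^ 8 * (1 - t) ^ 0))
      + s ^ 4 * (1 - s) ^ 0 * (
        (7267/49152) * (t ^ 0 * (1 - t) ^ 8)
        + (106503938911/98304000000) * (t ^ 1 * (1 - t) ^ 7)
        + (13702718097943/3932160000000) * (t ^ 2 * (1 - t) ^ 6)
        + (8087496052921/1258291200000) * (t ^ 3 * (1 - t) ^ 5)
        + (623829885454783/83886080000000) * (t ^ 4 * (1 - t) ^ 4)
        + (92749879612943/16777216000000) * (t ^ 5 * (1 - t) ^ 3)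
        + (1730792238376831/671088640000000) * (t ^ 6 * (1 - t) ^ 2)
        + (185345558520423/268435456000000) * (t ^ 7 * (1 - t) ^ 1)
        + (109019796041541/1342177280000000) * (t ^ 8 * (1 - t) ^ 0))) := by
    rw [ht, hs]; ring
  rw [key]
  (clear * - h0 h1 h2 h3; positivity)

lemma pt_cell1 {q y : ℝ} (ha : 1/8 ≤ q) (hb : q ≤ 1/4) (hy : 0 ≤ y) (hy1 : y ≤ 1) :
    8 * (((1 - q) ^ 2 * (2077/10000) + (1 - q) * (q - 3/16)) + 3045 / 10000 * q ^ 2 * y)
          * (1308 / 10000 * q * (1 - q) ^ 3 - 1 / 4 * (7 / 192 * y * ((1 - q) ^ 3 + q ^ 3)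
            + (35 / 1536 * y ^ 2 + 481 / 32768 * y ^ 3) * (1 - q) ^ 3))
      ≤ q * (7 / 16 * (1 - q) ^ 2 + 175 / 512 * q ^ 2 * y)
          * ((1 - q) * ((1 - q) * (519/2500 + (q - 3/16) / (1 - 3/16)) + q * (16739/10000 - (q - 3/16) / (3/16)) - 4 * (1308 / 10000) * (1 - q) * q
            - q * (y / 2 + (1 + 19/500) * (63 / 1000) * y ^ 2)) - q ^ 2 * y / 2) := by
  obtain ⟨t, ht⟩ : ∃ t : ℝ, q = 1/8 + 1/8 * t := ⟨(q - 1/8) / (1/8), by ring⟩
  obtain ⟨s, hs⟩ : ∃ s : ℝ, y = 1 * s := ⟨y / (1), by ring⟩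
  have h0 : 0 ≤ t := by linarith only [ht, ha]
  have h1 : 0 ≤ 1 - t := by linarith only [hb, ht]
  have h2 : 0 ≤ s := by linarith
  have h3 : 0 ≤ 1 - s := by linarith
  rw [← sub_nonneg]
  have key : q * (7 / 16 * (1 - q) ^ 2 + 175 / 512 * q ^ 2 * y)
          * ((1 - q) * ((1 - q) * (519/2500 + (q - 3/16) / (1 - 3/16)) + q * (16739/10000 - (q - 3/16) / (3/16)) - 4 * (1308 / 10000) * (1 - q) * q
            - q * (y / 2 + (1 + 19/500) * (63 / 1000) * y ^ 2)) - q ^ 2 * y / 2)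
      - 8 * (((1 - q) ^ 2 * (2077/10000) + (1 - q) * (q - 3/16)) + 3045 / 10000 * q ^ 2 * y)
          * (1308 / 10000 * q * (1 - q) ^ 3 - 1 / 4 * (7 / 192 * y * ((1 - q) ^ 3 + q ^ 3)
            + (35 / 1536 * y ^ 2 + 481 / 32768 * y ^ 3) * (1 - q) ^ 3))
      = s ^ 0 * (1 - s) ^ 4 * (
        (273806215207/127795200000000) * (t ^ 0 * (1 - t) ^ 6)
        + (701496229273/42598400000000) * (t ^ 1 * (1 - t) ^ 5)
        + (15861199011/327680000000) * (t ^ 2 * (1 - t) ^ 4)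
        + (44526253639/638976000000) * (t ^ 3 * (1 - t) ^ 3)
        + (868066653/16640000000) * (t ^ 4 * (1 - t) ^ 2)
        + (51313360077/2662400000000) * (t ^ 5 * (1 - t) ^ 1)
        + (3617075187/1331200000000) * (t ^ 6 * (1 - t) ^ 0))
      + s ^ 1 * (1 - s) ^ 3 * (
        (44279082780331/4089446400000000) * (t ^ 0 * (1 - t) ^ 6)
        + (103443197803169/1363148800000000) * (t ^ 1 * (1 - t) ^ 5)
        + (16929985206169/81788928000000) * (t ^ 2 * (1 - t) ^ 4)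
        + (1139863952731/4089446400000) * (t ^ 3 * (1 - t) ^ 3)
        + (497388771169/2555904000000) * (t ^ 4 * (1 - t) ^ 2)
        + (5612481392581/85196800000000) * (t ^ 5 * (1 - t) ^ 1)
        + (345235833771/42598400000000) * (t ^ 6 * (1 - t) ^ 0))
      + s ^ 2 * (1 - s) ^ 2 * (
        (92850511374299/4089446400000000) * (t ^ 0 * (1 - t) ^ 6)
        + (604707561933223/4089446400000000) * (t ^ 1 * (1 - t) ^ 5)
        + (154631391771017/408944640000000) * (t ^ 2 * (1 - t) ^ 4)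
        + (3270454169913/6815744000000) * (t ^ 3 * (1 - t) ^ 3)
        + (41883213471/133120000000) * (t ^ 4 * (1 - t) ^ 2)
        + (8351092596609/85196800000000) * (t ^ 5 * (1 - t) ^ 1)
        + (440594572559/42598400000000) * (t ^ 6 * (1 - t) ^ 0))
      + s ^ 3 * (1 - s) ^ 1 * (
        (1033353302058119/43620761600000000) * (t ^ 0 * (1 - t) ^ 6)
        + (19348133988824599/130862284800000000) * (t ^ 1 * (1 - t) ^ 5)
        + (4773228893699777/13086228480000000) * (t ^ 2 * (1 - t) ^ 4)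
        + (58983126136487/130862284800000) * (t ^ 3 * (1 - t) ^ 3)
        + (79189249887019/272629760000000) * (t ^ 4 * (1 - t) ^ 2)
        + (244937356121217/2726297600000000) * (t ^ 5 * (1 - t) ^ 1)
        + (13044329747087/1363148800000000) * (t ^ 6 * (1 - t) ^ 0))
      + s ^ 4 * (1 - s) ^ 0 * (
        (212940329066423/21810380800000000) * (t ^ 0 * (1 - t) ^ 6)
        + (3932878677224203/65431142400000000) * (t ^ 1 * (1 - t) ^ 5)
        + (964314208657051/6543114240000000) * (t ^ 2 * (1 - t) ^ 4)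
        + (4613581074011/25165824000000) * (t ^ 3 * (1 - t) ^ 3)
        + (24778037204483/204472320000000) * (t ^ 4 * (1 - t) ^ 2)
        + (54145644169549/1363148800000000) * (t ^ 5 * (1 - t) ^ 1)
        + (3305135805629/681574400000000) * (t ^ 6 * (1 - t) ^ 0)) := by
    rw [ht, hs]; ring
  rw [key]
  (clear * - h0 h1 h2 h3; positivity)

lemma pt_cell2 {q y : ℝ} (ha : 1/4 ≤ q) (hb : q ≤ 5/16) (hy : 0 ≤ y) (hy1 : y ≤ 1) :
    8 * (((1 - q) ^ 2 * (3303/10000) + (1 - q) * (q - 9/32)) + 3045 / 10000 * q ^ 2 * y)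
          * (1308 / 10000 * q * (1 - q) ^ 3 - 1 / 4 * (7 / 192 * y * ((1 - q) ^ 3 + q ^ 3)
            + (35 / 1536 * y ^ 2 + 481 / 32768 * y ^ 3) * (1 - q) ^ 3))
      ≤ q * (7 / 16 * (1 - q) ^ 2 + 175 / 512 * q ^ 2 * y)
          * ((1 - q) * ((1 - q) * (1651/5000 + (q - 9/32) / (1 - 9/32)) + q * (3171/2500 - (q - 9/32) / (9/32)) - 4 * (1308 / 10000) * (1 - q) * q
            - q * (y / 2 + (1 + 47/500) * (63 / 1000) * y ^ 2)) - q ^ 2 * y / 2) := by
  obtain ⟨t, ht⟩ : ∃ t : ℝ, q = 1/4 + 1/16 * t := ⟨(q - 1/4) / (1/16), by ring⟩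
  obtain ⟨s, hs⟩ : ∃ s : ℝ, y = 1 * s := ⟨y / (1), by ring⟩
  have h0 : 0 ≤ t := by linarith only [ha, ht]
  have h1 : 0 ≤ 1 - t := by linarith only [hb, ht]
  have h2 : 0 ≤ s := by linarith only [hs, hy]
  have h3 : 0 ≤ 1 - s := by linarith only [hy1, hs]
  rw [← sub_nonneg]
  have key : q * (7 / 16 * (1 - q) ^ 2 + 175 / 512 * q ^ 2 * y)
          * ((1 - q) * ((1 - q) * (1651/5000 + (q - 9/32) / (1 - 9/32)) + q * (3171/2500 - (q - 9/32) / (9/32)) - 4 * (1308 / 10000) * (1 - q) * q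
            - q * (y / 2 + (1 + 47/500) * (63 / 1000) * y ^ 2)) - q ^ 2 * y / 2)
      - 8 * (((1 - q) ^ 2 * (3303/10000) + (1 - q) * (q - 9/32)) + 3045 / 10000 * q ^ 2 * y)
          * (1308 / 10000 * q * (1 - q) ^ 3 - 1 / 4 * (7 / 192 * y * ((1 - q) ^ 3 + q ^ 3)
            + (35 / 1536 * y ^ 2 + 481 / 32768 * y ^ 3) * (1 - q) ^ 3))
      = s ^ 0 * (1 - s) ^ 4 * (
        (3993808539/1177600000000) * (t ^ 0 * (1 - t) ^ 6)
        + (19991349057/942080000000) * (t ^ 1 * (1 - t) ^ 5)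
        + (25709372809/471040000000) * (t ^ 2 * (1 - t) ^ 4)
        + (5014296665273/67829760000000) * (t ^ 3 * (1 - t) ^ 3)
        + (10066108134797/180879360000000) * (t ^ 4 * (1 - t) ^ 2)
        + (79919794006019/3617587200000000) * (t ^ 5 * (1 - t) ^ 1)
        + (15692244445141/4341104640000000) * (t ^ 6 * (1 - t) ^ 0))
      + s ^ 1 * (1 - s) ^ 3 * (
        (1221419330341/113049600000000) * (t ^ 0 * (1 - t) ^ 6)
        + (17808883004833/271319040000000) * (t ^ 1 * (1 - t) ^ 5)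
        + (44455522404553/271319040000000) * (t ^ 2 * (1 - t) ^ 4)
        + (31129377962263/144703488000000) * (t ^ 3 * (1 - t) ^ 3)
        + (2720635635995003/17364418560000000) * (t ^ 4 * (1 - t) ^ 2)
        + (20838812503963921/347288371200000000) * (t ^ 5 * (1 - t) ^ 1)
        + (436913119454141/46305116160000000) * (t ^ 6 * (1 - t) ^ 0))
      + s ^ 2 * (1 - s) ^ 2 * (
        (269998325289/18841600000000) * (t ^ 0 * (1 - t) ^ 6)
        + (3710640432563/45219840000000) * (t ^ 1 * (1 - t) ^ 5)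
        + (1389948326951/7235174400000) * (t ^ 2 * (1 - t) ^ 4)
        + (84880368979889/361758720000000) * (t ^ 3 * (1 - t) ^ 3)
        + (454269109263737/2894069760000000) * (t ^ 4 * (1 - t) ^ 2)
        + (3134050916941199/57881395200000000) * (t ^ 5 * (1 - t) ^ 1)
        + (344136443133649/46305116160000000) * (t ^ 6 * (1 - t) ^ 0))
      + s ^ 3 * (1 - s) ^ 1 * (
        (29231605476773/2411724800000000) * (t ^ 0 * (1 - t) ^ 6)
        + (380141409419773/5788139520000000) * (t ^ 1 * (1 - t) ^ 5)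
        + (1669985225207477/11576279040000000) * (t ^ 2 * (1 - t) ^ 4)
        + (22628263165525603/138915348480000000) * (t ^ 3 * (1 - t) ^ 3)
        + (36346181678902879/370440929280000000) * (t ^ 4 * (1 - t) ^ 2)
        + (214289539938336773/7408818585600000000) * (t ^ 5 * (1 - t) ^ 1)
        + (13321309431896911/4445291151360000000) * (t ^ 6 * (1 - t) ^ 0))
      + s ^ 4 * (1 - s) ^ 0 * (
        (19676866509713/3617587200000000) * (t ^ 0 * (1 - t) ^ 6)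
        + (25620360448697/868220928000000) * (t ^ 1 * (1 - t) ^ 5)
        + (1132844873040169/17364418560000000) * (t ^ 2 * (1 - t) ^ 4)
        + (432508711511447/5788139520000000) * (t ^ 3 * (1 - t) ^ 3)
        + (25694027131790839/555661393920000000) * (t ^ 4 * (1 - t) ^ 2)
        + (79769684609094559/5556613939200000000) * (t ^ 5 * (1 - t) ^ 1)
        + (618338138399407/370440929280000000) * (t ^ 6 * (1 - t) ^ 0)) := by
    rw [ht, hs]; ring
  rw [key]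
  (clear * - h0 h1 h2 h3; positivity)

end Vale.Agent.P322
end
end

section

section

/-! Polynomial inequalities (Bernstein certificates) for the scalar inequality at `ρ = 3/4`. -/

namespace Vale.Agent.P322

lemma pt_cell3 {q y : ℝ} (ha : 5/16 ≤ q) (hb : q ≤ 11/32) (hy : 0 ≤ y) (hy1 : y ≤ 16/25) :
    8 * (((1 - q) ^ 2 * (1989/5000) + (1 - q) * (q - 21/64)) + 3045 / 10000 * q ^ 2 * y)
          * (1308 / 10000 * q * (1 - q) ^ 3 - 1 / 4 * (7 / 192 * y * ((1 - q) ^ 3 + q ^ 3)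
            + (35 / 1536 * y ^ 2 + 481 / 32768 * y ^ 3) * (1 - q) ^ 3))
      ≤ q * (7 / 16 * (1 - q) ^ 2 + 175 / 512 * q ^ 2 * y)
          * ((1 - q) * ((1 - q) * (497/1250 + (q - 21/64) / (1 - 21/64)) + q * (11143/10000 - (q - 21/64) / (21/64)) - 4 * (1308 / 10000) * (1 - q) * q
            - q * (y / 2 + (1 + 18/125) * (63 / 1000) * y ^ 2)) - q ^ 2 * y / 2) := by
  obtain ⟨t, ht⟩ : ∃ t : ℝ, q = 5/16 + 1/32 * t := ⟨(q - 5/16) / (1/32), by ring⟩
  obtain ⟨s, hs⟩ : ∃ s : ℝ, y = 16/25 * s := ⟨y / (16/25), by ring⟩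
  have h0 : 0 ≤ t := by linarith only [ha, ht]
  have h1 : 0 ≤ 1 - t := by linarith only [hb, ht]
  have h2 : 0 ≤ s := by linarith only [hy, hs]
  have h3 : 0 ≤ 1 - s := by linarith only [hy1, hs]
  rw [← sub_nonneg]
  have key : q * (7 / 16 * (1 - q) ^ 2 + 175 / 512 * q ^ 2 * y)
          * ((1 - q) * ((1 - q) * (497/1250 + (q - 21/64) / (1 - 21/64)) + q * (11143/10000 - (q - 21/64) / (21/64)) - 4 * (1308 / 10000) * (1 - q) * q
            - q * (y / 2 + (1 + 18/125) * (63 / 1000) * y ^ 2)) - q ^ 2 * y / 2)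
      - 8 * (((1 - q) ^ 2 * (1989/5000) + (1 - q) * (q - 21/64)) + 3045 / 10000 * q ^ 2 * y)
          * (1308 / 10000 * q * (1 - q) ^ 3 - 1 / 4 * (7 / 192 * y * ((1 - q) ^ 3 + q ^ 3)
            + (35 / 1536 * y ^ 2 + 481 / 32768 * y ^ 3) * (1 - q) ^ 3))
      = s ^ 0 * (1 - s) ^ 4 * (
        (5050397671451/1352663040000000) * (t ^ 0 * (1 - t) ^ 6)
        + (204406944985199/9017753600000000) * (t ^ 1 * (1 - t) ^ 5)
        + (206242640688579/3607101440000000) * (t ^ 2 * (1 - t) ^ 4)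
        + (830124873278597/10821304320000000) * (t ^ 3 * (1 - t) ^ 3)
        + (104142265359951/1803550720000000) * (t ^ 4 * (1 - t) ^ 2)
        + (667255987046943/28856811520000000) * (t ^ 5 * (1 - t) ^ 1)
        + (1110653817302799/288568115200000000) * (t ^ 6 * (1 - t) ^ 0))
      + s ^ 1 * (1 - s) ^ 3 * (
        (31714304690233/2705326080000000) * (t ^ 0 * (1 - t) ^ 6)
        + (3832950395595781/54106521600000000) * (t ^ 1 * (1 - t) ^ 5)
        + (19245087370473121/108213043200000000) * (t ^ 2 * (1 - t) ^ 4)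
        + (128472478117392101/541065216000000000) * (t ^ 3 * (1 - t) ^ 3)
        + (96218741376540659/541065216000000000) * (t ^ 4 * (1 - t) ^ 2)
        + (102216810607292687/1442840576000000000) * (t ^ 5 * (1 - t) ^ 1)
        + (33846665054457759/2885681152000000000) * (t ^ 6 * (1 - t) ^ 0))
      + s ^ 2 * (1 - s) ^ 2 * (
        (176932941005731/13526630400000000) * (t ^ 0 * (1 - t) ^ 6)
        + (7035916547943253/90177536000000000) * (t ^ 1 * (1 - t) ^ 5)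
        + (12158144986550989/62914560000000000) * (t ^ 2 * (1 - t) ^ 4)
        + (45882118907183921/180355072000000000) * (t ^ 3 * (1 - t) ^ 3)
        + (169293523917767399/901775360000000000) * (t ^ 4 * (1 - t) ^ 2)
        + (531193941333000573/7214202880000000000) * (t ^ 5 * (1 - t) ^ 1)
        + (173011407252140093/14428405760000000000) * (t ^ 6 * (1 - t) ^ 0))
      + s ^ 3 * (1 - s) ^ 1 * (
        (2178824997206263/338165760000000000) * (t ^ 0 * (1 - t) ^ 6)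
        + (16788737929813149/450887680000000000) * (t ^ 1 * (1 - t) ^ 5)
        + (241138499508639899/2705326080000000000) * (t ^ 2 * (1 - t) ^ 4)
        + (61178971977035023/541065216000000000) * (t ^ 3 * (1 - t) ^ 3)
        + (72241223914216731/901775360000000000) * (t ^ 4 * (1 - t) ^ 2)
        + (216633373226822529/7214202880000000000) * (t ^ 5 * (1 - t) ^ 1)
        + (67050937140931009/14428405760000000000) * (t ^ 6 * (1 - t) ^ 0))
      + s ^ 4 * (1 - s) ^ 0 * (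
        (157761579239361/112721920000000000) * (t ^ 0 * (1 - t) ^ 6)
        + (10380550852704463/1352663040000000000) * (t ^ 1 * (1 - t) ^ 5)
        + (233771813325893383/13526630400000000000) * (t ^ 2 * (1 - t) ^ 4)
        + (11029117714919399/541065216000000000) * (t ^ 3 * (1 - t) ^ 3)
        + (178640313122072243/13526630400000000000) * (t ^ 4 * (1 - t) ^ 2)
        + (159317200440977837/36071014400000000000) * (t ^ 5 * (1 - t) ^ 1)
        + (42314204874311797/72142028800000000000) * (t ^ 6 * (1 - t) ^ 0)) := by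
    rw [ht, hs]; ring
  rw [key]
  (clear * - h0 h1 h2 h3; positivity)

lemma pt_cell4 {q y : ℝ} (ha : 11/32 ≤ q) (hb : q ≤ 13/32) (hy : 0 ≤ y) (hy1 : y ≤ 53/100) :
    8 * (((1 - q) ^ 2 * (4701/10000) + (1 - q) * (q - 3/8)) + 3045 / 10000 * q ^ 2 * y)
          * (1308 / 10000 * q * (1 - q) ^ 3 - 1 / 4 * (7 / 192 * y * ((1 - q) ^ 3 + q ^ 3)
            + (35 / 1536 * y ^ 2 + 481 / 32768 * y ^ 3) * (1 - q) ^ 3))
      ≤ q * (7 / 16 * (1 - q) ^ 2 + 175 / 512 * q ^ 2 * y)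
          * ((1 - q) * ((1 - q) * (4699/10000 + (q - 3/8) / (1 - 3/8)) + q * (613/625 - (q - 3/8) / (3/8)) - 4 * (1308 / 10000) * (1 - q) * q
            - q * (y / 2 + (1 + 321/1000) * (63 / 1000) * y ^ 2)) - q ^ 2 * y / 2) := by
  obtain ⟨t, ht⟩ : ∃ t : ℝ, q = 11/32 + 1/16 * t := ⟨(q - 11/32) / (1/16), by ring⟩
  obtain ⟨s, hs⟩ : ∃ s : ℝ, y = 53/100 * s := ⟨y / (53/100), by ring⟩
  have h0 : 0 ≤ t := by linarith only [ha, ht]
  have h1 : 0 ≤ 1 - t := by linarith only [ht, hb]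
  have h2 : 0 ≤ s := by linarith only [hy, hs]
  have h3 : 0 ≤ 1 - s := by linarith only [hy1, hs]
  rw [← sub_nonneg]
  have key : q * (7 / 16 * (1 - q) ^ 2 + 175 / 512 * q ^ 2 * y)
          * ((1 - q) * ((1 - q) * (4699/10000 + (q - 3/8) / (1 - 3/8)) + q * (613/625 - (q - 3/8) / (3/8)) - 4 * (1308 / 10000) * (1 - q) * q
            - q * (y / 2 + (1 + 321/1000) * (63 / 1000) * y ^ 2)) - q ^ 2 * y / 2)
      - 8 * (((1 - q) ^ 2 * (4701/10000) + (1 - q) * (q - 3/8)) + 3045 / 10000 * q ^ 2 * y)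
          * (1308 / 10000 * q * (1 - q) ^ 3 - 1 / 4 * (7 / 192 * y * ((1 - q) ^ 3 + q ^ 3)
            + (35 / 1536 * y ^ 2 + 481 / 32768 * y ^ 3) * (1 - q) ^ 3))
      = s ^ 0 * (1 - s) ^ 4 * (
        (25144410868731/6710886400000000) * (t ^ 0 * (1 - t) ^ 6)
        + (78097747230909/3355443200000000) * (t ^ 1 * (1 - t) ^ 5)
        + (79921070980149/1342177280000000) * (t ^ 2 * (1 - t) ^ 4)
        + (80932133858233/1006632960000000) * (t ^ 3 * (1 - t) ^ 3)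
        + (16235842253669/268435456000000) * (t ^ 4 * (1 - t) ^ 2)
        + (80723667313717/3355443200000000) * (t ^ 5 * (1 - t) ^ 1)
        + (79634998033981/20132659200000000) * (t ^ 6 * (1 - t) ^ 0))
      + s ^ 1 * (1 - s) ^ 3 * (
        (51318822039654589/4294967296000000000) * (t ^ 0 * (1 - t) ^ 6)
        + (478730950680884741/6442450944000000000) * (t ^ 1 * (1 - t) ^ 5)
        + (2450762509060312181/12884901888000000000) * (t ^ 2 * (1 - t) ^ 4)
        + (827288852722498271/3221225472000000000) * (t ^ 3 * (1 - t) ^ 3)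
        + (829596213630995899/4294967296000000000) * (t ^ 4 * (1 - t) ^ 2)
        + (494747042447382509/6442450944000000000) * (t ^ 5 * (1 - t) ^ 1)
        + (54202586470920257/4294967296000000000) * (t ^ 6 * (1 - t) ^ 0))
      + s ^ 2 * (1 - s) ^ 2 * (
        (17783291370867449/1342177280000000000) * (t ^ 0 * (1 - t) ^ 6)
        + (879845129091268963/10737418240000000000) * (t ^ 1 * (1 - t) ^ 5)
        + (2236412001239018449/10737418240000000000) * (t ^ 2 * (1 - t) ^ 4)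
        + (1497263940810982239/5368709120000000000) * (t ^ 3 * (1 - t) ^ 3)
        + (3345290556011652463/16106127360000000000) * (t ^ 4 * (1 - t) ^ 2)
        + (876703685343050319/10737418240000000000) * (t ^ 5 * (1 - t) ^ 1)
        + (426631337688785671/32212254720000000000) * (t ^ 6 * (1 - t) ^ 0))
      + s ^ 3 * (1 - s) ^ 1 * (
        (32411220479449326949/5497558138880000000000) * (t ^ 0 * (1 - t) ^ 6)
        + (48803151085576311053/1374389534720000000000) * (t ^ 1 * (1 - t) ^ 5)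
        + (481385254128210071073/5497558138880000000000) * (t ^ 2 * (1 - t) ^ 4)
        + (116678409043903627963/1030792151040000000000) * (t ^ 3 * (1 - t) ^ 3)
        + (1333973921960483763653/16492674416640000000000) * (t ^ 4 * (1 - t) ^ 2)
        + (41591419742403035983/1374389534720000000000) * (t ^ 5 * (1 - t) ^ 1)
        + (25410935473153028067/5497558138880000000000) * (t ^ 6 * (1 - t) ^ 0))
      + s ^ 4 * (1 - s) ^ 0 * (
        (95803052718066612569/109951162777600000000000) * (t ^ 0 * (1 - t) ^ 6)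
        + (391211023972061831587/82463372083200000000000) * (t ^ 1 * (1 - t) ^ 5)
        + (3397897249360370086799/329853488332800000000000) * (t ^ 2 * (1 - t) ^ 4)
        + (231239381158439377703/20615843020800000000000) * (t ^ 3 * (1 - t) ^ 3)
        + (2050882224164640523577/329853488332800000000000) * (t ^ 4 * (1 - t) ^ 2)
        + (123371075493830193601/82463372083200000000000) * (t ^ 5 * (1 - t) ^ 1)
        + (22007815771529059117/329853488332800000000000) * (t ^ 6 * (1 - t) ^ 0)) := by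
    rw [ht, hs]; ring
  rw [key]
  (clear * - h0 h1 h2 h3; positivity)

lemma pt_cell5 {q y : ℝ} (ha : 13/32 ≤ q) (hb : q ≤ 1/2) (hy : 0 ≤ y) (hy1 : y ≤ 19/50) :
    8 * (((1 - q) ^ 2 * (1509/2500) + (1 - q) * (q - 29/64)) + 3045 / 10000 * q ^ 2 * y)
          * (1308 / 10000 * q * (1 - q) ^ 3 - 1 / 4 * (7 / 192 * y * ((1 - q) ^ 3 + q ^ 3)
            + (35 / 1536 * y ^ 2 + 481 / 32768 * y ^ 3) * (1 - q) ^ 3))
      ≤ q * (7 / 16 * (1 - q) ^ 2 + 175 / 512 * q ^ 2 * y)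
          * ((1 - q) * ((1 - q) * (1207/2000 + (q - 29/64) / (1 - 29/64)) + q * (1583/2000 - (q - 29/64) / (29/64)) - 4 * (1308 / 10000) * (1 - q) * q
            - q * (y / 2 + (1 + 1) * (63 / 1000) * y ^ 2)) - q ^ 2 * y / 2) := by
  obtain ⟨t, ht⟩ : ∃ t : ℝ, q = 13/32 + 3/32 * t := ⟨(q - 13/32) / (3/32), by ring⟩
  obtain ⟨s, hs⟩ : ∃ s : ℝ, y = 19/50 * s := ⟨y / (19/50), by ring⟩
  have h0 : 0 ≤ t := by linarith only [ht, ha]
  have h1 : 0 ≤ 1 - t := by linarith only [hb, ht]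
  have h2 : 0 ≤ s := by linarith only [hy, hs]
  have h3 : 0 ≤ 1 - s := by linarith only [hy1, hs]
  rw [← sub_nonneg]
  have key : q * (7 / 16 * (1 - q) ^ 2 + 175 / 512 * q ^ 2 * y)
          * ((1 - q) * ((1 - q) * (1207/2000 + (q - 29/64) / (1 - 29/64)) + q * (1583/2000 - (q - 29/64) / (29/64)) - 4 * (1308 / 10000) * (1 - q) * q
            - q * (y / 2 + (1 + 1) * (63 / 1000) * y ^ 2)) - q ^ 2 * y / 2)
      - 8 * (((1 - q) ^ 2 * (1509/2500) + (1 - q) * (q - 29/64)) + 3045 / 10000 * q ^ 2 * y)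
          * (1308 / 10000 * q * (1 - q) ^ 3 - 1 / 4 * (7 / 192 * y * ((1 - q) ^ 3 + q ^ 3)
            + (35 / 1536 * y ^ 2 + 481 / 32768 * y ^ 3) * (1 - q) ^ 3))
      = s ^ 0 * (1 - s) ^ 4 * (
        (741580092104163/194615705600000000) * (t ^ 0 * (1 - t) ^ 6)
        + (36803066072367/1520435200000000) * (t ^ 1 * (1 - t) ^ 5)
        + (7583908108251/121634816000000) * (t ^ 2 * (1 - t) ^ 4)
        + (1591305470217/19005440000000) * (t ^ 3 * (1 - t) ^ 3)
        + (36848297181/593920000000) * (t ^ 4 * (1 - t) ^ 2)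
        + (8953001259/371200000000) * (t ^ 5 * (1 - t) ^ 1)
        + (178713021/46400000000) * (t ^ 6 * (1 - t) ^ 0))
      + s ^ 1 * (1 - s) ^ 3 * (
        (805836553500008069/62277025792000000000) * (t ^ 0 * (1 - t) ^ 6)
        + (324382180459827727/3892314112000000000) * (t ^ 1 * (1 - t) ^ 5)
        + (211378688793918137/973078528000000000) * (t ^ 2 * (1 - t) ^ 4)
        + (8969126879595157/30408704000000000) * (t ^ 3 * (1 - t) ^ 3)
        + (209998052638399/950272000000000) * (t ^ 4 * (1 - t) ^ 2)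
        + (10323930412261/118784000000000) * (t ^ 5 * (1 - t) ^ 1)
        + (208689854247/14848000000000) * (t ^ 6 * (1 - t) ^ 0))
      + s ^ 2 * (1 - s) ^ 2 * (
        (959663785951697047/62277025792000000000) * (t ^ 0 * (1 - t) ^ 6)
        + (784681889460367697/7784628224000000000) * (t ^ 1 * (1 - t) ^ 5)
        + (1034136824473078319/3892314112000000000) * (t ^ 2 * (1 - t) ^ 4)
        + (22125580225216467/60817408000000000) * (t ^ 3 * (1 - t) ^ 3)
        + (2085827203658201/7602176000000000) * (t ^ 4 * (1 - t) ^ 2)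
        + (25768838491781/237568000000000) * (t ^ 5 * (1 - t) ^ 1)
        + (1045803122759/59392000000000) * (t ^ 6 * (1 - t) ^ 0))
      + s ^ 3 * (1 - s) ^ 1 * (
        (36334614142557643991/4982162063360000000000) * (t ^ 0 * (1 - t) ^ 6)
        + (242352202050873635281/4982162063360000000000) * (t ^ 1 * (1 - t) ^ 5)
        + (12907551433422269533/99643241267200000000) * (t ^ 2 * (1 - t) ^ 4)
        + (1385986685310504551/7784628224000000000) * (t ^ 3 * (1 - t) ^ 3)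
        + (130460083814481419/973078528000000000) * (t ^ 4 * (1 - t) ^ 2)
        + (8005610679839233/152043520000000000) * (t ^ 5 * (1 - t) ^ 1)
        + (320928595630437/38010880000000000) * (t ^ 6 * (1 - t) ^ 0))
      + s ^ 4 * (1 - s) ^ 0 * (
        (203042690060897053471/199286482534400000000000) * (t ^ 0 * (1 - t) ^ 6)
        + (1398431983840026046207/199286482534400000000000) * (t ^ 1 * (1 - t) ^ 5)
        + (117226029508682105923/6227702579200000000000) * (t ^ 2 * (1 - t) ^ 4)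
        + (9959437990613966367/389231411200000000000) * (t ^ 3 * (1 - t) ^ 3)
        + (227873698111278283/12163481600000000000) * (t ^ 4 * (1 - t) ^ 2)
        + (21330312993541499/3040870400000000000) * (t ^ 5 * (1 - t) ^ 1)
        + (99200827437523/95027200000000000) * (t ^ 6 * (1 - t) ^ 0)) := by
    rw [ht, hs]; ring
  rw [key]
  (clear * - h0 h1 h2 h3; positivity)

end Vale.Agent.P322
end
end

section

section

/-! Mutual information in terms of the noise operator. -/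

namespace Vale.Agent.P322

open Finset

lemma pi_mul_eq_iff {n : ℕ} (x z y : Fin n → ℤˣ) : x * z = y ↔ z = x * y := by
  have hx : x * x = 1 := by
    funext i
    exact Int.units_mul_self (x i)
  constructor
  · intro h
    rw [← h, ← mul_assoc, hx, one_mul]
  · intro h
    rw [h, ← mul_assoc, hx, one_mul]

lemma outLaw_eq (n : ℕ) (ε : ℝ) (f : (Fin n → ℤˣ) → ℤˣ) (b : ℤˣ) (y : Fin n → ℤˣ) :
    outLaw n ε f b y
      = (1 / 2) ^ n * ∑ x : Fin n → ℤˣ, (∏ i, ker ε (x i) (y i)) * (if f x = b then 1 else 0) := by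
  unfold outLaw
  rw [Finset.mul_sum]
  refine Finset.sum_congr rfl (fun x _ => ?_)
  have : ∀ z : Fin n → ℤˣ, (if f x = b ∧ x * z = y then pairLaw n ε x z else 0)
      = if z = x * y then (if f x = b then pairLaw n ε x (x * y) else 0) else 0 := by
    intro z
    by_cases h1 : f x = b
    · by_cases h2 : z = x * y
      · have h3 : x * z = y := (pi_mul_eq_iff x z y).2 h2
        rw [if_pos ⟨h1, h3⟩, if_pos h2, if_pos h1, h2]
      · have h3 : ¬ (x * z = y) := fun h => h2 ((pi_mul_eq_iff x z y).1 h)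
        rw [if_neg (fun h => h3 h.2), if_neg h2]
    · rw [if_neg (fun h => h1 h.1)]
      split_ifs <;> rfl
  rw [Finset.sum_congr rfl (fun z _ => this z), Finset.sum_ite_eq' Finset.univ (x * y)]
  rw [if_pos (Finset.mem_univ _)]
  by_cases h1 : f x = b
  · rw [if_pos h1, if_pos h1, mul_one]
    rfl
  · rw [if_neg h1, if_neg h1, mul_zero, mul_zero]

/-- Real valued version of a sign valued function. -/
noncomputable def toR {n : ℕ} (f : (Fin n → ℤˣ) → ℤˣ) (x : Fin n → ℤˣ) : ℝ := ((f x : ℤ) : ℝ)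

lemma toR_cases {n : ℕ} (f : (Fin n → ℤˣ) → ℤˣ) (x : Fin n → ℤˣ) : toR f x = 1 ∨ toR f x = -1 := by
  unfold toR
  rcases units_cases (f x) with h | h <;> rw [h] <;> simp

lemma outLaw_one (n : ℕ) (ε : ℝ) (f : (Fin n → ℤˣ) → ℤˣ) (y : Fin n → ℤˣ) :
    outLaw n ε f 1 y = (1 / 2) ^ n * ((1 + TT n ε (toR f) y) / 2) := by
  rw [outLaw_eq]
  congr 1
  have h : 1 + TT n ε (toR f) y = TT n ε (fun _ => 1) y + TT n ε (toR f) y := by
    rw [TT_const n ε 1 y]
  rw [h]
  unfold TT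
  rw [← Finset.sum_add_distrib, Finset.sum_div]
  refine Finset.sum_congr rfl (fun x _ => ?_)
  have : (if f x = 1 then (1 : ℝ) else 0) = (1 + toR f x) / 2 := by
    unfold toR
    rcases units_cases (f x) with h | h
    · rw [h]; simp
    · rw [h]; simp
  rw [this]; ring

lemma outLaw_neg (n : ℕ) (ε : ℝ) (f : (Fin n → ℤˣ) → ℤˣ) (y : Fin n → ℤˣ) :
    outLaw n ε f (-1) y = (1 / 2) ^ n * ((1 - TT n ε (toR f) y) / 2) := by
  rw [outLaw_eq]
  congr 1
  have h : 1 - TT n ε (toR f) y = TT n ε (fun _ => 1) y - TT n ε (toR f) y := by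
    rw [TT_const n ε 1 y]
  rw [h]
  unfold TT
  rw [← Finset.sum_sub_distrib, Finset.sum_div]
  refine Finset.sum_congr rfl (fun x _ => ?_)
  have : (if f x = -1 then (1 : ℝ) else 0) = (1 - toR f x) / 2 := by
    unfold toR
    rcases units_cases (f x) with h | h
    · rw [h]; simp
    · rw [h]; simp
  rw [this]; ring

lemma HH_eq_logs (t : ℝ) : HH t = -((1 + t) / 2 * Real.log ((1 + t) / 2))
    - (1 - t) / 2 * Real.log ((1 - t) / 2) := by
  unfold HH Real.binEntropy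
  rw [Real.log_inv, Real.log_inv]
  have : 1 - (1 + t) / 2 = (1 - t) / 2 := by ring
  rw [this]; ring

lemma mul_log_div {a b : ℝ} (h : b = 0 → a = 0) :
    a * Real.log (a / b) = a * Real.log a - a * Real.log b := by
  by_cases ha : a = 0
  · rw [ha]; simp
  · have hb : b ≠ 0 := fun hb => ha (h hb)
    rw [Real.log_div ha hb]; ring

lemma avg_eq_zero_of_nonneg {n : ℕ} {g : (Fin n → ℤˣ) → ℝ} (h : ∀ x, 0 ≤ g x)
    (h0 : avg n g = 0) (x : Fin n → ℤˣ) : g x = 0 := by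
  unfold avg at h0
  have h2 : (0 : ℝ) < (1 / 2) ^ n := by positivity
  have h3 : ∑ x, g x = 0 := by
    rcases mul_eq_zero.mp h0 with h | h
    · exact absurd h h2.ne'
    · exact h
  exact (Finset.sum_eq_zero_iff_of_nonneg (fun x _ => h x)).1 h3 x (Finset.mem_univ x)

theorem mutualInfo_outLaw {n : ℕ} {ε : ℝ} (h0 : 0 ≤ ε) (h1 : ε ≤ 1) (f : (Fin n → ℤˣ) → ℤˣ) :
    mutualInfo (outLaw n ε f)
      = (HH (avg n (toR f)) - avg n (fun y => HH (TT n ε (toR f) y))) / Real.log 2 := by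
  set F := toR f with hF
  set t := TT n ε F with ht
  set μ := avg n F with hμ
  have hFabs : ∀ x, |F x| ≤ 1 := by
    intro x
    rcases toR_cases f x with h | h <;> rw [hF, h] <;> simp
  have htabs : ∀ y, |t y| ≤ 1 := fun y => abs_TT_le h0 h1 hFabs y
  have hat : avg n t = μ := avg_TT n ε F
  have hp : (0 : ℝ) < (1 / 2) ^ n := by positivity
  -- marginals
  have mY : ∀ y, ∑ b : ℤˣ, outLaw n ε f b y = (1 / 2) ^ n := by
    intro y
    rw [sum_units, outLaw_one, outLaw_neg]; ring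
  have m1 : ∑ y, outLaw n ε f 1 y = (1 + μ) / 2 := by
    have : ∑ y, outLaw n ε f 1 y = avg n (fun y => 1 / 2 + 1 / 2 * t y) := by
      unfold avg
      rw [Finset.mul_sum]
      refine Finset.sum_congr rfl (fun y _ => ?_)
      rw [outLaw_one]; ring
    rw [this, avg_add, avg_const, avg_mul_left, hat]; ring
  have m2 : ∑ y, outLaw n ε f (-1) y = (1 - μ) / 2 := by
    have : ∑ y, outLaw n ε f (-1) y = avg n (fun y => 1 / 2 + (-(1 / 2)) * t y) := by
      unfold avg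
      rw [Finset.mul_sum]
      refine Finset.sum_congr rfl (fun y _ => ?_)
      rw [outLaw_neg]; ring
    rw [this, avg_add, avg_const, avg_mul_left, hat]; ring
  have z1 : (1 + μ) / 2 = 0 → ∀ y, (1 + t y) / 2 = 0 := by
    intro h y
    have e : avg n (fun y => (1 + t y) / 2) = 0 := by
      have : (fun y => (1 + t y) / 2) = fun y => 1 / 2 + 1 / 2 * t y := by funext y; ring
      rw [this, avg_add, avg_const, avg_mul_left, hat]; linarith only [h]
    exact avg_eq_zero_of_nonneg (fun y => by have := (abs_le.mp (htabs y)).1; linarith only [this]) e y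
  have z2 : (1 - μ) / 2 = 0 → ∀ y, (1 - t y) / 2 = 0 := by
    intro h y
    have e : avg n (fun y => (1 - t y) / 2) = 0 := by
      have : (fun y => (1 - t y) / 2) = fun y => 1 / 2 + (-(1 / 2)) * t y := by funext y; ring
      rw [this, avg_add, avg_const, avg_mul_left, hat]; linarith only [h]
    exact avg_eq_zero_of_nonneg (fun y => by have := (abs_le.mp (htabs y)).2; linarith only [this]) e y
  have canc : ∀ a b : ℝ, (1 / 2) ^ n * a / (b * (1 / 2) ^ n) = a / b := by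
    intro a b
    rw [mul_comm b, mul_div_mul_left _ _ hp.ne']
  have T1 : ∑ y, outLaw n ε f 1 y * Real.logb 2 (outLaw n ε f 1 y /
      ((∑ b', outLaw n ε f 1 b') * (∑ a', outLaw n ε f a' y)))
      = (avg n (fun y => (1 + t y) / 2 * Real.log ((1 + t y) / 2))
        - (1 + μ) / 2 * Real.log ((1 + μ) / 2)) / Real.log 2 := by
    have step : ∀ y, outLaw n ε f 1 y * Real.logb 2 (outLaw n ε f 1 y /
      ((∑ b', outLaw n ε f 1 b') * (∑ a', outLaw n ε f a' y)))
      = (1 / 2) ^ n * ((1 + t y) / 2 * Real.log ((1 + t y) / 2)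
        + (-(Real.log ((1 + μ) / 2))) * (1 / 2 + 1 / 2 * t y)) / Real.log 2 := by
      intro y
      rw [m1, mY, outLaw_one, canc]
      unfold Real.logb
      have := mul_log_div (a := (1 + t y) / 2) (b := (1 + μ) / 2) (fun h => z1 h y)
      rw [mul_assoc, ← mul_div_assoc, this]
      ring
    rw [Finset.sum_congr rfl (fun y _ => step y), ← Finset.sum_div, ← Finset.mul_sum]
    congr 1
    change avg n (fun y => (1 + t y) / 2 * Real.log ((1 + t y) / 2)
        + (-(Real.log ((1 + μ) / 2))) * (1 / 2 + 1 / 2 * t y)) = _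
    rw [avg_add, avg_mul_left, avg_add, avg_const, avg_mul_left, hat]; ring
  have T2 : ∑ y, outLaw n ε f (-1) y * Real.logb 2 (outLaw n ε f (-1) y /
      ((∑ b', outLaw n ε f (-1) b') * (∑ a', outLaw n ε f a' y)))
      = (avg n (fun y => (1 - t y) / 2 * Real.log ((1 - t y) / 2))
        - (1 - μ) / 2 * Real.log ((1 - μ) / 2)) / Real.log 2 := by
    have step : ∀ y, outLaw n ε f (-1) y * Real.logb 2 (outLaw n ε f (-1) y /
      ((∑ b', outLaw n ε f (-1) b') * (∑ a', outLaw n ε f a' y)))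
      = (1 / 2) ^ n * ((1 - t y) / 2 * Real.log ((1 - t y) / 2)
        + (-(Real.log ((1 - μ) / 2))) * (1 / 2 + (-(1 / 2)) * t y)) / Real.log 2 := by
      intro y
      rw [m2, mY, outLaw_neg, canc]
      unfold Real.logb
      have := mul_log_div (a := (1 - t y) / 2) (b := (1 - μ) / 2) (fun h => z2 h y)
      rw [mul_assoc, ← mul_div_assoc, this]
      ring
    rw [Finset.sum_congr rfl (fun y _ => step y), ← Finset.sum_div, ← Finset.mul_sum]
    congr 1
    change avg n (fun y => (1 - t y) / 2 * Real.log ((1 - t y) / 2)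
        + (-(Real.log ((1 - μ) / 2))) * (1 / 2 + (-(1 / 2)) * t y)) = _
    rw [avg_add, avg_mul_left, avg_add, avg_const, avg_mul_left, hat]; ring
  unfold mutualInfo
  rw [sum_units, T1, T2, ← add_div]
  congr 1
  have hH : avg n (fun y => HH (t y)) = -(avg n (fun y => (1 + t y) / 2 * Real.log ((1 + t y) / 2))
      + avg n (fun y => (1 - t y) / 2 * Real.log ((1 - t y) / 2))) := by
    rw [← avg_add]
    have : (fun y => HH (t y)) = fun y => (-1 : ℝ) * ((1 + t y) / 2 * Real.log ((1 + t y) / 2)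
      + (1 - t y) / 2 * Real.log ((1 - t y) / 2)) := by
      funext y; rw [HH_eq_logs]; ring
    rw [this, avg_mul_left]; ring
  rw [hH, HH_eq_logs]; ring

lemma h2_eq (ε : ℝ) : h2 ε = HH (1 - 2 * ε) / Real.log 2 := by
  unfold h2 HH Real.binEntropy Real.logb
  have e1 : (1 + (1 - 2 * ε)) / 2 = 1 - ε := by ring
  have e2 : 1 - (1 - ε) = ε := by ring
  rw [e1, e2, Real.log_inv, Real.log_inv]; ring

/-- **Reduction.** The Courtade-Kumar inequality at crossover `ε` follows from a potential `S`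
with the two-point certificate. -/
theorem ck_of_cert {ε : ℝ} (h0 : 0 ≤ ε) (h1 : ε ≤ 1) {S : ℝ → ℝ} (hS1 : S 1 ≤ 0)
    (hS2 : S (-1) ≤ 0) (hcert : Cert (1 - 2 * ε) S)
    (hS : ∀ μ, |μ| ≤ 1 → HH (1 - 2 * ε) + HH μ - Real.log 2 ≤ S μ)
    (n : ℕ) (f : (Fin n → ℤˣ) → ℤˣ) : mutualInfo (outLaw n ε f) ≤ 1 - h2 ε := by
  rw [mutualInfo_outLaw h0 h1 f, h2_eq]
  have hl : 0 < Real.log 2 := Real.log_pos (by norm_num)
  rw [div_le_iff₀ hl, sub_mul, div_mul_cancel₀ _ hl.ne', one_mul]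
  have hF := forward h0 h1 hS1 hS2 hcert n (toR f) (toR_cases f)
  have hFabs : ∀ x, |toR f x| ≤ 1 := by
    intro x
    rcases toR_cases f x with h | h <;> rw [h] <;> simp
  have := hS _ (abs_avg_le hFabs)
  linarith

end Vale.Agent.P322
end
end

section

section

/-! Forward induction where the coordinate is chosen so that `|δ| ≤ 1/2`. -/

namespace Vale.Agent.P322

open Finset

/-- The two-point certificate, needed only for `|δ| ≤ 1/2`. -/
def CertHalf (ρ : ℝ) (S : ℝ → ℝ) : Prop :=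
  ∀ μ δ : ℝ, |μ| + |δ| ≤ 1 → |δ| ≤ 1 / 2 → ∃ θ q0 q1 q2 : ℝ, 0 ≤ θ ∧
    (∀ m c : ℝ, |m| + |c| ≤ 1 → θ * hV 1 m c + q0 + q1 * m + q2 * c ≤ hV ρ m c) ∧
    S μ ≤ θ * ((S (μ + δ) + S (μ - δ)) / 2) + q0 + q1 * μ + q2 * δ

/-- One step of the forward induction along the first coordinate. -/
lemma forward_step {ε : ℝ} (h0 : 0 ≤ ε) (h1 : ε ≤ 1) {S : ℝ → ℝ} {n : ℕ}
    (ih : ∀ g : (Fin n → ℤˣ) → ℝ, (∀ x, g x = 1 ∨ g x = -1) →
      S (avg n g) ≤ avg n (fun y => HH (TT n ε g y)))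
    (g : (Fin (n + 1) → ℤˣ) → ℝ) (hg : ∀ x, g x = 1 ∨ g x = -1)
    (hc : ∃ θ q0 q1 q2 : ℝ, 0 ≤ θ ∧
      (∀ m c : ℝ, |m| + |c| ≤ 1 → θ * hV 1 m c + q0 + q1 * m + q2 * c ≤ hV (1 - 2 * ε) m c) ∧
      S ((avg n (fun x => g (Fin.cons 1 x)) + avg n (fun x => g (Fin.cons (-1) x))) / 2)
        ≤ θ * ((S (avg n (fun x => g (Fin.cons 1 x))) + S (avg n (fun x => g (Fin.cons (-1) x)))) / 2)
          + q0 + q1 * ((avg n (fun x => g (Fin.cons 1 x)) + avg n (fun x => g (Fin.cons (-1) x))) / 2)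
          + q2 * ((avg n (fun x => g (Fin.cons 1 x)) - avg n (fun x => g (Fin.cons (-1) x))) / 2)) :
    S (avg (n + 1) g) ≤ avg (n + 1) (fun y => HH (TT (n + 1) ε g y)) := by
  set gp : (Fin n → ℤˣ) → ℝ := fun x => g (Fin.cons 1 x) with hgp
  set gm : (Fin n → ℤˣ) → ℝ := fun x => g (Fin.cons (-1) x) with hgm
  have habs : ∀ {t : ℝ}, (t = 1 ∨ t = -1) → |t| ≤ 1 := by
    rintro t (rfl | rfl) <;> simp
  have ihp := ih gp (fun x => hg _)
  have ihm := ih gm (fun x => hg _)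
  have hpabs : ∀ x, |gp x| ≤ 1 := fun x => habs (hg _)
  have hmabs : ∀ x, |gm x| ≤ 1 := fun x => habs (hg _)
  set m1 := avg n gp with hm1
  set m2 := avg n gm with hm2
  have hav : avg (n + 1) g = (m1 + m2) / 2 := avg_succ n g
  obtain ⟨θ, q0, q1, q2, hθ, hpt, hval⟩ := hc
  set u := TT n ε gp with hu
  set v := TT n ε gm with hv
  have hleft : avg (n + 1) (fun y => HH (TT (n + 1) ε g y))
      = avg n (fun y => hV (1 - 2 * ε) ((u y + v y) / 2) ((u y - v y) / 2)) := by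
    rw [avg_succ]
    have e1 : (fun y : Fin n → ℤˣ => HH (TT (n + 1) ε g (Fin.cons 1 y)))
        = fun y => HH ((u y + v y) / 2 + (1 - 2 * ε) * ((u y - v y) / 2)) := by
      funext y
      rw [TT_cons, ker_one_one, ker_neg_one]
      congr 1
      simp only [hu, hv, hgp, hgm]
      ring
    have e2 : (fun y : Fin n → ℤˣ => HH (TT (n + 1) ε g (Fin.cons (-1) y)))
        = fun y => HH ((u y + v y) / 2 - (1 - 2 * ε) * ((u y - v y) / 2)) := by
      funext y
      rw [TT_cons, ker_one_neg, ker_neg_neg]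
      congr 1
      simp only [hu, hv, hgp, hgm]
      ring
    rw [e1, e2, ← avg_add]
    unfold avg hV
    rw [mul_div_assoc, Finset.sum_div]
  have hlow : avg n (fun y => θ * hV 1 ((u y + v y) / 2) ((u y - v y) / 2) + q0
        + q1 * ((u y + v y) / 2) + q2 * ((u y - v y) / 2))
      ≤ avg n (fun y => hV (1 - 2 * ε) ((u y + v y) / 2) ((u y - v y) / 2)) := by
    refine avg_mono (fun y => ?_)
    exact hpt _ _ (abs_half_add_half (abs_TT_le h0 h1 hpabs y) (abs_TT_le h0 h1 hmabs y))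
  have hcalc : avg n (fun y => θ * hV 1 ((u y + v y) / 2) ((u y - v y) / 2) + q0
        + q1 * ((u y + v y) / 2) + q2 * ((u y - v y) / 2))
      = θ * ((avg n (fun y => HH (u y)) + avg n (fun y => HH (v y))) / 2) + q0
        + q1 * ((m1 + m2) / 2) + q2 * ((m1 - m2) / 2) := by
    have hmu : avg n u = m1 := avg_TT n ε gp
    have hmv : avg n v = m2 := avg_TT n ε gm
    have e3 : (fun y => θ * hV 1 ((u y + v y) / 2) ((u y - v y) / 2) + q0
        + q1 * ((u y + v y) / 2) + q2 * ((u y - v y) / 2))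
        = fun y => (θ / 2) * HH (u y) + ((θ / 2) * HH (v y) + (q0
        + ((q1 + q2) / 2 * u y + (q1 - q2) / 2 * v y))) := by
      funext y
      have a1 : (u y + v y) / 2 + 1 * ((u y - v y) / 2) = u y := by ring
      have a2 : (u y + v y) / 2 - 1 * ((u y - v y) / 2) = v y := by ring
      unfold hV
      rw [a1, a2]
      ring
    rw [e3, avg_add, avg_add, avg_add, avg_add, avg_const, avg_mul_left, avg_mul_left,
      avg_mul_left, avg_mul_left, hmu, hmv]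
    ring
  rw [hcalc] at hlow
  rw [hav, hleft]
  have : θ * ((S m1 + S m2) / 2) ≤ θ * ((avg n (fun y => HH (u y)) + avg n (fun y => HH (v y))) / 2) := by
    refine mul_le_mul_of_nonneg_left ?_ hθ
    linarith only [ihp, ihm]
  linarith only [hval, hlow, this]

/-- Permuting coordinates, as an equivalence of the cube. -/
def permE {n : ℕ} (σ : Equiv.Perm (Fin n)) : (Fin n → ℤˣ) ≃ (Fin n → ℤˣ) where
  toFun x := x ∘ σ
  invFun x := x ∘ σ.symm
  left_inv x := by funext i; simp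
  right_inv x := by funext i; simp

lemma avg_perm {n : ℕ} (σ : Equiv.Perm (Fin n)) (g : (Fin n → ℤˣ) → ℝ) :
    avg n (fun x => g (x ∘ σ)) = avg n g := by
  unfold avg
  congr 1
  exact (permE σ).sum_comp g

lemma TT_perm {n : ℕ} (ε : ℝ) (σ : Equiv.Perm (Fin n)) (g : (Fin n → ℤˣ) → ℝ) (y : Fin n → ℤˣ) :
    TT n ε (fun x => g (x ∘ σ)) y = TT n ε g (y ∘ σ) := by
  unfold TT
  rw [← (permE σ).sum_comp (fun x => (∏ i, ker ε (x i) ((y ∘ σ) i)) * g x)]
  refine Finset.sum_congr rfl (fun x _ => ?_)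
  have : ∏ i, ker ε (x i) (y i) = ∏ i, ker ε ((permE σ x) i) ((y ∘ σ) i) := by
    rw [← Equiv.prod_comp σ (fun i => ker ε (x i) (y i))]
    rfl
  rw [this]
  rfl

lemma cons_swap {m : ℕ} (a b : ℤˣ) (x : Fin m → ℤˣ) :
    ((Fin.cons a (Fin.cons b x : Fin (m + 1) → ℤˣ) : Fin (m + 2) → ℤˣ) ∘ (Equiv.swap 0 1))
      = Fin.cons b (Fin.cons a x : Fin (m + 1) → ℤˣ) := by
  funext i
  refine Fin.cases ?_ (fun j => ?_) i
  · simp only [Function.comp, Equiv.swap_apply_left, Fin.cons_zero]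
    rfl
  · refine Fin.cases ?_ (fun k => ?_) j
    · have : (Fin.succ 0 : Fin (m + 2)) = 1 := rfl
      simp only [Function.comp, this, Equiv.swap_apply_right, Fin.cons_zero]
      rfl
    · have h1 : (Fin.succ (Fin.succ k) : Fin (m + 2)) ≠ 0 := Fin.succ_ne_zero _
      have h2 : (Fin.succ (Fin.succ k) : Fin (m + 2)) ≠ 1 := by
        intro h
        have : (Fin.succ (Fin.succ k) : Fin (m + 2)) = Fin.succ 0 := h
        exact Fin.succ_ne_zero _ (Fin.succ_injective _ this)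
      simp only [Function.comp, Equiv.swap_apply_of_ne_of_ne h1 h2, Fin.cons_succ]

/-- **Forward induction with a good coordinate.** -/
theorem forward_half {ε : ℝ} (h0 : 0 ≤ ε) (h1 : ε ≤ 1) {S : ℝ → ℝ} (hS1 : S 1 ≤ 0)
    (hS2 : S (-1) ≤ 0) (hS0 : S 0 ≤ HH (1 - 2 * ε)) (hcert : CertHalf (1 - 2 * ε) S) (n : ℕ) :
    ∀ g : (Fin n → ℤˣ) → ℝ, (∀ x, g x = 1 ∨ g x = -1) →
      S (avg n g) ≤ avg n (fun y => HH (TT n ε g y)) := by
  have base0 : ∀ g : (Fin 0 → ℤˣ) → ℝ, (∀ x, g x = 1 ∨ g x = -1) →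
      S (avg 0 g) ≤ avg 0 (fun y => HH (TT 0 ε g y)) := by
    intro g hg
    have hs : ∀ k : (Fin 0 → ℤˣ) → ℝ, ∑ x, k x = k Fin.elim0 := fun k => by
      rw [Fintype.sum_unique k]
      exact congrArg k (Subsingleton.elim _ _)
    have ha : avg 0 g = g Fin.elim0 := by
      unfold avg; rw [hs]; ring
    have hT : ∀ y, TT 0 ε g y = g Fin.elim0 := by
      intro y; unfold TT; rw [hs]; simp only [Finset.univ_eq_empty, Finset.prod_empty, one_mul]
    have hb : avg 0 (fun y => HH (TT 0 ε g y)) = HH (g Fin.elim0) := by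
      unfold avg; rw [hs, hT]; ring
    rw [ha, hb]
    rcases hg Fin.elim0 with h | h
    · rw [h]; simpa [HH] using hS1
    · rw [h]; simpa [HH] using hS2
  induction n with
  | zero => exact base0
  | succ n ih =>
    intro g hg
    have habs : ∀ {t : ℝ}, (t = 1 ∨ t = -1) → |t| ≤ 1 := by
      rintro t (rfl | rfl) <;> simp
    rcases n with _ | m
    · -- one coordinate
      have hs : ∀ k : (Fin 0 → ℤˣ) → ℝ, ∑ x, k x = k Fin.elim0 := fun k => by
        rw [Fintype.sum_unique k]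
        exact congrArg k (Subsingleton.elim _ _)
      have hav0 : ∀ k : (Fin 0 → ℤˣ) → ℝ, avg 0 k = k Fin.elim0 := by
        intro k; unfold avg; rw [hs]; ring
      have hT0 : ∀ (k : (Fin 0 → ℤˣ) → ℝ) y, TT 0 ε k y = k Fin.elim0 := by
        intro k y; unfold TT; rw [hs]
        simp only [Finset.univ_eq_empty, Finset.prod_empty, one_mul]
      rw [avg_succ, avg_succ, hav0, hav0, hav0, hav0]
      rw [TT_cons, TT_cons, hT0, hT0, ker_one_one, ker_neg_one, ker_one_neg, ker_neg_neg]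
      rcases hg (Fin.cons 1 Fin.elim0) with ha | ha <;> rcases hg (Fin.cons (-1) Fin.elim0) with hb | hb
      · rw [ha, hb]
        have e1 : (1 + 1 : ℝ) / 2 = 1 := by norm_num
        have e2 : (1 - ε) * 1 + ε * 1 = (1 : ℝ) := by ring
        have e3 : ε * 1 + (1 - ε) * 1 = (1 : ℝ) := by ring
        rw [e1, e2, e3]
        have : HH 1 = 0 := by simp [HH]
        rw [this]; simpa using hS1
      · rw [ha, hb]
        have e1 : ((1 : ℝ) + -1) / 2 = 0 := by norm_num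
        have e2 : (1 - ε) * 1 + ε * (-1) = (1 - 2 * ε : ℝ) := by ring
        have e3 : ε * 1 + (1 - ε) * (-1) = -(1 - 2 * ε : ℝ) := by ring
        rw [e1, e2, e3]
        have : HH (-(1 - 2 * ε)) = HH (1 - 2 * ε) := by
          unfold HH
          rw [← Real.binEntropy_one_sub]
          congr 1; ring
        rw [this]; linarith
      · rw [ha, hb]
        have e1 : (-(1 : ℝ) + 1) / 2 = 0 := by norm_num
        have e2 : (1 - ε) * (-1) + ε * 1 = -(1 - 2 * ε : ℝ) := by ring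
        have e3 : ε * (-1) + (1 - ε) * 1 = (1 - 2 * ε : ℝ) := by ring
        rw [e1, e2, e3]
        have : HH (-(1 - 2 * ε)) = HH (1 - 2 * ε) := by
          unfold HH
          rw [← Real.binEntropy_one_sub]
          congr 1; ring
        rw [this]; linarith
      · rw [ha, hb]
        have e1 : (-(1 : ℝ) + -1) / 2 = -1 := by norm_num
        have e2 : (1 - ε) * (-1) + ε * (-1) = (-1 : ℝ) := by ring
        have e3 : ε * (-1) + (1 - ε) * (-1) = (-1 : ℝ) := by ring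
        rw [e1, e2, e3]
        have : HH (-1) = 0 := by simp [HH]
        rw [this]; simpa using hS2
    · -- at least two coordinates
      -- the general step for a function whose first coefficient is small
      have key : ∀ g : (Fin (m + 1 + 1) → ℤˣ) → ℝ, (∀ x, g x = 1 ∨ g x = -1) →
          |(avg (m + 1) (fun x => g (Fin.cons 1 x)) - avg (m + 1) (fun x => g (Fin.cons (-1) x))) / 2|
            ≤ 1 / 2 →
          S (avg (m + 1 + 1) g) ≤ avg (m + 1 + 1) (fun y => HH (TT (m + 1 + 1) ε g y)) := by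
        intro g hg hsmall
        refine forward_step h0 h1 ih g hg ?_
        have hp : |avg (m + 1) (fun x => g (Fin.cons 1 x))| ≤ 1 := abs_avg_le (fun x => habs (hg _))
        have hm : |avg (m + 1) (fun x => g (Fin.cons (-1) x))| ≤ 1 := abs_avg_le (fun x => habs (hg _))
        obtain ⟨θ, q0, q1, q2, hθ, hpt, hval⟩ := hcert _ _ (abs_half_add_half hp hm) hsmall
        refine ⟨θ, q0, q1, q2, hθ, hpt, ?_⟩
        have s1 : ∀ a b : ℝ, (a + b) / 2 + (a - b) / 2 = a := by intro a b; ring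
        have s2 : ∀ a b : ℝ, (a + b) / 2 - (a - b) / 2 = b := by intro a b; ring
        rw [s1, s2] at hval
        exact hval
      by_cases hc : |(avg (m + 1) (fun x => g (Fin.cons 1 x))
          - avg (m + 1) (fun x => g (Fin.cons (-1) x))) / 2| ≤ 1 / 2
      · exact key g hg hc
      · -- swap the first two coordinates
        have hswap := key (fun x => g (x ∘ (Equiv.swap 0 1))) (fun x => hg _) ?_
        · rw [avg_perm] at hswap
          have : (fun y => HH (TT (m + 1 + 1) ε (fun x => g (x ∘ (Equiv.swap 0 1))) y))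
              = fun y => (fun z => HH (TT (m + 1 + 1) ε g z)) (y ∘ (Equiv.swap 0 1)) := by
            funext y
            rw [TT_perm]
          rw [this, avg_perm (Equiv.swap 0 1) (fun z => HH (TT (m + 1 + 1) ε g z))] at hswap
          exact hswap
        · have q11 : |avg m (fun x => g (Fin.cons 1 (Fin.cons 1 x : Fin (m + 1) → ℤˣ)))| ≤ 1 :=
            abs_avg_le (fun x => habs (hg _))
          have q12 : |avg m (fun x => g (Fin.cons 1 (Fin.cons (-1) x : Fin (m + 1) → ℤˣ)))| ≤ 1 :=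
            abs_avg_le (fun x => habs (hg _))
          have q21 : |avg m (fun x => g (Fin.cons (-1) (Fin.cons 1 x : Fin (m + 1) → ℤˣ)))| ≤ 1 :=
            abs_avg_le (fun x => habs (hg _))
          have q22 : |avg m (fun x => g (Fin.cons (-1) (Fin.cons (-1) x : Fin (m + 1) → ℤˣ)))| ≤ 1 :=
            abs_avg_le (fun x => habs (hg _))
          rw [avg_succ, avg_succ] at hc
          rw [avg_succ, avg_succ]
          simp only [cons_swap]
          rw [abs_le] at q11 q12 q21 q22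
          rw [not_le, lt_abs] at hc
          rw [abs_le]
          constructor <;> rcases hc with hc | hc <;> linarith only [q12, q21, hc, q11, q22]

/-- **Reduction.** The Courtade-Kumar inequality at crossover `ε` follows from a potential `S`
with the two-point certificate for `|δ| ≤ 1/2`. -/
theorem ck_of_certHalf {ε : ℝ} (h0 : 0 ≤ ε) (h1 : ε ≤ 1) {S : ℝ → ℝ} (hS1 : S 1 ≤ 0)
    (hS2 : S (-1) ≤ 0) (hS0 : S 0 ≤ HH (1 - 2 * ε)) (hcert : CertHalf (1 - 2 * ε) S)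
    (hS : ∀ μ, |μ| ≤ 1 → HH (1 - 2 * ε) + HH μ - Real.log 2 ≤ S μ)
    (n : ℕ) (f : (Fin n → ℤˣ) → ℤˣ) : mutualInfo (outLaw n ε f) ≤ 1 - h2 ε := by
  rw [mutualInfo_outLaw h0 h1 f, h2_eq]
  have hl : 0 < Real.log 2 := Real.log_pos (by norm_num)
  rw [div_le_iff₀ hl, sub_mul, div_mul_cancel₀ _ hl.ne', one_mul]
  have hF := forward_half h0 h1 hS1 hS2 hS0 hcert n (toR f) (toR_cases f)
  have hFabs : ∀ x, |toR f x| ≤ 1 := by
    intro x
    rcases toR_cases f x with h | h <;> rw [h] <;> simp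
  have := hS _ (abs_avg_le hFabs)
  linarith

end Vale.Agent.P322
end
end

section

section

/-! Law-level step, choice of a coordinate of small influence, reduction theorem. -/

namespace Vale.Agent.P322

open Finset

/-- The law level two-point step. -/
def Step (ρ : ℝ) (S : ℝ → ℝ) : Prop :=
  ∀ (ι : Type) [Fintype ι] (w m c : ι → ℝ), (∀ i, 0 ≤ w i) → ∑ i, w i = 1 →
    (∀ i, |m i| + |c i| ≤ 1) →
    (∑ i, w i * c i) ^ 2 ≤ (1 - (∑ i, w i * m i) ^ 2) / 3 →
    |∑ i, w i * c i| ≤ 1 / 2 →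
    (S (∑ i, w i * m i + ∑ i, w i * c i) + S (∑ i, w i * m i - ∑ i, w i * c i)) / 2
      ≤ ∑ i, w i * hV 1 (m i) (c i) →
    S (∑ i, w i * m i) ≤ ∑ i, w i * hV ρ (m i) (c i)

/-- The law level step for nonnegative means only. -/
def StepPos (ρ : ℝ) (S : ℝ → ℝ) : Prop :=
  ∀ (ι : Type) [Fintype ι] (w m c : ι → ℝ), (∀ i, 0 ≤ w i) → ∑ i, w i = 1 →
    (∀ i, |m i| + |c i| ≤ 1) →
    0 ≤ ∑ i, w i * m i → 0 ≤ ∑ i, w i * c i →
    (∑ i, w i * c i) ^ 2 ≤ (1 - (∑ i, w i * m i) ^ 2) / 3 →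
    ∑ i, w i * c i ≤ 1 / 2 →
    (S (∑ i, w i * m i + ∑ i, w i * c i) + S (∑ i, w i * m i - ∑ i, w i * c i)) / 2
      ≤ ∑ i, w i * hV 1 (m i) (c i) →
    S (∑ i, w i * m i) ≤ ∑ i, w i * hV ρ (m i) (c i)

lemma HH_neg (x : ℝ) : HH (-x) = HH x := by
  unfold HH
  rw [← Real.binEntropy_one_sub]
  congr 1; ring

lemma hV_neg_left (r m c : ℝ) : hV r (-m) c = hV r m c := by
  unfold hV
  have e1 : -m + r * c = -(m - r * c) := by ring
  have e2 : -m - r * c = -(m + r * c) := by ring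
  rw [e1, e2, HH_neg, HH_neg]; ring

lemma hV_neg_right (r m c : ℝ) : hV r m (-c) = hV r m c := by
  unfold hV
  have e1 : m + r * -c = m - r * c := by ring
  have e2 : m - r * -c = m + r * c := by ring
  rw [e1, e2]; ring

/-- For an even potential it is enough to treat nonnegative means. -/
theorem step_of_nonneg {ρ : ℝ} {S : ℝ → ℝ} (heven : ∀ x, S (-x) = S x) (h : StepPos ρ S) :
    Step ρ S := by
  intro ι _ w m c hw hw1 hmc hδ2 hδ hS
  -- signs
  obtain ⟨s, hs, hs'⟩ : ∃ s : ℝ, (s = 1 ∨ s = -1) ∧ 0 ≤ s * ∑ i, w i * m i := by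
    rcases le_total 0 (∑ i, w i * m i) with h | h
    · exact ⟨1, Or.inl rfl, by linarith only [h]⟩
    · exact ⟨-1, Or.inr rfl, by linarith only [h]⟩
  obtain ⟨t, ht, ht'⟩ : ∃ t : ℝ, (t = 1 ∨ t = -1) ∧ 0 ≤ t * ∑ i, w i * c i := by
    rcases le_total 0 (∑ i, w i * c i) with h | h
    · exact ⟨1, Or.inl rfl, by linarith⟩
    · exact ⟨-1, Or.inr rfl, by linarith⟩
  have habs1 : ∀ {s x : ℝ}, (s = 1 ∨ s = -1) → |s * x| = |x| := by
    rintro s x (rfl | rfl) <;> simp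
  have em : ∑ i, w i * (s * m i) = s * ∑ i, w i * m i := by
    rw [Finset.mul_sum]; exact Finset.sum_congr rfl (fun i _ => by ring)
  have ec : ∑ i, w i * (t * c i) = t * ∑ i, w i * c i := by
    rw [Finset.mul_sum]; exact Finset.sum_congr rfl (fun i _ => by ring)
  have hss : s ^ 2 = 1 := by rcases hs with rfl | rfl <;> norm_num
  have htt : t ^ 2 = 1 := by rcases ht with rfl | rfl <;> norm_num
  have hVs : ∀ r a b, hV r (s * a) (t * b) = hV r a b := by
    intro r a b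
    rcases hs with rfl | rfl <;> rcases ht with rfl | rfl <;>
      simp only [one_mul, neg_one_mul, hV_neg_left, hV_neg_right]
  have hSsum : S (s * ∑ i, w i * m i + t * ∑ i, w i * c i)
      + S (s * ∑ i, w i * m i - t * ∑ i, w i * c i)
      = S (∑ i, w i * m i + ∑ i, w i * c i) + S (∑ i, w i * m i - ∑ i, w i * c i) := by
    set a := ∑ i, w i * m i
    set b := ∑ i, w i * c i
    rcases hs with rfl | rfl <;> rcases ht with rfl | rfl
    · simp only [one_mul]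
    · have e1 : 1 * a + -1 * b = a - b := by ring
      have e2 : 1 * a - -1 * b = a + b := by ring
      rw [e1, e2]; ring
    · have e1 : -1 * a + 1 * b = -(a - b) := by ring
      have e2 : -1 * a - 1 * b = -(a + b) := by ring
      rw [e1, e2, heven, heven]; ring
    · have e1 : -1 * a + -1 * b = -(a + b) := by ring
      have e2 : -1 * a - -1 * b = -(a - b) := by ring
      rw [e1, e2, heven, heven]
  have hSs : S (s * ∑ i, w i * m i) = S (∑ i, w i * m i) := by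
    rcases hs with rfl | rfl
    · rw [one_mul]
    · rw [neg_one_mul, heven]
  have key := h ι w (fun i => s * m i) (fun i => t * c i) hw hw1
    (fun i => by rw [habs1 hs, habs1 ht]; exact hmc i)
  simp only [em, ec, hVs] at key
  have k2 := key hs' ht' (by
      rw [mul_pow, mul_pow, hss, htt, one_mul, one_mul]; exact hδ2) (by
      have := le_abs_self (t * ∑ i, w i * c i)
      rw [habs1 ht] at this
      linarith only [hδ, this]) (by rw [hSsum]; exact hS)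
  rw [hSs] at k2
  exact k2

/-- Dual certificates with arbitrary slack give the law level step. -/
theorem stepPos_of_cert {ρ : ℝ} {S : ℝ → ℝ}
    (h : ∀ μ δ : ℝ, 0 ≤ μ → 0 ≤ δ → μ + δ ≤ 1 → δ ^ 2 ≤ (1 - μ ^ 2) / 3 → δ ≤ 1 / 2 →
      ∀ η : ℝ, 0 < η → ∃ θ q0 q1 q2 : ℝ, 0 ≤ θ ∧
        (∀ m c : ℝ, |m| + |c| ≤ 1 → θ * hV 1 m c + q0 + q1 * m + q2 * c ≤ hV ρ m c) ∧
        S μ ≤ θ * ((S (μ + δ) + S (μ - δ)) / 2) + q0 + q1 * μ + q2 * δ + η) : StepPos ρ S := by
  intro ι _ w m c hw hw1 hmc hμ0 hδ0 hδ2 hδ hS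
  set μ := ∑ i, w i * m i with hμ
  set δ := ∑ i, w i * c i with hδd
  have hsum : μ + δ ≤ 1 := by
    have : μ + δ = ∑ i, w i * (m i + c i) := by
      rw [hμ, hδd, ← Finset.sum_add_distrib]
      exact Finset.sum_congr rfl (fun i _ => by ring)
    rw [this, ← hw1]
    refine Finset.sum_le_sum (fun i _ => ?_)
    have h1 := le_abs_self (m i)
    have h2 := le_abs_self (c i)
    have h3 := hmc i
    linarith only [mul_nonneg (sub_nonneg.2 h3) (sub_nonneg.2 (hw i)), mul_nonneg (sub_nonneg.2 h2) (sub_nonneg.2 (hw i)), mul_nonneg (sub_nonneg.2 h1) (sub_nonneg.2 (hw i))]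
  refine le_of_forall_pos_le_add (fun η hη => ?_)
  obtain ⟨θ, q0, q1, q2, hθ, hpt, hval⟩ := h μ δ hμ0 hδ0 hsum hδ2 hδ η hη
  have hlow : ∑ i, w i * (θ * hV 1 (m i) (c i) + q0 + q1 * m i + q2 * c i)
      ≤ ∑ i, w i * hV ρ (m i) (c i) :=
    Finset.sum_le_sum (fun i _ => mul_le_mul_of_nonneg_left (hpt _ _ (hmc i)) (hw i))
  have hcalc : ∑ i, w i * (θ * hV 1 (m i) (c i) + q0 + q1 * m i + q2 * c i)
      = θ * (∑ i, w i * hV 1 (m i) (c i)) + q0 + q1 * μ + q2 * δ := by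
    have e : ∀ i, w i * (θ * hV 1 (m i) (c i) + q0 + q1 * m i + q2 * c i)
        = θ * (w i * hV 1 (m i) (c i)) + q0 * w i + q1 * (w i * m i) + q2 * (w i * c i) := by
      intro i; ring
    rw [Finset.sum_congr rfl (fun i _ => e i), Finset.sum_add_distrib, Finset.sum_add_distrib,
      Finset.sum_add_distrib, ← Finset.mul_sum, ← Finset.mul_sum, ← Finset.mul_sum,
      ← Finset.mul_sum, hw1, mul_one]
  rw [hcalc] at hlow
  have := mul_le_mul_of_nonneg_left hS hθ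
  linarith only [hval, hlow, this]

/-- One step of the forward induction along the first coordinate, law version. -/
lemma forward_step' {ε : ℝ} (h0 : 0 ≤ ε) (h1 : ε ≤ 1) {S : ℝ → ℝ} (hstep : Step (1 - 2 * ε) S)
    {n : ℕ}
    (ih : ∀ g : (Fin n → ℤˣ) → ℝ, (∀ x, g x = 1 ∨ g x = -1) →
      S (avg n g) ≤ avg n (fun y => HH (TT n ε g y)))
    (g : (Fin (n + 1) → ℤˣ) → ℝ) (hg : ∀ x, g x = 1 ∨ g x = -1)
    (hδ2 : ((avg n (fun x => g (Fin.cons 1 x)) - avg n (fun x => g (Fin.cons (-1) x))) / 2) ^ 2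
      ≤ (1 - (avg (n + 1) g) ^ 2) / 3)
    (hδ : |(avg n (fun x => g (Fin.cons 1 x)) - avg n (fun x => g (Fin.cons (-1) x))) / 2| ≤ 1 / 2) :
    S (avg (n + 1) g) ≤ avg (n + 1) (fun y => HH (TT (n + 1) ε g y)) := by
  set gp : (Fin n → ℤˣ) → ℝ := fun x => g (Fin.cons 1 x) with hgp
  set gm : (Fin n → ℤˣ) → ℝ := fun x => g (Fin.cons (-1) x) with hgm
  have habs : ∀ {t : ℝ}, (t = 1 ∨ t = -1) → |t| ≤ 1 := by
    rintro t (rfl | rfl) <;> simp
  have ihp := ih gp (fun x => hg _)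
  have ihm := ih gm (fun x => hg _)
  have hpabs : ∀ x, |gp x| ≤ 1 := fun x => habs (hg _)
  have hmabs : ∀ x, |gm x| ≤ 1 := fun x => habs (hg _)
  have hav : avg (n + 1) g = (avg n gp + avg n gm) / 2 := avg_succ n g
  set u := TT n ε gp with hu
  set v := TT n ε gm with hv
  have hmu : avg n u = avg n gp := avg_TT n ε gp
  have hmv : avg n v = avg n gm := avg_TT n ε gm
  have hleft : avg (n + 1) (fun y => HH (TT (n + 1) ε g y))
      = avg n (fun y => hV (1 - 2 * ε) ((u y + v y) / 2) ((u y - v y) / 2)) := by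
    rw [avg_succ]
    have e1 : (fun y : Fin n → ℤˣ => HH (TT (n + 1) ε g (Fin.cons 1 y)))
        = fun y => HH ((u y + v y) / 2 + (1 - 2 * ε) * ((u y - v y) / 2)) := by
      funext y
      rw [TT_cons, ker_one_one, ker_neg_one]
      congr 1
      simp only [hu, hv, hgp, hgm]
      ring
    have e2 : (fun y : Fin n → ℤˣ => HH (TT (n + 1) ε g (Fin.cons (-1) y)))
        = fun y => HH ((u y + v y) / 2 - (1 - 2 * ε) * ((u y - v y) / 2)) := by
      funext y
      rw [TT_cons, ker_one_neg, ker_neg_neg]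
      congr 1
      simp only [hu, hv, hgp, hgm]
      ring
    rw [e1, e2, ← avg_add]
    unfold avg hV
    rw [mul_div_assoc, Finset.sum_div]
  -- averages as weighted sums
  have hws : ∀ k : (Fin n → ℤˣ) → ℝ, ∑ y, (1 / 2 : ℝ) ^ n * k y = avg n k := by
    intro k; unfold avg; rw [Finset.mul_sum]
  have hw1 : ∑ _y : Fin n → ℤˣ, (1 / 2 : ℝ) ^ n = 1 := by
    have := hws (fun _ => 1)
    simp only [mul_one] at this
    rw [this, avg_const]
  have hm : ∑ y, (1 / 2 : ℝ) ^ n * ((u y + v y) / 2) = (avg n gp + avg n gm) / 2 := by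
    rw [hws (fun y => (u y + v y) / 2)]
    have : (fun y => (u y + v y) / 2) = fun y => 1 / 2 * u y + 1 / 2 * v y := by funext y; ring
    rw [this, avg_add, avg_mul_left, avg_mul_left, hmu, hmv]; ring
  have hc : ∑ y, (1 / 2 : ℝ) ^ n * ((u y - v y) / 2) = (avg n gp - avg n gm) / 2 := by
    rw [hws (fun y => (u y - v y) / 2)]
    have : (fun y => (u y - v y) / 2) = fun y => 1 / 2 * u y + (-(1 / 2)) * v y := by funext y; ring
    rw [this, avg_add, avg_mul_left, avg_mul_left, hmu, hmv]; ring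
  have key := hstep (Fin n → ℤˣ) (fun _ => (1 / 2 : ℝ) ^ n) (fun y => (u y + v y) / 2)
    (fun y => (u y - v y) / 2) (fun _ => by positivity) hw1
    (fun y => abs_half_add_half (abs_TT_le h0 h1 hpabs y) (abs_TT_le h0 h1 hmabs y))
  rw [hm, hc] at key
  rw [hav] at hδ2 ⊢
  have k2 := key hδ2 hδ
  have s1 : (avg n gp + avg n gm) / 2 + (avg n gp - avg n gm) / 2 = avg n gp := by ring
  have s2 : (avg n gp + avg n gm) / 2 - (avg n gp - avg n gm) / 2 = avg n gm := by ring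
  rw [s1, s2] at k2
  have hV1 : ∑ y, (1 / 2 : ℝ) ^ n * hV 1 ((u y + v y) / 2) ((u y - v y) / 2)
      = (avg n (fun y => HH (u y)) + avg n (fun y => HH (v y))) / 2 := by
    rw [hws (fun y => hV 1 ((u y + v y) / 2) ((u y - v y) / 2))]
    have : (fun y => hV 1 ((u y + v y) / 2) ((u y - v y) / 2))
        = fun y => 1 / 2 * HH (u y) + 1 / 2 * HH (v y) := by
      funext y
      have a1 : (u y + v y) / 2 + 1 * ((u y - v y) / 2) = u y := by ring
      have a2 : (u y + v y) / 2 - 1 * ((u y - v y) / 2) = v y := by ring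
      unfold hV
      rw [a1, a2]; ring
    rw [this, avg_add, avg_mul_left, avg_mul_left]; ring
  have k3 := k2 (by rw [hV1]; linarith only [ihp, ihm])
  rw [hleft, ← hws (fun y => hV (1 - 2 * ε) ((u y + v y) / 2) ((u y - v y) / 2))]
  exact k3

lemma cons_swap2 {m : ℕ} (a b c : ℤˣ) (x : Fin m → ℤˣ) :
    ((Fin.cons a (Fin.cons b (Fin.cons c x : Fin (m + 1) → ℤˣ) : Fin (m + 2) → ℤˣ) :
      Fin (m + 3) → ℤˣ) ∘ (Equiv.swap 0 2))
      = Fin.cons c (Fin.cons b (Fin.cons a x : Fin (m + 1) → ℤˣ) : Fin (m + 2) → ℤˣ) := by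
  have hne1 : (1 : Fin (m + 3)) ≠ 0 := by
    intro h; exact absurd (congrArg Fin.val h) (by simp)
  have hne2 : (1 : Fin (m + 3)) ≠ 2 := by
    intro h
    have : (Fin.succ 0 : Fin (m + 3)) = Fin.succ (Fin.succ 0) := h
    exact Fin.succ_ne_zero _ (Fin.succ_injective _ this).symm
  funext i
  refine Fin.cases ?_ (fun j => ?_) i
  · simp only [Function.comp, Equiv.swap_apply_left, Fin.cons_zero]
    rfl
  · refine Fin.cases ?_ (fun k => ?_) j
    · have : (Fin.succ 0 : Fin (m + 3)) = 1 := rfl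
      simp only [Function.comp, this, Equiv.swap_apply_of_ne_of_ne hne1 hne2]
      rfl
    · refine Fin.cases ?_ (fun l => ?_) k
      · have : (Fin.succ (Fin.succ 0) : Fin (m + 3)) = 2 := rfl
        simp only [Function.comp, this, Equiv.swap_apply_right, Fin.cons_zero]
        rfl
      · have h1 : (Fin.succ (Fin.succ (Fin.succ l)) : Fin (m + 3)) ≠ 0 := Fin.succ_ne_zero _
        have h2 : (Fin.succ (Fin.succ (Fin.succ l)) : Fin (m + 3)) ≠ 2 := by
          intro h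
          have : (Fin.succ (Fin.succ (Fin.succ l)) : Fin (m + 3)) = Fin.succ (Fin.succ 0) := h
          exact Fin.succ_ne_zero _ (Fin.succ_injective _ (Fin.succ_injective _ this))
        simp only [Function.comp, Equiv.swap_apply_of_ne_of_ne h1 h2, Fin.cons_succ]


/-- Among three coefficients, the smallest is small in both required senses. -/
lemma min_three {a b c μ : ℝ} (h : μ ^ 2 + (a ^ 2 + b ^ 2 + c ^ 2) ≤ 1) (hab : |a| + |b| ≤ 1)
    (hac : |a| + |c| ≤ 1) (hbc : |b| + |c| ≤ 1) :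
    (a ^ 2 ≤ (1 - μ ^ 2) / 3 ∧ |a| ≤ 1 / 2) ∨ (b ^ 2 ≤ (1 - μ ^ 2) / 3 ∧ |b| ≤ 1 / 2) ∨
      (c ^ 2 ≤ (1 - μ ^ 2) / 3 ∧ |c| ≤ 1 / 2) := by
  have sq : ∀ {x y : ℝ}, |x| ≤ |y| → x ^ 2 ≤ y ^ 2 := fun h => sq_le_sq.2 h
  rcases le_total |a| |b| with h1 | h1
  · rcases le_total |a| |c| with h2 | h2
    · left
      have := sq h1
      have := sq h2
      constructor <;> linarith
    · right; right
      have h3 := h2.trans h1
      have := sq h2
      have := sq h3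
      constructor <;> linarith
  · rcases le_total |b| |c| with h2 | h2
    · right; left
      have := sq h1
      have := sq h2
      constructor <;> linarith
    · right; right
      have h3 := h2.trans h1
      have := sq h2
      have := sq h3
      constructor <;> linarith

lemma abs_add_abs_le {a b : ℝ} (h1 : a + b ≤ 1) (h2 : a - b ≤ 1) (h3 : -a + b ≤ 1)
    (h4 : -a - b ≤ 1) : |a| + |b| ≤ 1 := by
  rcases abs_cases a with h | h <;> rcases abs_cases b with h' | h' <;> linarith only [h1, h, h', h2, h3, h4]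

/-- Bessel's inequality on the three-dimensional cube and the pairwise bounds. -/
lemma bessel_three {q1 q2 q3 q4 q5 q6 q7 q8 : ℝ} (h1 : |q1| ≤ 1) (h2 : |q2| ≤ 1) (h3 : |q3| ≤ 1)
    (h4 : |q4| ≤ 1) (h5 : |q5| ≤ 1) (h6 : |q6| ≤ 1) (h7 : |q7| ≤ 1) (h8 : |q8| ≤ 1) :
    ((q1 + q2 + q3 + q4 + q5 + q6 + q7 + q8) / 8) ^ 2
      + (((q1 + q2 + q3 + q4 - q5 - q6 - q7 - q8) / 8) ^ 2
      + ((q1 + q2 - q3 - q4 + q5 + q6 - q7 - q8) / 8) ^ 2
      + ((q1 - q2 + q3 - q4 + q5 - q6 + q7 - q8) / 8) ^ 2) ≤ 1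
    ∧ |(q1 + q2 + q3 + q4 - q5 - q6 - q7 - q8) / 8| + |(q1 + q2 - q3 - q4 + q5 + q6 - q7 - q8) / 8| ≤ 1
    ∧ |(q1 + q2 + q3 + q4 - q5 - q6 - q7 - q8) / 8| + |(q1 - q2 + q3 - q4 + q5 - q6 + q7 - q8) / 8| ≤ 1
    ∧ |(q1 + q2 - q3 - q4 + q5 + q6 - q7 - q8) / 8| + |(q1 - q2 + q3 - q4 + q5 - q6 + q7 - q8) / 8| ≤ 1 := by
  have sq1 : ∀ {x : ℝ}, |x| ≤ 1 → x ^ 2 ≤ 1 := fun h => by
    rw [sq_le_one_iff_abs_le_one]; exact h
  refine ⟨?_, ?_, ?_, ?_⟩
  · have e1 := sq1 h1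
    have e2 := sq1 h2
    have e3 := sq1 h3
    have e4 := sq1 h4
    have e5 := sq1 h5
    have e6 := sq1 h6
    have e7 := sq1 h7
    have e8 := sq1 h8
    have w1 := sq_nonneg ((q1 + q2 - q3 - q4 - q5 - q6 + q7 + q8) / 8)
    have w2 := sq_nonneg ((q1 - q2 + q3 - q4 - q5 + q6 - q7 + q8) / 8)
    have w3 := sq_nonneg ((q1 - q2 - q3 + q4 + q5 - q6 - q7 + q8) / 8)
    have w4 := sq_nonneg ((q1 - q2 - q3 + q4 - q5 + q6 + q7 - q8) / 8)
    have id : ((q1 + q2 + q3 + q4 + q5 + q6 + q7 + q8) / 8) ^ 2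
      + (((q1 + q2 + q3 + q4 - q5 - q6 - q7 - q8) / 8) ^ 2
      + ((q1 + q2 - q3 - q4 + q5 + q6 - q7 - q8) / 8) ^ 2
      + ((q1 - q2 + q3 - q4 + q5 - q6 + q7 - q8) / 8) ^ 2)
      + (((q1 + q2 - q3 - q4 - q5 - q6 + q7 + q8) / 8) ^ 2
      + ((q1 - q2 + q3 - q4 - q5 + q6 - q7 + q8) / 8) ^ 2
      + ((q1 - q2 - q3 + q4 + q5 - q6 - q7 + q8) / 8) ^ 2
      + ((q1 - q2 - q3 + q4 - q5 + q6 + q7 - q8) / 8) ^ 2)
      = (q1 ^ 2 + q2 ^ 2 + q3 ^ 2 + q4 ^ 2 + q5 ^ 2 + q6 ^ 2 + q7 ^ 2 + q8 ^ 2) / 8 := by ring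
    linarith only [w4, w3, w2, w1, e8, e7, e6, e5, e4, e3, e2, e1]
  all_goals
    rw [abs_le] at h1 h2 h3 h4 h5 h6 h7 h8
    apply abs_add_abs_le <;> linarith only [h1, h2, h7, h8, h3, h4, h5, h6, h1.1, h1.2, h2.1, h2.2, h3.1, h3.2, h4.1, h4.2, h5.1, h5.2, h6.1, h6.2, h7.1, h7.2, h8.1, h8.2]

/-- On the two-dimensional cube one of the two coefficients of a sign function is small. -/
lemma min_two {q1 q2 q3 q4 : ℝ} (h1 : q1 = 1 ∨ q1 = -1) (h2 : q2 = 1 ∨ q2 = -1)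
    (h3 : q3 = 1 ∨ q3 = -1) (h4 : q4 = 1 ∨ q4 = -1) :
    (((q1 + q2 - q3 - q4) / 4) ^ 2 ≤ (1 - ((q1 + q2 + q3 + q4) / 4) ^ 2) / 3 ∧
      |(q1 + q2 - q3 - q4) / 4| ≤ 1 / 2) ∨
    (((q1 - q2 + q3 - q4) / 4) ^ 2 ≤ (1 - ((q1 + q2 + q3 + q4) / 4) ^ 2) / 3 ∧
      |(q1 - q2 + q3 - q4) / 4| ≤ 1 / 2) := by
  rcases h1 with rfl | rfl <;> rcases h2 with rfl | rfl <;> rcases h3 with rfl | rfl <;>
    rcases h4 with rfl | rfl <;> norm_num [abs_le]

/-- Invariance of the right-hand side under a permutation of the coordinates. -/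
lemma rhs_perm {n : ℕ} (ε : ℝ) (σ : Equiv.Perm (Fin n)) (g : (Fin n → ℤˣ) → ℝ) :
    avg n (fun y => HH (TT n ε (fun x => g (x ∘ σ)) y)) = avg n (fun y => HH (TT n ε g y)) := by
  have : (fun y => HH (TT n ε (fun x => g (x ∘ σ)) y))
      = fun y => (fun z => HH (TT n ε g z)) (y ∘ σ) := by
    funext y
    rw [TT_perm]
  rw [this, avg_perm σ (fun z => HH (TT n ε g z))]

lemma avg_zero_eq (k : (Fin 0 → ℤˣ) → ℝ) : avg 0 k = k Fin.elim0 := by
  have hs : ∑ x, k x = k Fin.elim0 := by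
    rw [Fintype.sum_unique k]
    exact congrArg k (Subsingleton.elim _ _)
  unfold avg; rw [hs]; ring

lemma TT_zero_eq (ε : ℝ) (k : (Fin 0 → ℤˣ) → ℝ) (y : Fin 0 → ℤˣ) : TT 0 ε k y = k Fin.elim0 := by
  unfold TT
  rw [Fintype.sum_unique]
  simp only [Finset.univ_eq_empty, Finset.prod_empty, one_mul]
  exact congrArg k (Subsingleton.elim _ _)

/-- **Forward induction, law version.** -/
theorem forward_law {ε : ℝ} (h0 : 0 ≤ ε) (h1 : ε ≤ 1) {S : ℝ → ℝ} (hS1 : S 1 ≤ 0)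
    (hS2 : S (-1) ≤ 0) (hS0 : S 0 ≤ HH (1 - 2 * ε)) (hstep : Step (1 - 2 * ε) S) (n : ℕ) :
    ∀ g : (Fin n → ℤˣ) → ℝ, (∀ x, g x = 1 ∨ g x = -1) →
      S (avg n g) ≤ avg n (fun y => HH (TT n ε g y)) := by
  have habs : ∀ {t : ℝ}, (t = 1 ∨ t = -1) → |t| ≤ 1 := by
    rintro t (rfl | rfl) <;> simp
  induction n with
  | zero =>
    intro g hg
    rw [avg_zero_eq, avg_zero_eq, TT_zero_eq]
    rcases hg Fin.elim0 with h | h
    · rw [h]; simpa [HH] using hS1
    · rw [h]; simpa [HH] using hS2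
  | succ n ih =>
    intro g hg
    rcases n with _ | n
    · -- one coordinate
      rw [avg_succ, avg_succ, avg_zero_eq, avg_zero_eq, avg_zero_eq, avg_zero_eq]
      rw [TT_cons, TT_cons, TT_zero_eq, TT_zero_eq, ker_one_one, ker_neg_one, ker_one_neg,
        ker_neg_neg]
      rcases hg (Fin.cons 1 Fin.elim0) with ha | ha <;>
        rcases hg (Fin.cons (-1) Fin.elim0) with hb | hb
      · rw [ha, hb]
        have e1 : (1 + 1 : ℝ) / 2 = 1 := by norm_num
        have e2 : (1 - ε) * 1 + ε * 1 = (1 : ℝ) := by ring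
        have e3 : ε * 1 + (1 - ε) * 1 = (1 : ℝ) := by ring
        rw [e1, e2, e3]
        have : HH 1 = 0 := by simp [HH]
        rw [this]; simpa using hS1
      · rw [ha, hb]
        have e1 : ((1 : ℝ) + -1) / 2 = 0 := by norm_num
        have e2 : (1 - ε) * 1 + ε * (-1) = (1 - 2 * ε : ℝ) := by ring
        have e3 : ε * 1 + (1 - ε) * (-1) = -(1 - 2 * ε : ℝ) := by ring
        rw [e1, e2, e3, HH_neg]; linarith
      · rw [ha, hb]
        have e1 : (-(1 : ℝ) + 1) / 2 = 0 := by norm_num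
        have e2 : (1 - ε) * (-1) + ε * 1 = -(1 - 2 * ε : ℝ) := by ring
        have e3 : ε * (-1) + (1 - ε) * 1 = (1 - 2 * ε : ℝ) := by ring
        rw [e1, e2, e3, HH_neg]; linarith
      · rw [ha, hb]
        have e1 : (-(1 : ℝ) + -1) / 2 = -1 := by norm_num
        have e2 : (1 - ε) * (-1) + ε * (-1) = (-1 : ℝ) := by ring
        have e3 : ε * (-1) + (1 - ε) * (-1) = (-1 : ℝ) := by ring
        rw [e1, e2, e3]
        have : HH (-1) = 0 := by simp [HH]
        rw [this]; simpa using hS2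
    · rcases n with _ | m
      · -- two coordinates
        have key : ∀ g : (Fin 2 → ℤˣ) → ℝ, (∀ x, g x = 1 ∨ g x = -1) →
            ((avg 1 (fun x => g (Fin.cons 1 x)) - avg 1 (fun x => g (Fin.cons (-1) x))) / 2) ^ 2
                ≤ (1 - (avg 2 g) ^ 2) / 3 ∧
              |(avg 1 (fun x => g (Fin.cons 1 x)) - avg 1 (fun x => g (Fin.cons (-1) x))) / 2|
                ≤ 1 / 2 →
            S (avg 2 g) ≤ avg 2 (fun y => HH (TT 2 ε g y)) := by
          intro g hg hsm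
          exact forward_step' h0 h1 hstep ih g hg hsm.1 hsm.2
        have ex : ∀ g : (Fin 2 → ℤˣ) → ℝ,
            (avg 1 (fun x => g (Fin.cons 1 x)) - avg 1 (fun x => g (Fin.cons (-1) x))) / 2
              = (g (Fin.cons 1 (Fin.cons 1 Fin.elim0 : Fin 1 → ℤˣ))
                + g (Fin.cons 1 (Fin.cons (-1) Fin.elim0 : Fin 1 → ℤˣ))
                - g (Fin.cons (-1) (Fin.cons 1 Fin.elim0 : Fin 1 → ℤˣ))
                - g (Fin.cons (-1) (Fin.cons (-1) Fin.elim0 : Fin 1 → ℤˣ))) / 4 := by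
          intro g
          rw [avg_succ, avg_succ, avg_zero_eq, avg_zero_eq, avg_zero_eq, avg_zero_eq]
          ring
        have ea : ∀ g : (Fin 2 → ℤˣ) → ℝ, avg 2 g
              = (g (Fin.cons 1 (Fin.cons 1 Fin.elim0 : Fin 1 → ℤˣ))
                + g (Fin.cons 1 (Fin.cons (-1) Fin.elim0 : Fin 1 → ℤˣ))
                + g (Fin.cons (-1) (Fin.cons 1 Fin.elim0 : Fin 1 → ℤˣ))
                + g (Fin.cons (-1) (Fin.cons (-1) Fin.elim0 : Fin 1 → ℤˣ))) / 4 := by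
          intro g
          rw [avg_succ, avg_succ, avg_succ, avg_zero_eq, avg_zero_eq, avg_zero_eq, avg_zero_eq]
          ring
        rcases min_two (hg (Fin.cons 1 (Fin.cons 1 Fin.elim0 : Fin 1 → ℤˣ)))
          (hg (Fin.cons 1 (Fin.cons (-1) Fin.elim0 : Fin 1 → ℤˣ)))
          (hg (Fin.cons (-1) (Fin.cons 1 Fin.elim0 : Fin 1 → ℤˣ)))
          (hg (Fin.cons (-1) (Fin.cons (-1) Fin.elim0 : Fin 1 → ℤˣ))) with h | h
        · refine key g hg ?_
          rw [ex, ea]; exact h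
        · have hswap := key (fun x => g (x ∘ (Equiv.swap 0 1))) (fun x => hg _) ?_
          · rw [avg_perm, rhs_perm] at hswap
            exact hswap
          · have exs := ex (fun x => g (x ∘ (Equiv.swap 0 1)))
            beta_reduce at exs
            rw [exs, avg_perm, ea]
            simp only [cons_swap]
            have e : ∀ a b c d : ℝ, (a + b - c - d) / 4 = (a - c + b - d) / 4 := by
              intro a b c d; ring
            rw [e]
            exact h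
      · -- at least three coordinates
        have key : ∀ g : (Fin (m + 3) → ℤˣ) → ℝ, (∀ x, g x = 1 ∨ g x = -1) →
            ((avg (m + 2) (fun x => g (Fin.cons 1 x))
                - avg (m + 2) (fun x => g (Fin.cons (-1) x))) / 2) ^ 2
                ≤ (1 - (avg (m + 3) g) ^ 2) / 3 ∧
              |(avg (m + 2) (fun x => g (Fin.cons 1 x))
                - avg (m + 2) (fun x => g (Fin.cons (-1) x))) / 2| ≤ 1 / 2 →
            S (avg (m + 3) g) ≤ avg (m + 3) (fun y => HH (TT (m + 3) ε g y)) := by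
          intro g hg hsm
          exact forward_step' h0 h1 hstep ih g hg hsm.1 hsm.2
        have ex : ∀ g : (Fin (m + 3) → ℤˣ) → ℝ,
            (avg (m + 2) (fun x => g (Fin.cons 1 x))
                - avg (m + 2) (fun x => g (Fin.cons (-1) x))) / 2
              = (avg m (fun x => g (Fin.cons 1 (Fin.cons 1 (Fin.cons 1 x : Fin (m + 1) → ℤˣ) : Fin (m + 2) → ℤˣ)))
                + avg m (fun x => g (Fin.cons 1 (Fin.cons 1 (Fin.cons (-1) x : Fin (m + 1) → ℤˣ) : Fin (m + 2) → ℤˣ)))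
                + avg m (fun x => g (Fin.cons 1 (Fin.cons (-1) (Fin.cons 1 x : Fin (m + 1) → ℤˣ) : Fin (m + 2) → ℤˣ)))
                + avg m (fun x => g (Fin.cons 1 (Fin.cons (-1) (Fin.cons (-1) x : Fin (m + 1) → ℤˣ) : Fin (m + 2) → ℤˣ)))
                - avg m (fun x => g (Fin.cons (-1) (Fin.cons 1 (Fin.cons 1 x : Fin (m + 1) → ℤˣ) : Fin (m + 2) → ℤˣ)))
                - avg m (fun x => g (Fin.cons (-1) (Fin.cons 1 (Fin.cons (-1) x : Fin (m + 1) → ℤˣ) : Fin (m + 2) → ℤˣ)))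
                - avg m (fun x => g (Fin.cons (-1) (Fin.cons (-1) (Fin.cons 1 x : Fin (m + 1) → ℤˣ) : Fin (m + 2) → ℤˣ)))
                - avg m (fun x => g (Fin.cons (-1) (Fin.cons (-1) (Fin.cons (-1) x : Fin (m + 1) → ℤˣ) : Fin (m + 2) → ℤˣ)))) / 8 := by
          intro g
          rw [avg_succ, avg_succ (m + 1), avg_succ m, avg_succ m, avg_succ m, avg_succ m]
          ring
        have ea : ∀ g : (Fin (m + 3) → ℤˣ) → ℝ, avg (m + 3) g
              = (avg m (fun x => g (Fin.cons 1 (Fin.cons 1 (Fin.cons 1 x : Fin (m + 1) → ℤˣ) : Fin (m + 2) → ℤˣ)))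
                + avg m (fun x => g (Fin.cons 1 (Fin.cons 1 (Fin.cons (-1) x : Fin (m + 1) → ℤˣ) : Fin (m + 2) → ℤˣ)))
                + avg m (fun x => g (Fin.cons 1 (Fin.cons (-1) (Fin.cons 1 x : Fin (m + 1) → ℤˣ) : Fin (m + 2) → ℤˣ)))
                + avg m (fun x => g (Fin.cons 1 (Fin.cons (-1) (Fin.cons (-1) x : Fin (m + 1) → ℤˣ) : Fin (m + 2) → ℤˣ)))
                + avg m (fun x => g (Fin.cons (-1) (Fin.cons 1 (Fin.cons 1 x : Fin (m + 1) → ℤˣ) : Fin (m + 2) → ℤˣ)))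
                + avg m (fun x => g (Fin.cons (-1) (Fin.cons 1 (Fin.cons (-1) x : Fin (m + 1) → ℤˣ) : Fin (m + 2) → ℤˣ)))
                + avg m (fun x => g (Fin.cons (-1) (Fin.cons (-1) (Fin.cons 1 x : Fin (m + 1) → ℤˣ) : Fin (m + 2) → ℤˣ)))
                + avg m (fun x => g (Fin.cons (-1) (Fin.cons (-1) (Fin.cons (-1) x : Fin (m + 1) → ℤˣ) : Fin (m + 2) → ℤˣ)))) / 8 := by
          intro g
          rw [avg_succ, avg_succ (m + 1), avg_succ (m + 1), avg_succ m, avg_succ m, avg_succ m,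
            avg_succ m]
          ring
        have hq : ∀ a b c : ℤˣ, |avg m (fun x => g (Fin.cons a (Fin.cons b (Fin.cons c x :
            Fin (m + 1) → ℤˣ) : Fin (m + 2) → ℤˣ)))| ≤ 1 :=
          fun a b c => abs_avg_le (fun x => habs (hg _))
        obtain ⟨hb, hab, hac, hbc⟩ := bessel_three (hq 1 1 1) (hq 1 1 (-1)) (hq 1 (-1) 1)
          (hq 1 (-1) (-1)) (hq (-1) 1 1) (hq (-1) 1 (-1)) (hq (-1) (-1) 1) (hq (-1) (-1) (-1))
        rcases min_three hb hab hac hbc with h | h | h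
        · refine key g hg ?_
          rw [ex, ea]; exact h
        · have hswap := key (fun x => g (x ∘ (Equiv.swap 0 1))) (fun x => hg _) ?_
          · rw [avg_perm, rhs_perm] at hswap
            exact hswap
          · have exs := ex (fun x => g (x ∘ (Equiv.swap 0 1)))
            beta_reduce at exs
            rw [exs, avg_perm, ea]
            simp only [cons_swap]
            have e : ∀ a b c d a' b' c' d' : ℝ, (a + b + c + d - a' - b' - c' - d') / 8
                = (a + b - a' - b' + c + d - c' - d') / 8 := by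
              intros; ring
            rw [e]
            exact h
        · have hswap := key (fun x => g (x ∘ (Equiv.swap 0 2))) (fun x => hg _) ?_
          · rw [avg_perm, rhs_perm] at hswap
            exact hswap
          · have exs := ex (fun x => g (x ∘ (Equiv.swap 0 2)))
            beta_reduce at exs
            rw [exs, avg_perm, ea]
            simp only [cons_swap2]
            have e : ∀ a b c d a' b' c' d' : ℝ, (a + b + c + d - a' - b' - c' - d') / 8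
                = (a - a' + c - c' + b - b' + d - d') / 8 := by
              intros; ring
            rw [e]
            exact h

/-- **Reduction.** The Courtade-Kumar inequality at crossover `ε` follows from a potential `S`
with the law level two-point step at coordinates of small influence. -/
theorem ck_of_step {ε : ℝ} (h0 : 0 ≤ ε) (h1 : ε ≤ 1) {S : ℝ → ℝ} (hS1 : S 1 ≤ 0)
    (hS2 : S (-1) ≤ 0) (hS0 : S 0 ≤ HH (1 - 2 * ε)) (hstep : Step (1 - 2 * ε) S)
    (hS : ∀ μ, |μ| ≤ 1 → HH (1 - 2 * ε) + HH μ - Real.log 2 ≤ S μ)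
    (n : ℕ) (f : (Fin n → ℤˣ) → ℤˣ) : mutualInfo (outLaw n ε f) ≤ 1 - h2 ε := by
  rw [mutualInfo_outLaw h0 h1 f, h2_eq]
  have hl : 0 < Real.log 2 := Real.log_pos (by norm_num)
  rw [div_le_iff₀ hl, sub_mul, div_mul_cancel₀ _ hl.ne', one_mul]
  have hF := forward_law h0 h1 hS1 hS2 hS0 hstep n (toR f) (toR_cases f)
  have hFabs : ∀ x, |toR f x| ≤ 1 := by
    intro x
    rcases toR_cases f x with h | h <;> rw [h] <;> simp
  have := hS _ (abs_avg_le hFabs)
  linarith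

lemma HH_nn {x : ℝ} (h : |x| ≤ 1) : 0 ≤ HH x := by
  have h1 := (abs_le.mp h).1
  have h2 := (abs_le.mp h).2
  exact Real.binEntropy_nonneg (by linarith) (by linarith)

lemma HH_le_log_two (x : ℝ) : HH x ≤ Real.log 2 := Real.binEntropy_le_log_two

/-- The noiseless case. -/
theorem ck_zero (n : ℕ) (f : (Fin n → ℤˣ) → ℤˣ) : mutualInfo (outLaw n 0 f) ≤ 1 - h2 0 := by
  rw [mutualInfo_outLaw le_rfl zero_le_one f, h2_eq]
  have hl : 0 < Real.log 2 := Real.log_pos (by norm_num)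
  have hF : ∀ x, |toR f x| ≤ 1 := by
    intro x
    rcases toR_cases f x with h | h <;> rw [h] <;> simp
  have h1 : HH (1 - 2 * 0) = 0 := by simp [HH]
  rw [h1, zero_div, sub_zero, div_le_iff₀ hl, one_mul]
  have h2 : 0 ≤ avg n (fun y => HH (TT n 0 (toR f) y)) := by
    have := avg_mono (n := n) (g := fun _ => (0 : ℝ)) (g' := fun y => HH (TT n 0 (toR f) y))
      (fun y => HH_nn (abs_TT_le le_rfl zero_le_one hF y))
    rwa [avg_const] at this
  have := HH_le_log_two (avg n (toR f))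
  linarith

lemma TT_half (n : ℕ) (g : (Fin n → ℤˣ) → ℝ) (y : Fin n → ℤˣ) : TT n (1 / 2) g y = avg n g := by
  unfold TT avg
  rw [Finset.mul_sum]
  refine Finset.sum_congr rfl (fun x _ => ?_)
  have : ∀ a b : ℤˣ, ker (1 / 2) a b = 1 / 2 := by
    intro a b
    unfold ker; split_ifs <;> norm_num
  simp only [this, Finset.prod_const, Finset.card_univ, Fintype.card_fin]

/-- The pure noise case. -/
theorem ck_half (n : ℕ) (f : (Fin n → ℤˣ) → ℤˣ) :
    mutualInfo (outLaw n (1 / 2) f) ≤ 1 - h2 (1 / 2) := by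
  rw [mutualInfo_outLaw (by norm_num) (by norm_num) f, h2_eq]
  have hl : 0 < Real.log 2 := Real.log_pos (by norm_num)
  have h1 : HH (1 - 2 * (1 / 2)) = Real.log 2 := by
    unfold HH
    have : (1 + (1 - 2 * (1 / 2))) / 2 = (2 : ℝ)⁻¹ := by norm_num
    rw [this, Real.binEntropy_two_inv]
  simp only [TT_half, avg_const]
  rw [h1, div_self hl.ne', sub_self, sub_self, zero_div]

/-- **Assembly.** It is enough to have a potential with the law level step for each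
`0 < ρ < 1`. -/
theorem ck_of_potentials
    (h : ∀ ρ : ℝ, 0 < ρ → ρ < 1 → ∃ S : ℝ → ℝ, S 1 ≤ 0 ∧ S (-1) ≤ 0 ∧ S 0 ≤ HH ρ ∧ Step ρ S ∧
      ∀ μ, |μ| ≤ 1 → HH ρ + HH μ - Real.log 2 ≤ S μ)
    (n : ℕ) (f : (Fin n → ℤˣ) → ℤˣ) (ε : ℝ) (h0 : 0 ≤ ε) (h1 : ε ≤ 1 / 2) :
    mutualInfo (outLaw n ε f) ≤ 1 - h2 ε := by
  rcases eq_or_lt_of_le h0 with h0' | h0'
  · rw [← h0']; exact ck_zero n f
  · rcases eq_or_lt_of_le h1 with h1' | h1'
    · rw [h1']; exact ck_half n f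
    · obtain ⟨S, hS1, hS2, hS0, hstep, hS⟩ := h (1 - 2 * ε) (by linarith) (by linarith)
      exact ck_of_step h0 (by linarith) hS1 hS2 hS0 hstep hS n f

end Vale.Agent.P322
end
end

section

section

/-! Final assembly: side conditions of the two potentials. -/

namespace Vale.Agent.P322

open Finset

/-- A certificate on the half domain gives the law level step. -/
theorem step_of_certHalf {ρ : ℝ} {S : ℝ → ℝ} (h : CertHalf ρ S) : Step ρ S := by
  intro ι _ w m c hw hw1 hmc _ hδ hS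
  set μ := ∑ i, w i * m i with hμ
  set δ := ∑ i, w i * c i with hδd
  have hsum : |μ| + |δ| ≤ 1 := by
    calc |μ| + |δ| ≤ ∑ i, w i * |m i| + ∑ i, w i * |c i| := by
          refine add_le_add ?_ ?_
          · rw [hμ]
            refine (Finset.abs_sum_le_sum_abs _ _).trans_eq ?_
            exact Finset.sum_congr rfl (fun i _ => by rw [abs_mul, abs_of_nonneg (hw i)])
          · rw [hδd]
            refine (Finset.abs_sum_le_sum_abs _ _).trans_eq ?_
            exact Finset.sum_congr rfl (fun i _ => by rw [abs_mul, abs_of_nonneg (hw i)])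
      _ = ∑ i, w i * (|m i| + |c i|) := by
          rw [← Finset.sum_add_distrib]
          exact Finset.sum_congr rfl (fun i _ => by ring)
      _ ≤ ∑ i, w i * 1 := Finset.sum_le_sum (fun i _ => mul_le_mul_of_nonneg_left (hmc i) (hw i))
      _ = 1 := by simp [hw1]
  obtain ⟨θ, q0, q1, q2, hθ, hpt, hval⟩ := h μ δ hsum hδ
  have hlow : ∑ i, w i * (θ * hV 1 (m i) (c i) + q0 + q1 * m i + q2 * c i)
      ≤ ∑ i, w i * hV ρ (m i) (c i) :=
    Finset.sum_le_sum (fun i _ => mul_le_mul_of_nonneg_left (hpt _ _ (hmc i)) (hw i))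
  have hcalc : ∑ i, w i * (θ * hV 1 (m i) (c i) + q0 + q1 * m i + q2 * c i)
      = θ * (∑ i, w i * hV 1 (m i) (c i)) + q0 + q1 * μ + q2 * δ := by
    have e : ∀ i, w i * (θ * hV 1 (m i) (c i) + q0 + q1 * m i + q2 * c i)
        = θ * (w i * hV 1 (m i) (c i)) + q0 * w i + q1 * (w i * m i) + q2 * (w i * c i) := by
      intro i; ring
    rw [Finset.sum_congr rfl (fun i _ => e i), Finset.sum_add_distrib, Finset.sum_add_distrib,
      Finset.sum_add_distrib, ← Finset.mul_sum, ← Finset.mul_sum, ← Finset.mul_sum,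
      ← Finset.mul_sum, hw1, mul_one]
  rw [hcalc] at hlow
  have := mul_le_mul_of_nonneg_left hS hθ
  linarith only [hval, hlow, this]

/-- The low noise potential. -/
noncomputable def SA (ρ μ : ℝ) : ℝ := HH ρ * (1 - μ ^ 2) * (1 + μ ^ 2 / 7)

lemma SA_eq (ρ μ : ℝ) : SA ρ μ = HH ρ * (1 - μ ^ 2) * (1 + μ ^ 2 / 7) := rfl
lemma SA_one (ρ : ℝ) : SA ρ 1 ≤ 0 := by simp [SA]
lemma SA_neg_one (ρ : ℝ) : SA ρ (-1) ≤ 0 := by simp [SA]
lemma SA_zero (ρ : ℝ) : SA ρ 0 ≤ HH ρ := by simp [SA]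
lemma SA_even (ρ μ : ℝ) : SA ρ (-μ) = SA ρ μ := by unfold SA; ring

lemma SA_ge {ρ : ℝ} (h1 : 13 / 20 ≤ ρ) (h2 : ρ < 1) {μ : ℝ} (hμ : |μ| ≤ 1) :
    HH ρ + HH μ - Real.log 2 ≤ SA ρ μ := by
  have hρ : |ρ| ≤ 1 := by rw [abs_le]; constructor <;> linarith only [h1, h2]
  have hB := HH_le hρ
  have hl := Real.log_two_lt_d9
  have hB2 : HH ρ ≤ 1 / 2 := by nlinarith only [h1, hB, hl]
  have hB0 := HH_nn hρ
  have hΦ := HH_le hμ
  have hμ2 : μ ^ 2 ≤ 1 := by rw [sq_le_one_iff_abs_le_one]; exact hμ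
  have h3 : HH ρ * (6 / 7 * μ ^ 2 + μ ^ 4 / 7) ≤ μ ^ 2 / 2 := by
    have : 6 / 7 * μ ^ 2 + μ ^ 4 / 7 ≤ μ ^ 2 := by linarith only [mul_nonneg (sq_nonneg (1 * μ : ℝ)) (sub_nonneg.2 hμ2)]
    have h0 : 0 ≤ 6 / 7 * μ ^ 2 + μ ^ 4 / 7 := by positivity
    calc HH ρ * (6 / 7 * μ ^ 2 + μ ^ 4 / 7) ≤ 1 / 2 * μ ^ 2 :=
          mul_le_mul hB2 this h0 (by norm_num)
      _ = μ ^ 2 / 2 := by ring
  have h4 : SA ρ μ = HH ρ - HH ρ * (6 / 7 * μ ^ 2 + μ ^ 4 / 7) := by unfold SA; ring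
  rw [h4]; linarith only [hΦ, h3]

/-- Regime B from the scalar inequality on the half domain. -/
theorem step_SB {ρ : ℝ} (hρ0 : 0 < ρ) (hρ1 : ρ < 1)
    (h : ∀ μ δ : ℝ, 0 ≤ μ → 0 < δ → μ + δ ≤ 1 → δ ^ 2 ≤ (1 - μ ^ 2) / 3 → δ ≤ 1 / 2 →
      SB ρ μ ≤ LBmd ρ ((SB ρ (μ + δ) + SB ρ (μ - δ)) / 2) μ δ) : Step ρ (SB ρ) := by
  refine step_of_nonneg (SB_even ρ) (stepPos_of_cert (fun μ δ hμ hδ hμδ hδ2 hδ3 η hη => ?_))
  rcases eq_or_lt_of_le hδ with h0 | h0
  · -- `δ = 0`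
    refine ⟨1, 0, 0, 0, zero_le_one, fun m c hmc => ?_, ?_⟩
    · have h1 : |m + c| ≤ 1 := (abs_add_le m c).trans hmc
      have h2 : |m - c| ≤ 1 := (abs_sub m c).trans hmc
      have := hV_one_le hρ0.le hρ1.le h1 h2
      linarith
    · rw [← h0]
      simp only [add_zero, sub_zero]
      linarith only [hη]
  · exact certB hρ0.le hρ1.le hμ h0 (by linarith) hμδ (h μ δ hμ h0 hμδ hδ2 hδ3) hη

/-- **Courtade-Kumar from the two regimes.** -/
theorem ck_of_regimes (ρ₁ : ℝ) (hρ₁ : 13 / 20 ≤ ρ₁)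
    (hA : ∀ ρ, ρ₁ ≤ ρ → ρ < 1 → Step ρ (SA ρ))
    (hB : ∀ ρ, 0 < ρ → ρ ≤ ρ₁ → ρ < 1 → Step ρ (SB ρ))
    (n : ℕ) (f : (Fin n → ℤˣ) → ℤˣ) (ε : ℝ) (h0 : 0 ≤ ε) (h1 : ε ≤ 1 / 2) :
    mutualInfo (outLaw n ε f) ≤ 1 - h2 ε := by
  refine ck_of_potentials (fun ρ hρ0 hρ1 => ?_) n f ε h0 h1
  rcases le_total ρ₁ ρ with h | h
  · exact ⟨SA ρ, SA_one ρ, SA_neg_one ρ, SA_zero ρ, hA ρ h hρ1,
      fun μ hμ => SA_ge (hρ₁.trans h) hρ1 hμ⟩
  · exact ⟨SB ρ, (SB_one ρ).le, (SB_neg_one ρ).le, (SB_zero ρ).le, hB ρ hρ0 h hρ1,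
      fun μ hμ => SB_ge (by rw [abs_le]; constructor <;> linarith only [hρ0, hρ1]) hμ⟩

end Vale.Agent.P322
end
end

section

section

/-! Regime A (low noise): the potential `B (1-μ²)(1+μ²/7)` satisfies the half certificate as soon
as the scalar inequality `SA` holds. -/

namespace Vale.Agent.P322.RegA

open Real Filter Topology Set

/-- The scalar inequality of regime A. -/
def SA (ρ k : ℝ) : Prop := ∀ x : ℝ, 0 ≤ x → x ≤ 1 →
  k * HH ρ ^ 2 * x ^ 2 ≤ (Real.log 2 - ph ρ * x ^ 2) * (ph x - ph (ρ * x))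

/-- The potential of regime A. -/
noncomputable def SpotA (ρ : ℝ) (μ : ℝ) : ℝ := HH ρ * ((1 - μ ^ 2) * (1 + μ ^ 2 / 7))

lemma HH_ph (x : ℝ) (h : |x| ≤ 1) : HH x = Real.log 2 - ph x := by
  have hlt := abs_le.mp h
  unfold HH
  rw [Real.binEntropy_eq_negMulLog_add_negMulLog_one_sub, ph_eq]
  have e : 1 - (1 + x) / 2 = (1 - x) / 2 := by ring
  rw [e]
  simp only [Real.negMulLog]
  have h1 : (1 + x) / 2 * Real.log ((1 + x) / 2) = (1 + x) / 2 * (Real.log (1 + x) - Real.log 2) := by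
    rcases eq_or_lt_of_le (show 0 ≤ 1 + x by linarith) with h0 | h0
    · rw [← h0]; simp
    · rw [Real.log_div h0.ne' (by norm_num)]
  have h2 : (1 - x) / 2 * Real.log ((1 - x) / 2) = (1 - x) / 2 * (Real.log (1 - x) - Real.log 2) := by
    rcases eq_or_lt_of_le (show 0 ≤ 1 - x by linarith) with h0 | h0
    · rw [← h0]; simp
    · rw [Real.log_div h0.ne' (by norm_num)]
  linear_combination -h1 - h2

lemma ph_neg (x : ℝ) : ph (-x) = ph x := by
  rw [ph_eq, ph_eq]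
  have e1 : 1 + -x = 1 - x := by ring
  have e2 : 1 - -x = 1 + x := by ring
  rw [e1, e2]; ring

lemma ph_negMulLog (x : ℝ) : ph x = -(Real.negMulLog (1 + x) + Real.negMulLog (1 - x)) / 2 := by
  rw [ph_eq]; simp only [Real.negMulLog]; ring

lemma ph_cont : Continuous ph := by
  have : ph = fun x => -(Real.negMulLog (1 + x) + Real.negMulLog (1 - x)) / 2 := by
    funext x; exact ph_negMulLog x
  rw [this]
  have := Real.continuous_negMulLog
  fun_prop

lemma ph_one : ph 1 = Real.log 2 := by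
  rw [ph_eq]; norm_num

/-- `ph (ρ y) ≤ y² ph ρ`. -/
lemma ph_scale {ρ y : ℝ} (hρ : |ρ| < 1) (hy : |y| ≤ 1) : ph (ρ * y) ≤ y ^ 2 * ph ρ := by
  have h1 : |ρ * y| < 1 := by
    rw [abs_mul]
    calc |ρ| * |y| ≤ |ρ| * 1 := mul_le_mul_of_nonneg_left hy (abs_nonneg _)
      _ < 1 := by simpa using hρ
  refine hasSum_le (fun k => ?_) (hasSum_ph h1) ((hasSum_ph hρ).mul_left (y ^ 2))
  rw [mul_pow, ← mul_div_assoc]
  refine div_le_div_of_nonneg_right ?_ (by positivity)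
  have e : y ^ (2 * k + 2) = y ^ 2 * (y ^ 2) ^ k := by rw [← pow_mul, ← pow_add]; ring_nf
  have e2 : ρ ^ (2 * k + 2) = (ρ ^ 2) ^ (k + 1) := by rw [← pow_mul]; ring_nf
  have h3 : (y ^ 2) ^ k ≤ 1 := by
    refine pow_le_one₀ (sq_nonneg y) ?_
    rw [← sq_abs]
    exact pow_le_one₀ (abs_nonneg y) hy
  have h4 : 0 ≤ (ρ ^ 2) ^ (k + 1) := by positivity
  rw [e, e2]
  have h5 : 0 ≤ (ρ ^ 2) ^ (k + 1) * y ^ 2 := by positivity
  linarith only [mul_le_mul_of_nonneg_left h3 h5]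

lemma ph_nonneg {x : ℝ} (hx : |x| < 1) : 0 ≤ ph x := by
  refine hasSum_le (fun k => ?_) hasSum_zero (hasSum_ph hx)
  have : x ^ (2 * k + 2) = (x ^ 2) ^ (k + 1) := by rw [← pow_mul]; ring_nf
  rw [this]
  positivity

lemma ph_le_sq {m : ℝ} (hm : |m| < 1) : ph m ≤ Real.log 2 * m ^ 2 := by
  have hlim : Tendsto (fun t : ℝ => t ^ 2 * ph m - m ^ 2 * ph t) (𝓝[<] 1)
      (𝓝 (1 ^ 2 * ph m - m ^ 2 * ph 1)) := by
    apply Tendsto.mono_left _ nhdsWithin_le_nhds
    apply Continuous.tendsto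
    have := ph_cont
    fun_prop
  have hev : ∀ᶠ t : ℝ in 𝓝[<] 1, t ^ 2 * ph m - m ^ 2 * ph t ≤ 0 := by
    have h1 : ∀ᶠ t : ℝ in 𝓝[<] 1, |m| < t := by
      apply mem_nhdsWithin_of_mem_nhds
      exact lt_mem_nhds hm
    filter_upwards [h1, self_mem_nhdsWithin] with t ht ht1
    have ht1' : t < 1 := ht1
    have ht0 : 0 < t := lt_of_le_of_lt (abs_nonneg m) ht
    have hy : |m / t| ≤ 1 := by
      rw [abs_div, abs_of_pos ht0, div_le_one ht0]; exact ht.le
    have := ph_scale (ρ := t) (y := m / t) (by rw [abs_of_pos ht0]; exact ht1') hy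
    have e : t * (m / t) = m := by field_simp
    rw [e, div_pow] at this
    have h2 := mul_le_mul_of_nonneg_left this (sq_nonneg t)
    have e2 : t ^ 2 * (m ^ 2 / t ^ 2 * ph t) = m ^ 2 * ph t := by field_simp
    rw [e2] at h2
    linarith
  have := le_of_tendsto hlim hev
  rw [ph_one] at this
  linarith

lemma HH_ge_sq {m : ℝ} (hm : |m| < 1) : Real.log 2 * (1 - m ^ 2) ≤ HH m := by
  rw [HH_ph m hm.le]
  have := ph_le_sq hm
  linarith

/-- perspective decomposition of `ph (m + x) + ph (m - x)`. -/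
lemma ph_pers {m x : ℝ} (hmx : |m| + |x| < 1) :
    (ph (m + x) + ph (m - x)) / 2 = ph m + (1 + m) / 2 * ph (x / (1 + m))
      + (1 - m) / 2 * ph (x / (1 - m)) := by
  have hm := abs_le.mp (le_refl |m|)
  have hx := abs_le.mp (le_refl |x|)
  have a1 : 0 < 1 + m := by linarith [abs_nonneg x]
  have a2 : 0 < 1 - m := by linarith [abs_nonneg x]
  have b1 : 0 < 1 + m + x := by linarith
  have b2 : 0 < 1 + m - x := by linarith
  have b3 : 0 < 1 - m + x := by linarith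
  have b4 : 0 < 1 - m - x := by linarith
  have c1 : 1 + x / (1 + m) = (1 + m + x) / (1 + m) := by field_simp
  have c2 : 1 - x / (1 + m) = (1 + m - x) / (1 + m) := by field_simp
  have c3 : 1 + x / (1 - m) = (1 - m + x) / (1 - m) := by field_simp
  have c4 : 1 - x / (1 - m) = (1 - m - x) / (1 - m) := by field_simp
  simp only [ph_eq]
  rw [c1, c2, c3, c4, Real.log_div b1.ne' a1.ne', Real.log_div b2.ne' a1.ne',
    Real.log_div b3.ne' a2.ne', Real.log_div b4.ne' a2.ne']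
  have d1 : 1 + (m + x) = 1 + m + x := by ring
  have d2 : 1 - (m + x) = 1 - m - x := by ring
  have d3 : 1 + (m - x) = 1 + m - x := by ring
  have d4 : 1 - (m - x) = 1 - m + x := by ring
  rw [d1, d2, d3, d4]
  field_simp
  ring

/-- the noisy two point average through the perspective decomposition. -/
lemma hV_pers {ρ m c : ℝ} (h : |m| + |ρ * c| < 1) :
    hV ρ m c = HH m - ((1 + m) / 2 * ph (ρ * c / (1 + m)) + (1 - m) / 2 * ph (ρ * c / (1 - m))) := by
  have hm := abs_le.mp (le_refl |m|)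
  have hx := abs_le.mp (le_refl |ρ * c|)
  have h1 := abs_nonneg m
  have h2 := abs_nonneg (ρ * c)
  unfold hV
  rw [HH_ph (m + ρ * c) (by rw [abs_le]; constructor <;> linarith),
    HH_ph (m - ρ * c) (by rw [abs_le]; constructor <;> linarith), HH_ph m (by linarith)]
  have := ph_pers h
  linarith

/-- the loss function. -/
lemma hasSum_loss {ρ y : ℝ} (h0 : 0 ≤ ρ) (h1 : ρ ≤ 1) (hy : |y| < 1) :
    HasSum (fun k : ℕ => (1 - ρ ^ (2 * k + 2)) / ((2 * k + 2) * (2 * k + 1)) * y ^ (2 * k + 2))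
      (ph y - ph (ρ * y)) := by
  have hy' : |ρ * y| < 1 := by
    rw [abs_mul, abs_of_nonneg h0]
    calc ρ * |y| ≤ 1 * |y| := mul_le_mul_of_nonneg_right h1 (abs_nonneg _)
      _ < 1 := by simpa using hy
  refine hasSum_of_eq ((hasSum_ph hy).sub (hasSum_ph hy')) (fun k => ?_) rfl
  rw [mul_pow]; ring

lemma loss_nonneg {ρ y : ℝ} (h0 : 0 ≤ ρ) (h1 : ρ ≤ 1) (hy : |y| < 1) : 0 ≤ ph y - ph (ρ * y) := by
  refine hasSum_le (fun k => ?_) hasSum_zero (hasSum_loss h0 h1 hy)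
  have e : y ^ (2 * k + 2) = (y ^ 2) ^ (k + 1) := by rw [← pow_mul]; ring_nf
  rw [e]
  have : ρ ^ (2 * k + 2) ≤ 1 := pow_le_one₀ h0 h1
  have h2 : 0 ≤ 1 - ρ ^ (2 * k + 2) := by linarith
  positivity

lemma pow_inv_ineq {p q : ℝ} (hp : 0 < p) (hq : 0 < q) (hpq : p + q = 2) (n : ℕ) :
    2 * (1 / (p * q)) ^ n ≤ (1 / p) ^ n + (1 / q) ^ n := by
  have h1 := one_add_mul_le_pow (a := p - 1) (by linarith) n
  have h2 := one_add_mul_le_pow (a := q - 1) (by linarith) n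
  have e1 : 1 + (p - 1) = p := by ring
  have e2 : 1 + (q - 1) = q := by ring
  rw [e1] at h1
  rw [e2] at h2
  have h3 : 2 ≤ p ^ n + q ^ n := by
    have : (n : ℝ) * (p - 1) + n * (q - 1) = 0 := by
      have : q - 1 = -(p - 1) := by linarith
      rw [this]; ring
    linarith
  have e3 : (1 / p) ^ n + (1 / q) ^ n = (1 / (p * q)) ^ n * (p ^ n + q ^ n) := by
    have hpn : p ^ n ≠ 0 := by positivity
    have hqn : q ^ n ≠ 0 := by positivity
    simp only [one_div, inv_pow, mul_pow]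
    field_simp
    ring
  rw [e3]
  have : 0 ≤ (1 / (p * q)) ^ n := by positivity
  linarith only [mul_nonneg (sub_nonneg.2 h3) (sub_nonneg.2 this)]

/-- the loss of the pair is at least the loss of the symmetrised pair. -/
lemma loss_pers {ρ m c : ℝ} (h0 : 0 ≤ ρ) (h1 : ρ ≤ 1) (hmc : |m| + |c| < 1) :
    (1 - m ^ 2) * (ph (c / (1 - m ^ 2)) - ph (ρ * (c / (1 - m ^ 2))))
      ≤ (1 + m) / 2 * (ph (c / (1 + m)) - ph (ρ * (c / (1 + m))))
        + (1 - m) / 2 * (ph (c / (1 - m)) - ph (ρ * (c / (1 - m)))) := by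
  have hm := abs_le.mp (le_refl |m|)
  have hx := abs_le.mp (le_refl |c|)
  have hm0 := abs_nonneg m
  have hc0 := abs_nonneg c
  have p0 : 0 < 1 + m := by linarith
  have q0 : 0 < 1 - m := by linarith
  have v0 : 0 < 1 - m ^ 2 := by nlinarith only [hmc, hx, hm]
  have hp : |c / (1 + m)| < 1 := by
    rw [abs_div, abs_of_pos p0, div_lt_one p0]; linarith
  have hq : |c / (1 - m)| < 1 := by
    rw [abs_div, abs_of_pos q0, div_lt_one q0]; linarith
  have hv : |c / (1 - m ^ 2)| < 1 := by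
    rw [abs_div, abs_of_pos v0, div_lt_one v0]
    have : |m| ^ 2 = m ^ 2 := sq_abs m
    nlinarith only [hmc, hm, v0]
  have s1 := (hasSum_loss h0 h1 hp).mul_left ((1 + m) / 2)
  have s2 := (hasSum_loss h0 h1 hq).mul_left ((1 - m) / 2)
  have s3 := (hasSum_loss h0 h1 hv).mul_left (1 - m ^ 2)
  refine hasSum_le (fun k => ?_) s3 (s1.add s2)
  have hk := pow_inv_ineq p0 q0 (by ring) (2 * k + 1)
  have e1 : (1 + m) * (c / (1 + m)) ^ (2 * k + 2) = c ^ (2 * k + 2) * (1 / (1 + m)) ^ (2 * k + 1) := by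
    rw [div_pow, pow_succ (1 + m) (2 * k + 1), one_div, inv_pow]
    field_simp
  have e2 : (1 - m) * (c / (1 - m)) ^ (2 * k + 2) = c ^ (2 * k + 2) * (1 / (1 - m)) ^ (2 * k + 1) := by
    rw [div_pow, pow_succ (1 - m) (2 * k + 1), one_div, inv_pow]
    field_simp
  have e3 : (1 - m ^ 2) * (c / (1 - m ^ 2)) ^ (2 * k + 2)
      = c ^ (2 * k + 2) * (1 / ((1 + m) * (1 - m))) ^ (2 * k + 1) := by
    have : 1 - m ^ 2 = (1 + m) * (1 - m) := by ring
    rw [this, div_pow, pow_succ ((1 + m) * (1 - m)) (2 * k + 1), one_div, inv_pow]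
    field_simp
  have hc2 : 0 ≤ c ^ (2 * k + 2) := by
    have : c ^ (2 * k + 2) = (c ^ 2) ^ (k + 1) := by rw [← pow_mul]; ring_nf
    rw [this]; positivity
  have hρ : ρ ^ (2 * k + 2) ≤ 1 := pow_le_one₀ h0 h1
  have hA : 0 ≤ (1 - ρ ^ (2 * k + 2)) / ((2 * (k : ℝ) + 2) * (2 * k + 1)) :=
    div_nonneg (by linarith only [hρ]) (by positivity)
  set A := (1 - ρ ^ (2 * k + 2)) / ((2 * (k : ℝ) + 2) * (2 * k + 1)) with hAdef
  have f1 : (1 + m) / 2 * (A * (c / (1 + m)) ^ (2 * k + 2))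
      = A * c ^ (2 * k + 2) / 2 * (1 / (1 + m)) ^ (2 * k + 1) := by
    linear_combination (A / 2) * e1
  have f2 : (1 - m) / 2 * (A * (c / (1 - m)) ^ (2 * k + 2))
      = A * c ^ (2 * k + 2) / 2 * (1 / (1 - m)) ^ (2 * k + 1) := by
    linear_combination (A / 2) * e2
  have f3 : (1 - m ^ 2) * (A * (c / (1 - m ^ 2)) ^ (2 * k + 2))
      = A * c ^ (2 * k + 2) / 2 * (2 * (1 / ((1 + m) * (1 - m))) ^ (2 * k + 1)) := by
    linear_combination A * e3
  rw [f1, f2, f3, ← mul_add]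
  exact mul_le_mul_of_nonneg_left hk (by (clear * - hρ hc2; positivity))

/-- upper bound on the information term. -/
lemma info_pers {ρ m c : ℝ} (h0 : 0 ≤ ρ) (h1 : ρ < 1) (hmc : |m| + |c| < 1) :
    (1 + m) / 2 * ph (ρ * c / (1 + m)) + (1 - m) / 2 * ph (ρ * c / (1 - m))
      ≤ ph ρ * c ^ 2 / (1 - m ^ 2) := by
  have hm := abs_le.mp (le_refl |m|)
  have hx := abs_le.mp (le_refl |c|)
  have hm0 := abs_nonneg m
  have hc0 := abs_nonneg c
  have p0 : 0 < 1 + m := by linarith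
  have q0 : 0 < 1 - m := by linarith
  have v0 : 0 < 1 - m ^ 2 := by nlinarith only [hmc, hx, hm]
  have hρ : |ρ| < 1 := by rw [abs_of_nonneg h0]; exact h1
  have hp : |c / (1 + m)| ≤ 1 := by
    rw [abs_div, abs_of_pos p0, div_le_one p0]; linarith
  have hq : |c / (1 - m)| ≤ 1 := by
    rw [abs_div, abs_of_pos q0, div_le_one q0]; linarith
  have s1 := ph_scale hρ hp
  have s2 := ph_scale hρ hq
  have e1 : ρ * c / (1 + m) = ρ * (c / (1 + m)) := by ring
  have e2 : ρ * c / (1 - m) = ρ * (c / (1 - m)) := by ring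
  rw [e1, e2]
  have t1 := mul_le_mul_of_nonneg_left s1 (show 0 ≤ (1 + m) / 2 by linarith only [hmc, hm, hx])
  have t2 := mul_le_mul_of_nonneg_left s2 (show 0 ≤ (1 - m) / 2 by linarith only [hmc, hm, hx])
  have e3 : (1 + m) / 2 * ((c / (1 + m)) ^ 2 * ph ρ) + (1 - m) / 2 * ((c / (1 - m)) ^ 2 * ph ρ)
      = ph ρ * c ^ 2 / (1 - m ^ 2) := by
    have : 1 - m ^ 2 = (1 + m) * (1 - m) := by ring
    rw [this]
    field_simp
    ring
  linarith only [t1, t2, e3]

/-- pointwise product inequality. -/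
lemma prod_pointwise {ρ k m c : ℝ} (h0 : 0 ≤ ρ) (h1 : ρ < 1) (hSA : SA ρ k)
    (hmc : |m| + |c| < 1) :
    0 ≤ hV ρ m c ∧ 0 ≤ hV ρ m c - hV 1 m c ∧
      k * HH ρ ^ 2 * c ^ 2 ≤ hV ρ m c * (hV ρ m c - hV 1 m c) := by
  have hm := abs_le.mp (le_refl |m|)
  have hx := abs_le.mp (le_refl |c|)
  have hm0 := abs_nonneg m
  have hc0 := abs_nonneg c
  have p0 : 0 < 1 + m := by linarith
  have q0 : 0 < 1 - m := by linarith
  have v0 : 0 < 1 - m ^ 2 := by nlinarith only [hmc, hx, hm]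
  have hρc : |m| + |ρ * c| < 1 := by
    rw [abs_mul, abs_of_nonneg h0]
    have : ρ * |c| ≤ 1 * |c| := mul_le_mul_of_nonneg_right h1.le hc0
    linarith
  have hρ1 : |m| + |1 * c| < 1 := by rw [one_mul]; exact hmc
  set V := 1 - m ^ 2 with hV'
  -- lower bound on `hV ρ`
  have k1 : V * (Real.log 2 - ph ρ * (c / V) ^ 2) ≤ hV ρ m c := by
    rw [hV_pers hρc]
    have a1 := info_pers h0 h1 hmc
    have a2 := HH_ge_sq (show |m| < 1 by linarith)
    have e : V * (Real.log 2 - ph ρ * (c / V) ^ 2) = Real.log 2 * (1 - m ^ 2) - ph ρ * c ^ 2 / (1 - m ^ 2) := by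
      rw [← hV']; field_simp
    rw [e]; linarith only [a1, a2]
  -- lower bound on the difference
  have k2 : V * (ph (c / V) - ph (ρ * (c / V))) ≤ hV ρ m c - hV 1 m c := by
    rw [hV_pers hρc, hV_pers hρ1]
    have a1 := loss_pers h0 h1.le hmc
    have e1 : ρ * c / (1 + m) = ρ * (c / (1 + m)) := by ring
    have e2 : ρ * c / (1 - m) = ρ * (c / (1 - m)) := by ring
    have e3 : 1 * c / (1 + m) = c / (1 + m) := by ring
    have e4 : 1 * c / (1 - m) = c / (1 - m) := by ring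
    rw [e1, e2, e3, e4]
    rw [← hV'] at a1
    linarith only [a1]
  -- the scalar inequality at `|c| / V`
  have hxv : |c| / V < 1 := by
    rw [div_lt_one v0]
    have : |m| ^ 2 = m ^ 2 := sq_abs m
    rw [hV']; nlinarith only [hmc, hm, v0]
  have hxv0 : 0 ≤ |c| / V := div_nonneg hc0 v0.le
  have hs := hSA (|c| / V) hxv0 hxv.le
  have hcv : ph (|c| / V) - ph (ρ * (|c| / V)) = ph (c / V) - ph (ρ * (c / V)) := by
    rcases abs_choice c with h | h
    · rw [h]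
    · rw [h]
      have e1 : -c / V = -(c / V) := by ring
      have e2 : ρ * -(c / V) = -(ρ * (c / V)) := by ring
      rw [e1, e2, ph_neg, ph_neg]
  have hsq : (|c| / V) ^ 2 = (c / V) ^ 2 := by rw [div_pow, div_pow, sq_abs]
  rw [hcv, hsq] at hs
  have hl0 : 0 ≤ ph (c / V) - ph (ρ * (c / V)) := by
    refine loss_nonneg h0 h1.le ?_
    rw [abs_div, abs_of_pos v0]; exact hxv
  have hcv2 : (c / V) ^ 2 ≤ 1 := by
    rw [← hsq]; exact pow_le_one₀ hxv0 hxv.le
  have hphρ : ph ρ ≤ Real.log 2 := by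
    have := ph_le_sq (m := ρ) (by rw [abs_of_nonneg h0]; exact h1)
    have hl : 0 < Real.log 2 := Real.log_pos (by norm_num)
    linarith only [this, mul_le_mul_of_nonneg_left (show ρ ^ 2 ≤ 1 by (by_contra nlg; linarith only [nlg, mul_nonneg (le_of_lt (sub_pos.2 h1)) (sub_nonneg.2 hxv0), mul_pos (sub_pos.2 h1) (sub_pos.2 hxv), mul_nonneg (sub_nonneg.2 h0) (le_of_lt (sub_pos.2 h1)), mul_nonneg (le_of_lt (sub_pos.2 (not_le.1 nlg))) (sub_nonneg.2 hxv0), mul_pos (sub_pos.2 (not_le.1 nlg)) (sub_pos.2 hxv)])) hl.le]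
  have hphρ0 : 0 ≤ ph ρ := ph_nonneg (by rw [abs_of_nonneg h0]; exact h1)
  have hl1 : 0 ≤ Real.log 2 - ph ρ * (c / V) ^ 2 := by nlinarith only [hphρ, hcv2, hphρ0]
  have j1 : 0 ≤ V * (Real.log 2 - ph ρ * (c / V) ^ 2) := mul_nonneg v0.le hl1
  have j2 : 0 ≤ V * (ph (c / V) - ph (ρ * (c / V))) := mul_nonneg v0.le hl0
  refine ⟨j1.trans k1, j2.trans k2, ?_⟩
  have m1 := mul_le_mul k1 k2 j2 (j1.trans k1)
  have m2 := mul_le_mul_of_nonneg_left hs (sq_nonneg V)
  have e5 : V ^ 2 * (k * HH ρ ^ 2 * (c / V) ^ 2) = k * HH ρ ^ 2 * c ^ 2 := by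
    field_simp
  rw [e5] at m2
  have e6 : V ^ 2 * ((Real.log 2 - ph ρ * (c / V) ^ 2) * (ph (c / V) - ph (ρ * (c / V))))
      = V * (Real.log 2 - ph ρ * (c / V) ^ 2) * (V * (ph (c / V) - ph (ρ * (c / V)))) := by ring
  rw [e6] at m2
  exact m2.trans m1

lemma cont_HH : Continuous HH := by
  unfold HH
  have := Real.binEntropy_continuous
  fun_prop

/-- linear certificate from the product inequality (closed diamond). -/
lemma lin_pointwise {ρ k t : ℝ} (h0 : 0 ≤ ρ) (h1 : ρ < 1) (hk : 0 ≤ k) (hSA : SA ρ k)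
    {m c : ℝ} (hmc : |m| + |c| ≤ 1) :
    hV 1 m c + 2 * k * HH ρ ^ 2 * t * |c| ≤ (1 + k * HH ρ ^ 2 * t ^ 2) * hV ρ m c := by
  -- interior
  have hint : ∀ m c : ℝ, |m| + |c| < 1 →
      hV 1 m c + 2 * k * HH ρ ^ 2 * t * |c| ≤ (1 + k * HH ρ ^ 2 * t ^ 2) * hV ρ m c := by
    intro m c hmc
    obtain ⟨a1, a2, a3⟩ := prod_pointwise h0 h1 hSA hmc
    set X := hV ρ m c
    set Y := hV ρ m c - hV 1 m c with hY
    set K := k * HH ρ ^ 2 with hK
    have hK0 : 0 ≤ K := by positivity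
    have hc0 := abs_nonneg c
    have h2 : (2 * K * t * |c|) ^ 2 ≤ (Y + K * t ^ 2 * X) ^ 2 := by
      have e : (2 * K * t * |c|) ^ 2 = 4 * (K * t ^ 2) * (K * c ^ 2) := by
        have := sq_abs c
        calc (2 * K * t * |c|) ^ 2 = 4 * (K * t ^ 2) * (K * |c| ^ 2) := by ring
          _ = _ := by rw [this]
      rw [e]
      have b1 : 4 * (K * t ^ 2) * (K * c ^ 2) ≤ 4 * (K * t ^ 2) * (X * Y) :=
        mul_le_mul_of_nonneg_left a3 (by positivity)
      linarith only [b1, sq_nonneg (Y - K * t ^ 2 * X)]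
    have h3 : 0 ≤ Y + K * t ^ 2 * X := by positivity
    have h4 : 2 * K * t * |c| ≤ Y + K * t ^ 2 * X :=
      (le_abs_self _).trans (abs_le_of_sq_le_sq h2 h3)
    have h5 : 2 * k * HH ρ ^ 2 * t * |c| = 2 * K * t * |c| := by rw [hK]; ring
    rw [h5]
    have : hV 1 m c = X - Y := by rw [hY]; ring
    rw [this]
    linarith only [h4]
  -- boundary by continuity
  have hcont : Continuous (fun s : ℝ => (1 + k * HH ρ ^ 2 * t ^ 2) * hV ρ (s * m) (s * c)
      - (hV 1 (s * m) (s * c) + 2 * k * HH ρ ^ 2 * t * |s * c|)) := by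
    unfold hV
    have := cont_HH
    fun_prop
  have hlim : Tendsto (fun s : ℝ => (1 + k * HH ρ ^ 2 * t ^ 2) * hV ρ (s * m) (s * c)
      - (hV 1 (s * m) (s * c) + 2 * k * HH ρ ^ 2 * t * |s * c|)) (𝓝[<] 1)
      (𝓝 ((1 + k * HH ρ ^ 2 * t ^ 2) * hV ρ (1 * m) (1 * c)
      - (hV 1 (1 * m) (1 * c) + 2 * k * HH ρ ^ 2 * t * |1 * c|))) :=
    (hcont.tendsto 1).mono_left nhdsWithin_le_nhds
  have hev : ∀ᶠ s : ℝ in 𝓝[<] 1, 0 ≤ (1 + k * HH ρ ^ 2 * t ^ 2) * hV ρ (s * m) (s * c)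
      - (hV 1 (s * m) (s * c) + 2 * k * HH ρ ^ 2 * t * |s * c|) := by
    have h1 : ∀ᶠ s : ℝ in 𝓝[<] 1, 0 < s := by
      apply mem_nhdsWithin_of_mem_nhds
      exact lt_mem_nhds one_pos
    filter_upwards [h1, self_mem_nhdsWithin] with s hs hs1
    have hs1' : s < 1 := hs1
    have : |s * m| + |s * c| < 1 := by
      rw [abs_mul, abs_mul, abs_of_pos hs, ← mul_add]
      calc s * (|m| + |c|) ≤ s * 1 := mul_le_mul_of_nonneg_left hmc hs.le
        _ < 1 := by linarith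
    have := hint _ _ this
    linarith
  have := ge_of_tendsto hlim hev
  simp only [one_mul] at this
  linarith

lemma poly_bound {u d k : ℝ} (hu0 : 0 ≤ u) (hu1 : u ≤ 1) (hd : d ≤ 1 / 4)
    (hk : 0.8953 ≤ k) : (1 - u) * (1 + u / 7) * ((6 + 6 * u + d) / 7) ≤ k := by
  have h1 : (1 - u) * (1 + u / 7) * ((6 + 6 * u + d) / 7)
      ≤ (1 - u) * (1 + u / 7) * ((6 + 6 * u + 1 / 4) / 7) := by
    refine mul_le_mul_of_nonneg_left (by linarith only [hd]) ?_
    have : 0 ≤ 1 - u := by linarith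
    positivity
  have h2 : (1 - u) * (1 + u / 7) * ((6 + 6 * u + 1 / 4) / 7) ≤ 0.8953 := by
    nlinarith only [mul_nonneg hu0 (sq_nonneg (u - 0.0526))]
  linarith

/-- **Regime A.**  The scalar inequality gives the half certificate for the potential `SpotA`. -/
theorem certHalf_regimeA {ρ k : ℝ} (h0 : 0 ≤ ρ) (h1 : ρ < 1) (hk : 0.8953 ≤ k) (hSA : SA ρ k) :
    CertHalf ρ (SpotA ρ) := by
  intro μ δ hμδ hδ
  set B := HH ρ with hB
  have hk0 : 0 ≤ k := by linarith only [hk]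
  have hB0 : 0 < B := by
    rw [hB]
    have := HH_ge_sq (m := ρ) (by rw [abs_of_nonneg h0]; exact h1)
    have hl : 0 < Real.log 2 := Real.log_pos (by norm_num)
    have h2 : 0 < 1 - ρ ^ 2 := by nlinarith only [h1, h0]
    have := mul_pos hl h2
    linarith
  have hμ1 : |μ| ≤ 1 := by linarith [abs_nonneg δ]
  have hμsq : μ ^ 2 ≤ 1 := by
    rw [← sq_abs]; exact pow_le_one₀ (abs_nonneg μ) hμ1
  have hδsq : δ ^ 2 ≤ 1 / 4 := by
    have : |δ| ^ 2 ≤ (1 / 2) ^ 2 := pow_le_pow_left₀ (abs_nonneg δ) hδ 2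
    rw [sq_abs] at this
    linarith only [this]
  set W := (1 - μ ^ 2) * (1 + μ ^ 2 / 7) with hW
  have hSμ : SpotA ρ μ = B * W := rfl
  have havg : (SpotA ρ (μ + δ) + SpotA ρ (μ - δ)) / 2
      = B * W - B * (δ ^ 2 * ((6 + 6 * μ ^ 2 + δ ^ 2) / 7)) := by
    simp only [SpotA, ← hB, hW]
    ring
  rw [havg, hSμ]
  rcases eq_or_lt_of_le (show 0 ≤ 1 - μ ^ 2 by linarith only [hμsq]) with hv | hv
  · -- `|μ| = 1`, `δ = 0`
    have hW0 : W = 0 := by rw [hW, ← hv]; ring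
    have hμ : |μ| = 1 := by
      have : |μ| ^ 2 = 1 := by rw [sq_abs]; linarith only [hv]
      nlinarith only [this, abs_nonneg μ]
    have hδ0 : δ = 0 := by
      have : |δ| ≤ 0 := by linarith only [hμδ, hμ]
      exact abs_eq_zero.mp (le_antisymm this (abs_nonneg δ))
    refine ⟨1, 0, 0, 0, by norm_num, ?_, ?_⟩
    · intro m c hmc
      have := lin_pointwise (t := 0) h0 h1 hk0 hSA hmc
      simp only [mul_zero, zero_mul, add_zero, ne_eq, OfNat.ofNat_ne_zero, not_false_eq_true,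
        zero_pow, one_mul] at this ⊢
      linarith only [this]
    · rw [hδ0, hW0]; simp
  · have hW0 : 0 < W := by rw [hW]; positivity
    -- multiplier
    set t := |δ| / (B * W) with ht
    have hBW : 0 < B * W := mul_pos hB0 hW0
    have ht0 : 0 ≤ t := div_nonneg (abs_nonneg _) hBW.le
    set s := k * B ^ 2 * t ^ 2 with hs
    have hs0 : 0 ≤ s := by (clear * - hk hB0; positivity)
    have hs1 : 0 < 1 + s := by linarith only [hs0]
    -- sign of δ
    obtain ⟨σ, hσ1, hσ2⟩ : ∃ σ : ℝ, |σ| ≤ 1 ∧ σ * δ = |δ| := by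
      rcases le_total 0 δ with h | h
      · exact ⟨1, by norm_num, by rw [abs_of_nonneg h]; ring⟩
      · exact ⟨-1, by norm_num, by rw [abs_of_nonpos h]; ring⟩
    refine ⟨1 / (1 + s), 0, 0, 2 * k * B ^ 2 * t * σ / (1 + s), by (clear * - hk hB0; positivity), ?_, ?_⟩
    · intro m c hmc
      have h2 := lin_pointwise (t := t) h0 h1 hk0 hSA hmc
      rw [← hB, ← hs] at h2
      have h3 : 2 * k * B ^ 2 * t * σ * c ≤ 2 * k * B ^ 2 * t * |c| := by
        have h4 : σ * c ≤ |c| := by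
          calc σ * c ≤ |σ * c| := le_abs_self _
            _ = |σ| * |c| := abs_mul _ _
            _ ≤ 1 * |c| := mul_le_mul_of_nonneg_right hσ1 (abs_nonneg c)
            _ = |c| := one_mul _
        have h5 : 0 ≤ 2 * k * B ^ 2 * t := by (clear * - hk hB0 hv; positivity)
        linarith only [mul_le_mul_of_nonneg_left h4 h5]
      have h6 : 1 / (1 + s) * hV 1 m c + 0 + 0 * m + 2 * k * B ^ 2 * t * σ / (1 + s) * c
          = (hV 1 m c + 2 * k * B ^ 2 * t * σ * c) / (1 + s) := by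
        field_simp
        ring
      rw [h6, div_le_iff₀ hs1]
      linarith only [h2, h3]
    · have hpoly := poly_bound (u := μ ^ 2) (d := δ ^ 2) (sq_nonneg μ) hμsq hδsq hk
      rw [← hW] at hpoly
      set G := (6 + 6 * μ ^ 2 + δ ^ 2) / 7 with hG
      have hδt : |δ| = t * (B * W) := by rw [ht]; field_simp
      have hδ2 : δ ^ 2 = t ^ 2 * (B * W) ^ 2 := by rw [← sq_abs, hδt]; ring
      have h7 : 1 / (1 + s) * (B * W - B * (δ ^ 2 * G)) + 0 + 0 * μ
          + 2 * k * B ^ 2 * t * σ / (1 + s) * δ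
          = ((B * W - B * (δ ^ 2 * G)) + 2 * k * B ^ 2 * t * (σ * δ)) / (1 + s) := by
        field_simp
        ring
      rw [h7, le_div_iff₀ hs1, hσ2, hδt, hδ2, hs]
      have h8 : B * (t ^ 2 * (B * W) ^ 2 * G) ≤ k * B ^ 2 * t ^ 2 * (B * W) := by
        have h9 := mul_le_mul_of_nonneg_left hpoly (show 0 ≤ B ^ 3 * t ^ 2 * W by (clear * - hB0 hv; positivity))
        have e1 : B ^ 3 * t ^ 2 * W * (W * G) = B * (t ^ 2 * (B * W) ^ 2 * G) := by ring
        have e2 : B ^ 3 * t ^ 2 * W * k = k * B ^ 2 * t ^ 2 * (B * W) := by ring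
        rw [e1, e2] at h9
        exact h9
      have e : B * W - B * (t ^ 2 * (B * W) ^ 2 * G) + 2 * k * B ^ 2 * t * (t * (B * W))
          - B * W * (1 + k * B ^ 2 * t ^ 2)
          = k * B ^ 2 * t ^ 2 * (B * W) - B * (t ^ 2 * (B * W) ^ 2 * G) := by ring
      linarith only [h8]

end Vale.Agent.P322.RegA
end
end
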