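import Mathlib
import Vale.Agent.P322.Bdl.B1

set_option linter.all false

section

section

/-! Scalar inequalities (1), (2) of the low-noise regime, at `x₀ = (1+ρ)/2`, `k = 112/125`. -/

namespace Vale.Agent.P322

open Set

lemma sa_final {η β G D G1 β1 D1 D2 : ℝ} (h0 : 0 < η) (h1 : η ≤ 3 / 10) (hβ0 : 0 ≤ β)
    (hβ : β ≤ β1) (hG1 : 0 ≤ G1) (hG : G1 ≤ G) (hD1 : 0 ≤ D1) (hD : D1 ≤ D) (hD2 : D ≤ D2)
    (P1 : 112 / 125 * (1 - η / 2) ^ 3 * D2 * β1 ^ 2 ≤ 2.77256 * G1 ^ 2)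
    (P2 : 0 ≤ 56 / 125 * (1 - η / 4) * (1 - η / 2) * β1 * D1 - 112 / 125 * β1 * G1 + G1 ^ 2)
    (M1 : D2 ≤ 2 * G1) (M2 : 112 / 125 * β1 ≤ 2 * G1) :
    112 / 125 * (η / 2 * β) ^ 2 * (1 - η / 2) ^ 3 * (D / 2) ≤ 2 * Real.log 2 * (η / 2 * G) ^ 2 ∧
    2 * (η / 2 * G) * (112 / 125 * (η / 2 * β) - η / 2 * G) ≤
      112 / 125 * (η / 2 * β) * (1 - η / 2) * (1 - (1 - η / 2) ^ 2) * (D / 2) := by
  have hx : 0 < 1 - η / 2 := by linarith only [h1]
  have hx1 : 1 - η / 2 ≤ 1 := by linarith only [h0]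
  have hl := Real.log_two_gt_d9
  have hD0 : 0 ≤ D := by linarith only [hD1, hD]
  have hβ1 : 0 ≤ β1 := by linarith only [hβ0, hβ]
  have hGG : G1 ^ 2 ≤ G ^ 2 := pow_le_pow_left₀ hG1 hG 2
  have hββ : β ^ 2 ≤ β1 ^ 2 := pow_le_pow_left₀ hβ0 hβ 2
  have hx3 : 0 < (1 - η / 2) ^ 3 := by positivity
  constructor
  · have s1 : D * β ^ 2 ≤ D2 * β1 ^ 2 := mul_le_mul hD2 hββ (sq_nonneg _) (by linarith only [hD1, hD, hD2])
    have s2 : 112 / 125 * (1 - η / 2) ^ 3 * (D * β ^ 2) ≤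
        112 / 125 * (1 - η / 2) ^ 3 * (D2 * β1 ^ 2) :=
      mul_le_mul_of_nonneg_left s1 (by positivity)
    have s3 : 2.77256 * G1 ^ 2 ≤ 4 * Real.log 2 * G ^ 2 := by
      have : 2.77256 * G1 ^ 2 ≤ 4 * Real.log 2 * G1 ^ 2 := by
        apply mul_le_mul_of_nonneg_right _ (sq_nonneg _); linarith only [hl]
      have : 4 * Real.log 2 * G1 ^ 2 ≤ 4 * Real.log 2 * G ^ 2 := by
        apply mul_le_mul_of_nonneg_left hGG; linarith only [hl]
      linarith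
    have s4 : 112 / 125 * (1 - η / 2) ^ 3 * (D * β ^ 2) ≤ 4 * Real.log 2 * G ^ 2 := by
      linarith only [P1, s2, s3]
    have s5 := mul_le_mul_of_nonneg_left s4 (by positivity : 0 ≤ η ^ 2 / 8)
    linarith only [s5]
  · have s1 : 56 / 125 * (1 - η / 4) * (1 - η / 2) * D ≤ 112 / 125 * G := by
      have a1 : (1 - η / 4) * (1 - η / 2) ≤ 1 := by nlinarith only [h0, h1]
      have a2 : (1 - η / 4) * (1 - η / 2) * D ≤ 1 * D := mul_le_mul_of_nonneg_right a1 hD0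
      linarith only [hG, hD2, M1, a2]
    have s2 : 0 ≤ 56 / 125 * (1 - η / 4) * (1 - η / 2) := by
      have : 0 < 1 - η / 4 := by linarith only [h1]
      positivity
    have s3 : 56 / 125 * (1 - η / 4) * (1 - η / 2) * β1 * D1 ≤
        56 / 125 * (1 - η / 4) * (1 - η / 2) * β1 * D :=
      mul_le_mul_of_nonneg_left hD (mul_nonneg s2 hβ1)
    have s4 : 0 ≤ (G - G1) * (G + G1 - 112 / 125 * β1) := mul_nonneg (by linarith only [hG]) (by linarith only [hG, M2])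
    have s5 : 0 ≤ (β1 - β) * (112 / 125 * G - 56 / 125 * (1 - η / 4) * (1 - η / 2) * D) :=
      mul_nonneg (by linarith only [hβ]) (by linarith only [s1])
    have s6 : 0 ≤ 56 / 125 * (1 - η / 4) * (1 - η / 2) * β * D - 112 / 125 * β * G + G ^ 2 := by
      linarith only [P2, s3, s4, s5]
    have s7 := mul_nonneg (by positivity : 0 ≤ η ^ 2 / 2) s6
    linarith only [s7]

/-- The conclusion in normalised variables. -/
def SAgoal (η β G D : ℝ) : Prop :=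
  112 / 125 * (η / 2 * β) ^ 2 * (1 - η / 2) ^ 3 * (D / 2) ≤ 2 * Real.log 2 * (η / 2 * G) ^ 2 ∧
    2 * (η / 2 * G) * (112 / 125 * (η / 2 * β) - η / 2 * G) ≤
      112 / 125 * (η / 2 * β) * (1 - η / 2) * (1 - (1 - η / 2) ^ 2) * (D / 2)

lemma sa_core_low {η l c0 c1 c2 : ℝ} (h0 : 0 < η) (h4 : η ≤ 1 / 4) (k2 : 2.0794 ≤ l)
    (k4 : η * l ≤ η * 1.0795 + 1 / 4) (z1 : 1.098 - 0.36 * η ≤ c0) (z2 : c0 ≤ 1.099 - 0.24 * η)
    (z3 : 0.045 - 0.29 * η ≤ c1) (hc : 0 ≤ c2) (hc' : c2 ≤ 1 - η / 4) :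
    SAgoal η (l + c2) ((1 - η / 2) * l + c1) (η * l + c0) := by
  obtain ⟨t, ht⟩ : ∃ t, l = t + 2.0794 := ⟨l - 2.0794, by ring⟩
  have ht0 : 0 ≤ t := by linarith only [k2, ht]
  have ht1 : 0 ≤ (1 - η / 2) * t := mul_nonneg (by linarith only [h4]) ht0
  have ht2 : 0 ≤ η * l := mul_nonneg h0.le (by linarith only [k2])
  have ht3 : 0 ≤ (1 / 4 - η) * t := mul_nonneg (by linarith only [h4]) ht0
  have M2 : 112 / 125 * (t + (3.0794 - η / 4)) ≤ 2 * ((1 - η / 2) * t + (2.1244 - 1.3297 * η)) := by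
    linarith only [h4, ht1, ht3]
  refine sa_final (G1 := (1 - η / 2) * t + (2.1244 - 1.3297 * η))
      (β1 := t + (3.0794 - η / 4)) (D1 := η * (t + 2.0794) + 1.098 - 0.36 * η)
      (D2 := 1.349 + 0.84 * η) h0 (by linarith only [h4]) (by linarith only [k2, hc]) (by linarith only [hc', ht]) (by linarith only [h4, ht1]) ?_ ?_ ?_
      (by linarith only [h0, k4, z2]) (sa_poly1 h0.le h4 ht0) (sa_poly2 h0.le h4 ht0) (by linarith only [h4, ht1]) M2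
  · rw [ht]; linarith only [z3]
  · rw [← ht]; linarith only [h4, ht2]
  · rw [← ht]; linarith only [z1]

lemma sa_core_mid {η u l c0 c1 c2 : ℝ} (hu : η = 1 / 4 + u) (hu0 : 0 ≤ u) (hu1 : u ≤ 1 / 20)
    (k1 : 2.0749 - 3.64 * u ≤ l) (k2 : l ≤ 2.0797 - 3.64 * u) (z1 : 1.0085 - 0.51 * u ≤ c0)
    (z2 : c0 ≤ 1.0099 - 0.49 * u)
    (z3 : -0.0203 - 0.22 * u ≤ c1) (hc : 0 ≤ c2) (hc' : c2 ≤ 1 - η / 4) :
    SAgoal η (l + c2) ((1 - η / 2) * l + c1) (η * l + c0) := by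
  have h0 : 0 < η := by linarith only [hu, hu0]
  obtain ⟨t, ht⟩ : ∃ t, l = t + (2.0749 - 3.64 * u) := ⟨l - (2.0749 - 3.64 * u), by ring⟩
  have ht0 : 0 ≤ t := by linarith only [k1, ht]
  have ht1 : t ≤ 1 / 200 := by linarith only [k2, ht]
  have r1 : (1:ℝ) - η / 2 = 7 / 8 - u / 2 := by rw [hu]; ring
  have r2 : (1:ℝ) - η / 4 = 15 / 16 - u / 4 := by rw [hu]; ring
  have hηl : η * l ≤ η * (2.0797 - 3.64 * u) := mul_le_mul_of_nonneg_left k2 h0.le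
  have hηl' : 0 ≤ η * l := mul_nonneg h0.le (by linarith only [k1, hu1])
  have w1 : 1.5 ≤ (7 / 8 - u / 2) * (2.0749 - 3.64 * u) - 0.0203 - 0.22 * u := by
    nlinarith only [hu1]
  have w2 : 0 ≤ (7 / 8 - u / 2) * t := mul_nonneg (by linarith only [hu1]) ht0
  have w3 : (1 / 4 + u) * (2.0797 - 3.64 * u) + 1.0099 - 0.49 * u ≤ 1.6 := by
    nlinarith only [hu1]
  have w4 : t ≤ (7 / 8 - u / 2) * t + (1 / 10) * t + t / 20 := by nlinarith only [ht, hu1, k1]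
  refine sa_final (G1 := (7 / 8 - u / 2) * t + ((7 / 8 - u / 2) * (2.0749 - 3.64 * u)
      - 0.0203 - 0.22 * u))
    (β1 := t + (3.0124 - 3.89 * u))
    (D1 := (1 / 4 + u) * (t + (2.0749 - 3.64 * u)) + 1.0085 - 0.51 * u)
    (D2 := (1 / 4 + u) * (2.0797 - 3.64 * u) + 1.0099 - 0.49 * u) h0 (by linarith only [hu, hu1]) (by linarith only [hu1, k1, hc])
    (by linarith only [hu, hc', ht]) (by linarith only [hu1, w2, w3]) ?_ ?_ ?_ ?_ ?_ ?_ (by linarith only [hu1, w2, w3]) (by linarith only [hu1, k2, ht, w2, w3])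
  · rw [r1, ht]; linarith only [z3]
  · rw [← ht, ← hu]; linarith only [hu1, hηl']
  · rw [← ht, ← hu]; linarith only [z1]
  · rw [← hu]; linarith only [hηl, z2]
  · rw [r1]; exact sa_poly3 hu0 hu1 ht0
  · rw [r1, r2]; exact sa_poly4 hu0 hu1 ht0 ht1

lemma sa_log_mid {u : ℝ} (hu0 : 0 ≤ u) (hu1 : u ≤ 1 / 20) :
    3.64 * u - 0.00025 ≤ Real.log (1 + 4 * u) ∧ Real.log (1 + 4 * u) ≤ 0.0044145 + 3.64 * u := by
  constructor
  · have a1 := Real.le_log_one_add_of_nonneg (x := 4 * u) (by linarith)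
    have a2 : 3.64 * u - 0.00025 ≤ 2 * (4 * u) / (4 * u + 2) := by
      rw [le_div_iff₀ (by linarith)]
      nlinarith only [hu1, hu0]
    linarith
  · have a1 := sa_log_upper (v := 0.09) (by norm_num) (by norm_num)
    have a2 : Real.log ((1 + 4 * u) * (1 - 0.09)) ≤ (1 + 4 * u) * (1 - 0.09) - 1 :=
      Real.log_le_sub_one_of_pos (by linarith only [hu0])
    rw [Real.log_mul (by linarith only [hu0]) (by norm_num)] at a2
    norm_num at a1 a2 ⊢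
    linarith only [a2, a1]

lemma sa_log8 {η : ℝ} (h0 : 0 < η) :
    Real.log (2 / η) = 3 * Real.log 2 - Real.log (4 * η) := by
  rw [Real.log_div (by norm_num) h0.ne', Real.log_mul (by norm_num) h0.ne',
      show (4:ℝ) = 2 ^ 2 by norm_num, Real.log_pow]
  push_cast; ring

lemma sa_goal {η : ℝ} (h0 : 0 < η) (h3 : η ≤ 3 / 10) :
    SAgoal η (Real.log (2 / η) + 2 / η * (-((1 - η / 2) * Real.log (1 - η / 2))))
      ((1 - η / 2) * Real.log (2 / η) + saC1 η) (η * Real.log (2 / η) + saC0 η) := by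
  have hη2 : 0 < 2 / η := by positivity
  have hβ1 : 2 / η * (-((1 - η / 2) * Real.log (1 - η / 2))) ≤ 1 - η / 4 := by
    have a := mul_le_mul_of_nonneg_left (sa_P_upper (v := η / 2) (by linarith) (by linarith)) hη2.le
    have : 2 / η * (η / 2 - (η / 2) ^ 2 / 2) = 1 - η / 4 := by field_simp; ring
    linarith
  have hβ0 : 0 ≤ 2 / η * (-((1 - η / 2) * Real.log (1 - η / 2))) := by
    apply mul_nonneg hη2.le
    have : Real.log (1 - η / 2) ≤ 0 := Real.log_nonpos (by linarith only [h3]) (by linarith)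
    nlinarith only [this, h3]
  have l2 := Real.log_two_gt_d9
  have l2' := Real.log_two_lt_d9
  have hl8 := sa_log8 h0
  rcases le_total η (1 / 4) with h4 | h4
  · have k1 : Real.log (4 * η) ≤ 0 := Real.log_nonpos (by linarith only [h0]) (by linarith only [h4])
    have k3 : 1 - (4 * η)⁻¹ ≤ Real.log (4 * η) := Real.one_sub_inv_le_log_of_pos (by linarith only [h0])
    have k4 : η * Real.log (2 / η) ≤ η * 1.0795 + 1 / 4 := by
      have h5 := mul_le_mul_of_nonneg_left (show Real.log (2 / η) ≤ 1.0795 + (4 * η)⁻¹ by linarith only [l2', hl8, k3])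
        h0.le
      have h6 : η * (4 * η)⁻¹ = 1 / 4 := by field_simp
      linarith only [h6, h5]
    obtain ⟨z1, z2⟩ := saC0_lin h0 h4
    exact sa_core_low h0 h4 (by linarith only [l2, hl8, k1]) k4 z1 z2 (saC1_lin h0 h4) hβ0 hβ1
  · obtain ⟨z1, z2⟩ := saC0_lin2 h4 h3
    obtain ⟨y1, y2⟩ := sa_log_mid (u := η - 1 / 4) (by linarith only [h4]) (by linarith only [h3])
    have e : 1 + 4 * (η - 1 / 4) = 4 * η := by ring
    rw [e] at y1 y2
    exact sa_core_mid (u := η - 1 / 4) (by ring) (by linarith only [h4]) (by linarith only [h3]) (by linarith only [l2, hl8, y2])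
      (by linarith only [y1, hl8, l2']) z1 z2 (saC1_lin2 h4 h3) hβ0 hβ1

theorem SA2 {ρ : ℝ} (h1 : 7 / 10 ≤ ρ) (h2 : ρ < 1) :
    112 / 125 * HH ρ ^ 2 * ((1 + ρ) / 2) ^ 3 *
        ((Real.log (1 + (1 + ρ) / 2) - Real.log (1 - (1 + ρ) / 2)) / 2
          - ρ * (Real.log (1 + ρ * ((1 + ρ) / 2)) - Real.log (1 - ρ * ((1 + ρ) / 2))) / 2)
      ≤ 2 * Real.log 2 * (HH (ρ * ((1 + ρ) / 2)) - HH ((1 + ρ) / 2)) ^ 2 ∧
    2 * (HH (ρ * ((1 + ρ) / 2)) - HH ((1 + ρ) / 2)) *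
        (112 / 125 * HH ρ - (HH (ρ * ((1 + ρ) / 2)) - HH ((1 + ρ) / 2)))
      ≤ 112 / 125 * HH ρ * ((1 + ρ) / 2) * (1 - ((1 + ρ) / 2) ^ 2) *
        ((Real.log (1 + (1 + ρ) / 2) - Real.log (1 - (1 + ρ) / 2)) / 2
          - ρ * (Real.log (1 + ρ * ((1 + ρ) / 2)) - Real.log (1 - ρ * ((1 + ρ) / 2))) / 2) := by
  obtain ⟨η, rfl⟩ : ∃ η, ρ = 1 - η := ⟨1 - ρ, by ring⟩
  have h0 : 0 < η := by linarith
  have h3 : η ≤ 3 / 10 := by linarith
  have hx : (1 + (1 - η)) / 2 = 1 - η / 2 := by ring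
  rw [hx]
  obtain ⟨d1, d2, d3⟩ := sa_decomp h0 h3
  have d2' : HH ((1 - η) * (1 - η / 2)) - HH (1 - η / 2) = η / 2 * ((1 - η / 2) * Real.log (2 / η)
      + saC1 η) := by
    rw [d2]; unfold saC1; ring
  have d3' : (Real.log (1 + (1 - η / 2)) - Real.log (1 - (1 - η / 2))) / 2
      - (1 - η) * (Real.log (1 + (1 - η) * (1 - η / 2)) - Real.log (1 - (1 - η) * (1 - η / 2))) / 2
      = (η * Real.log (2 / η) + saC0 η) / 2 := by
    rw [d3]; unfold saC0; ring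
  rw [d1, d2', d3']
  exact sa_goal h0 h3

end Vale.Agent.P322
end
end

section

section

/-! From a polynomial inequality to the scalar inequality of regime B at `ρ = 3/4`. -/

namespace Vale.Agent.P322

open Real Filter Topology

/-- `K(a,c) = (1+a)/2 φ(c/(1+a)) + (1-a)/2 φ(c/(1-a))`. -/
noncomputable def KK (a c : ℝ) : ℝ := (1 + a) / 2 * ph (c / (1 + a)) + (1 - a) / 2 * ph (c / (1 - a))

lemma KK_eq (a c : ℝ) :
    KK a c = (1 + a) / 2 * ph (c / (1 + a)) + (1 - a) / 2 * ph (c / (1 - a)) := rfl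

/-- The scalar inequality (II0) at `ρ = 3/4`. -/
def II34 (μ d : ℝ) : Prop :=
  NN μ (3 / 4 * d) * ((Real.log 2 - ph (3 / 4) / (9 / 16)) * d ^ 2
      - (KK μ d - KK μ (3 / 4 * d) / (9 / 16)))
    ≤ (HH μ - (Real.log 2 - ph (3 / 4) / (9 / 16)) * (1 - μ ^ 2) - KK μ (3 / 4 * d) / (9 / 16))
      * (NN μ d - NN μ (3 / 4 * d))

lemma NN_formula {a x : ℝ} (h1 : 0 < 1 + a) (h2 : 0 ≤ x) (h3 : x < 1 + a) :
    NN a x = -Real.log ((1 + a) / 2) - Real.log (1 - (x / (1 + a)) ^ 2) / 2 := by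
  have e1 : (1 + a + x) * (1 + a - x) = (1 + a) ^ 2 * (1 - (x / (1 + a)) ^ 2) := by
    field_simp
    ring
  have h4 : 0 < 1 + a + x := by linarith
  have h5 : 0 < 1 + a - x := by linarith
  have h6 : 0 < 1 - (x / (1 + a)) ^ 2 := by
    have : x / (1 + a) < 1 := (div_lt_one h1).mpr h3
    have h0 : 0 ≤ x / (1 + a) := by positivity
    nlinarith only [e1, h3, h2]
  have e2 : Real.log (1 + a + x) + Real.log (1 + a - x)
      = 2 * Real.log (1 + a) + Real.log (1 - (x / (1 + a)) ^ 2) := by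
    rw [← Real.log_mul h4.ne' h5.ne', e1, Real.log_mul (by positivity) h6.ne', Real.log_pow]
    norm_num
  rw [NN_eq, Lp_eq, e2, Real.log_div h1.ne' (by norm_num)]
  ring

lemma HH_formula (a : ℝ) :
    HH a = -((1 + a) / 2 * Real.log ((1 + a) / 2)) - (1 - a) / 2 * Real.log ((1 - a) / 2) := by
  unfold HH
  rw [Real.binEntropy_eq_negMulLog_add_negMulLog_one_sub]
  have e : 1 - (1 + a) / 2 = (1 - a) / 2 := by ring
  rw [e]
  simp only [Real.negMulLog]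
  ring

lemma asm_alg1 {p q y : ℝ} (hp : p ≠ 0) :
    4 * q * y * (1308 / 10000 * q * p ^ 3 - 1 / 4 * (7 / 192 * y * (p ^ 3 + q ^ 3)
            + (35 / 1536 * y ^ 2 + 481 / 32768 * y ^ 3) * p ^ 3)) / p ^ 3
      = 1308 / 10000 * (4 * q ^ 2 * y)
        - (q * (7 / 192 * y ^ 2 + 35 / 1536 * y ^ 3 + 481 / 32768 * y ^ 4)
          + p * (7 / 192 * (q ^ 2 * y / p ^ 2) ^ 2)) := by
  field_simp
  ring

lemma asm_alg2 {p q y : ℝ} (hp : p ≠ 0) :
    p * ((q ^ 2 * y / p ^ 2) / 2 + 63 / 1000 * (q ^ 2 * y / p ^ 2) ^ 2)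
      = q ^ 2 * y / (2 * p) + 63 / 1000 * (q * y ^ 2 * (q ^ 3 / p ^ 3)) := by
  field_simp

lemma asm_alg3 {p q y I : ℝ} (hp : p ≠ 0) :
    (p * I - q ^ 2 * y / 2) / p = I - q ^ 2 * y / (2 * p) := by
  field_simp

lemma asm_alg4 {p q y : ℝ} (hp : p ≠ 0) :
    q ^ 2 * y * (7 / 16 * p ^ 2 + 175 / 512 * q ^ 2 * y) / (2 * p ^ 4)
      = 1 / 2 * (7 / 16 * (q ^ 2 * y / p ^ 2) + 175 / 512 * (q ^ 2 * y / p ^ 2) ^ 2) := by
  field_simp

lemma asm_alg5 {p q y up : ℝ} (hp : p ≠ 0) :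
    (p ^ 2 * up + 3045 / 10000 * q ^ 2 * y) / p ^ 2 = up + 3045 / 10000 * (q ^ 2 * y / p ^ 2) := by
  field_simp

lemma asm_alg6 {p q y T M : ℝ} (hp : p ≠ 0) :
    T / p ^ 2 * (4 * q * y * M / p ^ 3) = (8 * T * M) * (q * y / (2 * p ^ 5)) := by
  field_simp
  ring

lemma asm_alg7 {p q y A I : ℝ} (hp : p ≠ 0) :
    (q * A * I) * (q * y / (2 * p ^ 5)) = I / p * (q ^ 2 * y * A / (2 * p ^ 4)) := by
  field_simp

/-- bounds for the noise quantities. -/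
lemma asm_bounds {p q y d : ℝ} (hp : p = 1 - q) (hq0 : 0 < q) (hq1 : q ≤ 1 / 2) (hy0 : 0 < y)
    (hd : d ^ 2 = 4 * q ^ 2 * y) (hd0 : 0 < d) (hd1 : d ≤ 1 / 2) (hd2 : d ≤ 2 * q) :
    (KK (1 - 2 * q) (3 / 4 * d) / (9 / 16)
      ≤ p * ((q ^ 2 * y / p ^ 2) / 2 + 63 / 1000 * (q ^ 2 * y / p ^ 2) ^ 2)
        + q * (y / 2 + 63 / 1000 * y ^ 2)) ∧
    (q * (7 / 192 * y ^ 2 + 35 / 1536 * y ^ 3 + 481 / 32768 * y ^ 4)
        + p * (7 / 192 * (q ^ 2 * y / p ^ 2) ^ 2)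
      ≤ KK (1 - 2 * q) d - KK (1 - 2 * q) (3 / 4 * d) / (9 / 16)) := by
  have hp0 : 0 < p := by rw [hp]; linarith
  have hp1 : 1 / 2 ≤ p := by rw [hp]; linarith
  have hm1 : 1 + (1 - 2 * q) = 2 * p := by rw [hp]; ring
  have hm2 : 1 - (1 - 2 * q) = 2 * q := by ring
  obtain ⟨X, hX⟩ : ∃ X : ℝ, X = q ^ 2 * y / p ^ 2 := ⟨_, rfl⟩
  obtain ⟨u, hu⟩ : ∃ u : ℝ, u = d / (2 * p) := ⟨_, rfl⟩
  obtain ⟨v, hv⟩ : ∃ v : ℝ, v = d / (2 * q) := ⟨_, rfl⟩
  have hu0 : 0 < u := by rw [hu]; positivity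
  have hv0 : 0 < v := by rw [hv]; positivity
  have hu2 : u ^ 2 = X := by rw [hu, div_pow, hd, hX]; field_simp; norm_num
  have hv2 : v ^ 2 = y := by rw [hv, div_pow, hd]; field_simp; norm_num
  have hv1 : v ≤ 1 := by rw [hv, div_le_one (by positivity)]; exact hd2
  have hu1 : u ≤ 1 / 2 := by
    rw [hu, div_le_iff₀ (by positivity)]
    linarith only [hp, hq1, hd1]
  have hX0 : 0 ≤ X := by rw [← hu2]; positivity
  rw [← hX]
  have hKd : KK (1 - 2 * q) d = p * ph u + q * ph v := by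
    rw [KK_eq, hm1, hm2, ← hu, ← hv]; ring
  have hK3 : KK (1 - 2 * q) (3 / 4 * d) = p * ph (3 / 4 * u) + q * ph (3 / 4 * v) := by
    rw [KK_eq, hm1, hm2]
    have e1 : 3 / 4 * d / (2 * p) = 3 / 4 * u := by rw [hu]; ring
    have e2 : 3 / 4 * d / (2 * q) = 3 / 4 * v := by rw [hv]; ring
    rw [e1, e2]; ring
  have b1 := pt_ph_le (x := 3 / 4 * u) (by rw [abs_of_nonneg (by positivity)]; linarith only [hu1])
  have b2 := pt_ph_le (x := 3 / 4 * v) (by rw [abs_of_nonneg (by positivity)]; linarith only [hv1])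
  have b3 := pt_diff_ge hu0.le (by linarith only [hu1] : u ≤ 1)
  have b4 := pt_diff_ge hv0.le hv1
  have eu4 : u ^ 4 = X ^ 2 := by rw [← hu2]; ring
  have ev4 : v ^ 4 = y ^ 2 := by rw [← hv2]; ring
  have eu6 : u ^ 6 = X ^ 3 := by rw [← hu2]; ring
  have ev6 : v ^ 6 = y ^ 3 := by rw [← hv2]; ring
  have eu8 : u ^ 8 = X ^ 4 := by rw [← hu2]; ring
  have ev8 : v ^ 8 = y ^ 4 := by rw [← hv2]; ring
  rw [eu4, eu6, eu8] at b3
  rw [ev4, ev6, ev8] at b4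
  have b1' : ph (3 / 4 * u) / (9 / 16) ≤ X / 2 + 63 / 1000 * X ^ 2 := by
    rw [div_le_iff₀ (by norm_num)]
    have e : (3 / 4 * u) ^ 2 / 2 + 112 / 1000 * (3 / 4 * u) ^ 4
      = (X / 2 + 63 / 1000 * X ^ 2) * (9 / 16) := by
      rw [← hu2]; ring
    rw [← e]; exact b1
  have b2' : ph (3 / 4 * v) / (9 / 16) ≤ y / 2 + 63 / 1000 * y ^ 2 := by
    rw [div_le_iff₀ (by norm_num)]
    have e : (3 / 4 * v) ^ 2 / 2 + 112 / 1000 * (3 / 4 * v) ^ 4
      = (y / 2 + 63 / 1000 * y ^ 2) * (9 / 16) := by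
      rw [← hv2]; ring
    rw [← e]; exact b2
  rw [hKd, hK3]
  constructor
  · rw [add_div, mul_div_assoc, mul_div_assoc]
    exact add_le_add (mul_le_mul_of_nonneg_left b1' hp0.le) (mul_le_mul_of_nonneg_left b2' hq0.le)
  · have h1 : 7 / 192 * X ^ 2 ≤ ph u - ph (3 / 4 * u) / (9 / 16) := by
      have : 0 ≤ X ^ 3 := by (clear * - hX0; positivity)
      have : 0 ≤ X ^ 4 := by positivity
      linarith
    have h2 := mul_le_mul_of_nonneg_left h1 hp0.le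
    have h3 := mul_le_mul_of_nonneg_left b4 hq0.le
    have e : p * ph u + q * ph v - (p * ph (3 / 4 * u) + q * ph (3 / 4 * v)) / (9 / 16)
      = p * (ph u - ph (3 / 4 * u) / (9 / 16)) + q * (ph v - ph (3 / 4 * v) / (9 / 16)) := by ring
    rw [e]; linarith only [h2, h3]

/-- bounds for the two relative entropies. -/
lemma asm_NN {p q y d up : ℝ} (hp : p = 1 - q) (hq0 : 0 < q) (hq1 : q ≤ 1 / 2) (hy0 : 0 < y)
    (hd : d ^ 2 = 4 * q ^ 2 * y) (hd0 : 0 < d) (hd1 : d ≤ 1 / 2) (hup : -Real.log p ≤ up) :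
    0 ≤ NN (1 - 2 * q) (3 / 4 * d) ∧
    NN (1 - 2 * q) (3 / 4 * d) ≤ up + 3045 / 10000 * (q ^ 2 * y / p ^ 2) ∧
    1 / 2 * (7 / 16 * (q ^ 2 * y / p ^ 2) + 175 / 512 * (q ^ 2 * y / p ^ 2) ^ 2)
      ≤ NN (1 - 2 * q) d - NN (1 - 2 * q) (3 / 4 * d) := by
  have hp0 : 0 < p := by rw [hp]; linarith
  have hp1 : 1 / 2 ≤ p := by rw [hp]; linarith
  have hplt : p < 1 := by rw [hp]; linarith
  have hm1 : 1 + (1 - 2 * q) = 2 * p := by rw [hp]; ring
  obtain ⟨X, hX⟩ : ∃ X : ℝ, X = q ^ 2 * y / p ^ 2 := ⟨_, rfl⟩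
  have hX' : (d / (2 * p)) ^ 2 = X := by rw [div_pow, hd, hX]; field_simp; norm_num
  have hX0 : 0 < X := by rw [hX]; positivity
  have hX1 : X ≤ 1 / 4 := by
    rw [← hX', div_pow, div_le_iff₀ (by positivity)]
    nlinarith only [hp, hq1, hd1, hd0]
  rw [← hX]
  have hNr : NN (1 - 2 * q) (3 / 4 * d) = -Real.log p - Real.log (1 - 9 / 16 * X) / 2 := by
    rw [NN_formula (by rw [hm1]; positivity) (by positivity) (by rw [hm1]; linarith only [hp, hq1, hd1]), hm1]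
    have e1 : 2 * p / 2 = p := by ring
    have e2 : (3 / 4 * d / (2 * p)) ^ 2 = 9 / 16 * X := by rw [← hX']; ring
    rw [e1, e2]
  have hN1 : NN (1 - 2 * q) d = -Real.log p - Real.log (1 - X) / 2 := by
    rw [NN_formula (by rw [hm1]; positivity) (by positivity) (by rw [hm1]; linarith only [hp, hq1, hd1]), hm1]
    have e1 : 2 * p / 2 = p := by ring
    rw [e1, hX']
  rw [hNr, hN1]
  refine ⟨?_, ?_, ?_⟩
  · have h1 : Real.log p ≤ 0 := Real.log_nonpos hp0.le hplt.le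
    have h2 : Real.log (1 - 9 / 16 * X) ≤ 0 := Real.log_nonpos (by linarith only [hX1]) (by linarith only [hX0])
    linarith only [h1, h2]
  · have h1 := pt_log_le (u := 9 / 16 * X) (by positivity) (by linarith only [hX1])
    linarith only [hup, hX0, h1]
  · have := pt_log_diff hX0.le (by linarith only [hX1] : X < 1)
    linarith only [this]

/-- In the trivial case, the first factor is nonnegative. -/
lemma asm_trivial {p q y : ℝ} (hp : p = 1 - q) (hq0 : 0 < q) (hq1 : q ≤ 1 / 2) (hy0 : 0 < y)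
    (hy1 : y ≤ 1) (hqy : 16 * q ^ 2 * y ≤ 1) :
    p * ((q ^ 2 * y / p ^ 2) / 2 + 63 / 1000 * (q ^ 2 * y / p ^ 2) ^ 2)
        + q * (y / 2 + 63 / 1000 * y ^ 2)
      ≤ p * (q + q ^ 2 / 2) + q * (69 / 100) - 4 * (1308 / 10000) * p * q := by
  have hp0 : 0 < p := by rw [hp]; linarith
  have hp1 : 1 / 2 ≤ p := by rw [hp]; linarith only [hq1]
  rw [asm_alg2 hp0.ne']
  have hg : q ^ 3 / p ^ 3 ≤ q / p := by
    rw [div_le_div_iff₀ (by positivity) hp0]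
    have h1 : q ^ 2 ≤ p ^ 2 := pow_le_pow_left₀ hq0.le (by rw [hp]; linarith) 2
    linarith only [mul_nonneg (sub_nonneg.2 h1) (sub_nonneg.2 (mul_nonneg hq0.le hp0.le))]
  have h0 : 0 ≤ q * y / p := by positivity
  have hy2 : y ^ 2 ≤ y := by nlinarith only [hy0, hy1]
  have h1 : 63 / 1000 * (q * y ^ 2 * (q ^ 3 / p ^ 3)) ≤ 63 / 1000 * (q * y * (q / p)) := by
    have a1 : q * y ^ 2 ≤ q * y := mul_le_mul_of_nonneg_left hy2 hq0.le
    have a2 : q * y ^ 2 * (q ^ 3 / p ^ 3) ≤ q * y * (q / p) :=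
      mul_le_mul a1 hg (by positivity) (by positivity)
    linarith only [a2]
  have h2 : q ^ 2 * y / (2 * p) + 63 / 1000 * (q * y * (q / p)) + q * (y / 2 + 63 / 1000 * y ^ 2)
      ≤ 563 / 1000 * (q * y / p) := by
    have e : 563 / 1000 * (q * y / p)
        = q ^ 2 * y / (2 * p) + 63 / 1000 * (q * y * (q / p)) + q * (563 / 1000 * y) := by
      have : p + q = 1 := by rw [hp]; ring
      field_simp
      have e3 : q = 1 - p := by linarith only [hp]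
      rw [e3]; ring
    rw [e]
    have : q * (y / 2 + 63 / 1000 * y ^ 2) ≤ q * (563 / 1000 * y) :=
      mul_le_mul_of_nonneg_left (by linarith only [hy2]) hq0.le
    linarith only [this]
  have h3 : 563 / 1000 * (q * y / p)
      ≤ p * (q + q ^ 2 / 2) + q * (69 / 100) - 4 * (1308 / 10000) * p * q := by
    rw [← mul_div_assoc, div_le_iff₀ hp0]
    have h2 : 563 / 1000 * y ≤ ((p * (1 + q / 2)) + 69 / 100 - 4 * (1308 / 10000) * p) * p := by
      have hb : p * (1 + q / 2) + 69 / 100 - 4 * (1308 / 10000) * p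
        = 11668 / 10000 + 232 / 10000 * q - q ^ 2 / 2 := by rw [hp]; ring
      rw [hb]
      rcases le_or_gt q (1 / 4) with h4 | h4
      · have : 3 / 4 ≤ p := by rw [hp]; linarith only [h4]
        have h5 : 1 ≤ 11668 / 10000 + 232 / 10000 * q - q ^ 2 / 2 := by nlinarith only [hq0, h4]
        nlinarith only [hp, hq0, hy1, h4]
      · have h5 : 1 ≤ 11668 / 10000 + 232 / 10000 * q - q ^ 2 / 2 := by nlinarith only [hq1, hq0]
        have h6 : 563 / 1000 * y ≤ p := by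
          have h7 : 3 / 4 ≤ 16 * q ^ 2 * p := by
            rw [hp]
            nlinarith only [h4, mul_nonneg (by linarith only [h4] : 0 ≤ q - 1 / 4) (by linarith only [hq1] : 0 ≤ 1 / 2 - q)]
          have h8 : 16 * q ^ 2 * (563 / 1000 * y) ≤ 16 * q ^ 2 * p := by linarith only [hqy, h7]
          exact le_of_mul_le_mul_left h8 (by positivity)
        nlinarith only [hq1, hb, h6, hq0]
    have := mul_le_mul_of_nonneg_left h2 hq0.le
    linarith only [this]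
  linarith

/-- The scalar inequality at `ρ = 3/4` from a polynomial inequality. -/
lemma assemble {q y d lo up la γ : ℝ} (hq0 : 0 < q) (hq1 : q ≤ 1 / 2) (hy0 : 0 < y)
    (hd : d ^ 2 = 4 * q ^ 2 * y) (hd0 : 0 < d) (hd1 : d ≤ 1 / 2) (hd2 : d ≤ 2 * q)
    (hlo : lo ≤ -Real.log (1 - q)) (hup : -Real.log (1 - q) ≤ up) (hla : la ≤ -Real.log q)
    (hγ : q ^ 3 ≤ γ * (1 - q) ^ 3)
    (H : 8 * ((1 - q) ^ 2 * up + 3045 / 10000 * q ^ 2 * y)
          * (1308 / 10000 * q * (1 - q) ^ 3 - 1 / 4 * (7 / 192 * y * ((1 - q) ^ 3 + q ^ 3)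
            + (35 / 1536 * y ^ 2 + 481 / 32768 * y ^ 3) * (1 - q) ^ 3))
        ≤ q * (7 / 16 * (1 - q) ^ 2 + 175 / 512 * q ^ 2 * y)
          * ((1 - q) * ((1 - q) * lo + q * la - 4 * (1308 / 10000) * (1 - q) * q
            - q * (y / 2 + (1 + γ) * (63 / 1000) * y ^ 2)) - q ^ 2 * y / 2)) :
    II34 (1 - 2 * q) d := by
  obtain ⟨p, hp⟩ : ∃ p : ℝ, p = 1 - q := ⟨_, rfl⟩
  rw [← hp] at hlo hup hγ H
  have hp0 : 0 < p := by rw [hp]; linarith only [hq1]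
  have hplt : p < 1 := by rw [hp]; linarith only [hq0]
  have hy1 : y ≤ 1 := by
    have : d ^ 2 ≤ (2 * q) ^ 2 := pow_le_pow_left₀ hd0.le hd2 2
    rw [hd] at this
    have hq2 : 0 < 4 * q ^ 2 := by positivity
    (by_contra nlg; linarith only [nlg, mul_pos (sub_pos.2 (not_le.1 nlg)) (sub_pos.2 hq2), this])
  have hqy : 16 * q ^ 2 * y ≤ 1 := by
    have : d ^ 2 ≤ (1 / 2) ^ 2 := pow_le_pow_left₀ hd0.le hd1 2
    rw [hd] at this
    linarith only [this]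
  obtain ⟨hQle, hIQ⟩ := asm_bounds hp hq0 hq1 hy0 hd hd0 hd1 hd2
  obtain ⟨hNr0, hNrle, hDn⟩ := asm_NN hp hq0 hq1 hy0 hd hd0 hd1 hup
  have hk := pt_k_le
  unfold II34
  generalize Real.log 2 - ph (3 / 4) / (9 / 16) = k at hk ⊢
  generalize KK (1 - 2 * q) (3 / 4 * d) / (9 / 16) = Qt at hQle hIQ ⊢
  have hm1 : (1 + (1 - 2 * q)) / 2 = p := by rw [hp]; ring
  have hm2 : (1 - (1 - 2 * q)) / 2 = q := by ring
  have hHH : HH (1 - 2 * q) = p * (-Real.log p) + q * (-Real.log q) := by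
    rw [HH_formula, hm1, hm2]; ring
  obtain ⟨E1, hE1⟩ : ∃ E1, E1 = k * d ^ 2 - (KK (1 - 2 * q) d - Qt) := ⟨_, rfl⟩
  rw [← hE1]
  obtain ⟨M, hM⟩ : ∃ M, M = 1308 / 10000 * q * p ^ 3 - 1 / 4 * (7 / 192 * y * (p ^ 3 + q ^ 3)
            + (35 / 1536 * y ^ 2 + 481 / 32768 * y ^ 3) * p ^ 3) := ⟨_, rfl⟩
  have hE1le : E1 ≤ 4 * q * y * M / p ^ 3 := by
    have h1 : k * d ^ 2 ≤ 1308 / 10000 * (4 * q ^ 2 * y) := by
      rw [hd]; exact mul_le_mul_of_nonneg_right hk (by positivity)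
    rw [hM, asm_alg1 hp0.ne', hE1]
    linarith only [hIQ, h1]
  rw [← hM] at H
  have hDn0 : 0 ≤ NN (1 - 2 * q) d - NN (1 - 2 * q) (3 / 4 * d) :=
    le_trans (by positivity) hDn
  have hkpq : k * (1 - (1 - 2 * q) ^ 2) ≤ 4 * (1308 / 10000) * p * q := by
    have e : 1 - (1 - 2 * q) ^ 2 = 4 * p * q := by rw [hp]; ring
    rw [e]
    have := mul_le_mul_of_nonneg_right hk (by positivity : 0 ≤ 4 * p * q)
    linarith only [this]
  obtain ⟨W, hW⟩ : ∃ W, W = HH (1 - 2 * q) - k * (1 - (1 - 2 * q) ^ 2) := ⟨_, rfl⟩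
  rw [← hW]
  generalize NN (1 - 2 * q) (3 / 4 * d) = N3 at hNr0 hNrle hDn hDn0 ⊢
  generalize NN (1 - 2 * q) d = N1 at hDn hDn0 ⊢
  rcases le_or_gt M 0 with hMn | hMp
  · -- trivial case
    have hE : E1 ≤ 0 := by
      refine hE1le.trans ?_
      apply div_nonpos_of_nonpos_of_nonneg _ (by positivity)
      exact mul_nonpos_of_nonneg_of_nonpos (by positivity) hMn
    have hWQ : 0 ≤ W - Qt := by
      have l1 : q + q ^ 2 / 2 ≤ -Real.log p := by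
        have hs := sum_le_hasSum (Finset.range 2) (fun i _ => by positivity)
          (Real.hasSum_pow_div_log_of_abs_lt_one (x := q) (by rw [abs_of_pos hq0]; linarith only [hq1]))
        simp only [Finset.sum_range_succ, Finset.sum_range_zero] at hs
        norm_num at hs
        rw [← hp] at hs
        linarith only [hs]
      have l2 : (69 / 100 : ℝ) ≤ -Real.log q := by
        have h1 : Real.log q ≤ Real.log (1 / 2) := Real.log_le_log hq0 hq1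
        have h2 : Real.log (1 / 2) = -Real.log 2 := by
          rw [one_div, Real.log_inv]
        have := Real.log_two_gt_d9
        linarith only [h1, h2, this]
      have hH : p * (q + q ^ 2 / 2) + q * (69 / 100) ≤ HH (1 - 2 * q) := by
        rw [hHH]
        exact add_le_add (mul_le_mul_of_nonneg_left l1 hp0.le) (mul_le_mul_of_nonneg_left l2 hq0.le)
      have := asm_trivial hp hq0 hq1 hy0 hy1 hqy
      rw [hW]
      linarith only [this, hH, hkpq, hQle]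
    have hl : N3 * E1 ≤ 0 := mul_nonpos_of_nonneg_of_nonpos hNr0 hE
    exact hl.trans (mul_nonneg hWQ hDn0)
  · -- main case
    obtain ⟨I, hI⟩ : ∃ I, I = p * lo + q * la - 4 * (1308 / 10000) * p * q
            - q * (y / 2 + (1 + γ) * (63 / 1000) * y ^ 2) := ⟨_, rfl⟩
    obtain ⟨inner, hinner⟩ : ∃ inner, inner = p * I - q ^ 2 * y / 2 := ⟨_, rfl⟩
    obtain ⟨A, hA⟩ : ∃ A, A = 7 / 16 * p ^ 2 + 175 / 512 * q ^ 2 * y := ⟨_, rfl⟩
    obtain ⟨T, hT⟩ : ∃ T, T = p ^ 2 * up + 3045 / 10000 * q ^ 2 * y := ⟨_, rfl⟩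
    rw [← hI, ← hinner, ← hA, ← hT] at H
    have hA0 : 0 < A := by rw [hA]; positivity
    have hWQ : inner / p ≤ W - Qt := by
      have h1 : p * lo + q * la ≤ HH (1 - 2 * q) := by
        rw [hHH]
        exact add_le_add (mul_le_mul_of_nonneg_left hlo hp0.le) (mul_le_mul_of_nonneg_left hla hq0.le)
      have h3 : q ^ 3 / p ^ 3 ≤ γ := by rw [div_le_iff₀ (by positivity)]; exact hγ
      have h4 := mul_le_mul_of_nonneg_left h3 (by positivity : 0 ≤ q * y ^ 2)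
      rw [asm_alg2 hp0.ne'] at hQle
      rw [hinner, asm_alg3 hp0.ne', hW, hI]
      linarith only [hQle, hkpq, h1, h4]
    have hT0 : 0 < T := by
      have : 0 ≤ up := le_trans (by
        have : Real.log p ≤ 0 := Real.log_nonpos hp0.le hplt.le
        linarith only [this]) hup
      rw [hT]; (clear * - hp0 this hq0 hy0; positivity)
    have hinner0 : 0 < inner := by
      have h1 : 0 < 8 * T * M := by positivity
      have h2 : 0 < q * A * inner := lt_of_lt_of_le h1 H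
      by_contra hc
      push Not at hc
      have : q * A * inner ≤ 0 := mul_nonpos_of_nonneg_of_nonpos (by positivity) hc
      linarith only [H, h1, this]
    have hDn' : q ^ 2 * y * A / (2 * p ^ 4) ≤ N1 - N3 := by
      rw [hA, asm_alg4 hp0.ne']; exact hDn
    have hNle' : N3 ≤ T / p ^ 2 := by
      rw [hT, asm_alg5 hp0.ne']; exact hNrle
    calc N3 * E1 ≤ N3 * (4 * q * y * M / p ^ 3) := mul_le_mul_of_nonneg_left hE1le hNr0
      _ ≤ T / p ^ 2 * (4 * q * y * M / p ^ 3) :=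
          mul_le_mul_of_nonneg_right hNle' (by positivity)
      _ = (8 * T * M) * (q * y / (2 * p ^ 5)) := asm_alg6 hp0.ne'
      _ ≤ (q * A * inner) * (q * y / (2 * p ^ 5)) :=
          mul_le_mul_of_nonneg_right H (by positivity)
      _ = inner / p * (q ^ 2 * y * A / (2 * p ^ 4)) := asm_alg7 hp0.ne'
      _ ≤ (W - Qt) * (N1 - N3) :=
          mul_le_mul hWQ hDn' (by positivity) (le_trans (by positivity) hWQ)

end Vale.Agent.P322
end
end

section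

section

/-! The scalar inequality (II0) of regime B at `ρ = 3/4`. -/

namespace Vale.Agent.P322

open Real

lemma pt_log_lo {x v : ℝ} (n : ℕ) (h0 : 0 ≤ x) (h1 : x < 1)
    (h : v ≤ ∑ i ∈ Finset.range n, x ^ (i + 1) / (i + 1) - x ^ (n + 1) / (1 - x)) :
    v ≤ -Real.log (1 - x) := h.trans (pt_num h0 h1 n).1

lemma pt_log_up {x v : ℝ} (n : ℕ) (h0 : 0 ≤ x) (h1 : x < 1)
    (h : ∑ i ∈ Finset.range n, x ^ (i + 1) / (i + 1) + x ^ (n + 1) / (1 - x) ≤ v) :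
    -Real.log (1 - x) ≤ v := (pt_num h0 h1 n).2.trans h

lemma pt_lo1 : (519/2500 : ℝ) ≤ -Real.log (1 - 3/16) :=
  pt_log_lo 7 (by norm_num) (by norm_num) (by norm_num [Finset.sum_range_succ])
lemma pt_up1 : -Real.log (1 - 3/16) ≤ (2077/10000 : ℝ) :=
  pt_log_up 7 (by norm_num) (by norm_num) (by norm_num [Finset.sum_range_succ])
lemma pt_lo2 : (1651/5000 : ℝ) ≤ -Real.log (1 - 9/32) :=
  pt_log_lo 10 (by norm_num) (by norm_num) (by norm_num [Finset.sum_range_succ])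
lemma pt_up2 : -Real.log (1 - 9/32) ≤ (3303/10000 : ℝ) :=
  pt_log_up 10 (by norm_num) (by norm_num) (by norm_num [Finset.sum_range_succ])
lemma pt_lo3 : (497/1250 : ℝ) ≤ -Real.log (1 - 21/64) :=
  pt_log_lo 12 (by norm_num) (by norm_num) (by norm_num [Finset.sum_range_succ])
lemma pt_up3 : -Real.log (1 - 21/64) ≤ (1989/5000 : ℝ) :=
  pt_log_up 12 (by norm_num) (by norm_num) (by norm_num [Finset.sum_range_succ])
lemma pt_lo4 : (4699/10000 : ℝ) ≤ -Real.log (1 - 3/8) :=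
  pt_log_lo 13 (by norm_num) (by norm_num) (by norm_num [Finset.sum_range_succ])
lemma pt_up4 : -Real.log (1 - 3/8) ≤ (4701/10000 : ℝ) :=
  pt_log_up 13 (by norm_num) (by norm_num) (by norm_num [Finset.sum_range_succ])
lemma pt_lo5 : (1207/2000 : ℝ) ≤ -Real.log (1 - 29/64) :=
  pt_log_lo 16 (by norm_num) (by norm_num) (by norm_num [Finset.sum_range_succ])
lemma pt_up5 : -Real.log (1 - 29/64) ≤ (1509/2500 : ℝ) :=
  pt_log_up 16 (by norm_num) (by norm_num) (by norm_num [Finset.sum_range_succ])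

lemma pt_la1 : (16739/10000 : ℝ) ≤ -Real.log (3/16) := by
  have h : Real.log (3/16) = Real.log (1 - 1/4) - 2 * Real.log 2 := by
    rw [show (3/16 : ℝ) = (1 - 1/4) / 2 ^ 2 by norm_num, Real.log_div (by norm_num) (by norm_num),
      Real.log_pow]; norm_num
  have h1 : (0.28767 : ℝ) ≤ -Real.log (1 - 1/4) :=
    pt_log_lo 9 (by norm_num) (by norm_num) (by norm_num [Finset.sum_range_succ])
  have h2 := Real.log_two_gt_d9
  rw [h]; linarith only [h1, h2]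
lemma pt_la2 : (3171/2500 : ℝ) ≤ -Real.log (9/32) := by
  have h : Real.log (9/32) = -Real.log (1 - 1/9) - 2 * Real.log 2 := by
    rw [show (9/32 : ℝ) = (1 - 1/9)⁻¹ / 2 ^ 2 by norm_num,
      Real.log_div (by norm_num) (by norm_num), Real.log_pow, Real.log_inv]; norm_num
  have h1 : -Real.log (1 - 1/9) ≤ (0.11779 : ℝ) :=
    pt_log_up 6 (by norm_num) (by norm_num) (by norm_num [Finset.sum_range_succ])
  have h2 := Real.log_two_gt_d9
  rw [h]; linarith only [h1, h2]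
lemma pt_la3 : (11143/10000 : ℝ) ≤ -Real.log (21/64) := by
  have h : Real.log (21/64) = -Real.log (1 - 5/21) - 2 * Real.log 2 := by
    rw [show (21/64 : ℝ) = (1 - 5/21)⁻¹ / 2 ^ 2 by norm_num,
      Real.log_div (by norm_num) (by norm_num), Real.log_pow, Real.log_inv]; norm_num
  have h1 : -Real.log (1 - 5/21) ≤ (0.27195 : ℝ) :=
    pt_log_up 9 (by norm_num) (by norm_num) (by norm_num [Finset.sum_range_succ])
  have h2 := Real.log_two_gt_d9
  rw [h]; linarith only [h2, h1]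
lemma pt_la4 : (613/625 : ℝ) ≤ -Real.log (3/8) := by
  have h : Real.log (3/8) = Real.log (1 - 1/4) - Real.log 2 := by
    rw [show (3/8 : ℝ) = (1 - 1/4) / 2 by norm_num, Real.log_div (by norm_num) (by norm_num)]
  have h1 : (0.28767 : ℝ) ≤ -Real.log (1 - 1/4) :=
    pt_log_lo 9 (by norm_num) (by norm_num) (by norm_num [Finset.sum_range_succ])
  have h2 := Real.log_two_gt_d9
  rw [h]; linarith only [h1, h2]
lemma pt_la5 : (1583/2000 : ℝ) ≤ -Real.log (29/64) := by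
  have h : Real.log (29/64) = Real.log (1 - 3/32) - Real.log 2 := by
    rw [show (29/64 : ℝ) = (1 - 3/32) / 2 by norm_num, Real.log_div (by norm_num) (by norm_num)]
  have h1 : (0.09843 : ℝ) ≤ -Real.log (1 - 3/32) :=
    pt_log_lo 6 (by norm_num) (by norm_num) (by norm_num [Finset.sum_range_succ])
  have h2 := Real.log_two_gt_d9
  rw [h]; linarith only [h1, h2]

/-- assembly with the tangent bounds at `q0`. -/
lemma cell_asm {q y d q0 lo0 up0 la0 γ : ℝ} (hq0 : 0 < q) (hq1 : q ≤ 1 / 2) (hy0 : 0 < y)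
    (hd : d ^ 2 = 4 * q ^ 2 * y) (hd0 : 0 < d) (hd1 : d ≤ 1 / 2) (hd2 : d ≤ 2 * q)
    (h0 : 0 < q0) (h1 : q0 < 1)
    (hlo : lo0 ≤ -Real.log (1 - q0)) (hup : -Real.log (1 - q0) ≤ up0) (hla : la0 ≤ -Real.log q0)
    (hγ : q ^ 3 ≤ γ * (1 - q) ^ 3)
    (H : 8 * (((1 - q) ^ 2 * up0 + (1 - q) * (q - q0)) + 3045 / 10000 * q ^ 2 * y)
          * (1308 / 10000 * q * (1 - q) ^ 3 - 1 / 4 * (7 / 192 * y * ((1 - q) ^ 3 + q ^ 3)
            + (35 / 1536 * y ^ 2 + 481 / 32768 * y ^ 3) * (1 - q) ^ 3))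
        ≤ q * (7 / 16 * (1 - q) ^ 2 + 175 / 512 * q ^ 2 * y)
          * ((1 - q) * ((1 - q) * (lo0 + (q - q0) / (1 - q0)) + q * (la0 - (q - q0) / q0)
            - 4 * (1308 / 10000) * (1 - q) * q
            - q * (y / 2 + (1 + γ) * (63 / 1000) * y ^ 2)) - q ^ 2 * y / 2)) :
    II34 (1 - 2 * q) d := by
  have hp : 0 < 1 - q := by linarith only [hq1]
  refine assemble hq0 hq1 hy0 hd hd0 hd1 hd2 (pt_tan_lo (by linarith only [hq1]) h1 hlo)
    (pt_tan_up (by linarith only [hq1]) h1 hup) (pt_tan_la hq0 h0 hla) hγ ?_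
  have e : (1 - q) ^ 2 * (up0 + (q - q0) / (1 - q))
      = (1 - q) ^ 2 * up0 + (1 - q) * (q - q0) := by
    field_simp
  rw [e]
  exact H

lemma cube_le {q b γ : ℝ} (hq0 : 0 ≤ q) (hqb : q ≤ b) (hb : b < 1) (h : b ^ 3 ≤ γ * (1 - b) ^ 3)
    (hγ : 0 ≤ γ) : q ^ 3 ≤ γ * (1 - q) ^ 3 := by
  have h1 : q ^ 3 ≤ b ^ 3 := pow_le_pow_left₀ hq0 hqb 3
  have h2 : (1 - b) ^ 3 ≤ (1 - q) ^ 3 := pow_le_pow_left₀ (by linarith) (by linarith) 3
  have h3 := mul_le_mul_of_nonneg_left h2 hγ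
  linarith

/-- `y` is small when `q` is large. -/
lemma y_le {q y a ym : ℝ} (ha : 0 < a) (haq : a ≤ q) (hy : 0 ≤ y) (hqy : 16 * q ^ 2 * y ≤ 1)
    (h : 1 ≤ 16 * a ^ 2 * ym) : y ≤ ym := by
  have h1 : a ^ 2 ≤ q ^ 2 := pow_le_pow_left₀ ha.le haq 2
  have h2 : 16 * a ^ 2 * y ≤ 16 * q ^ 2 * y := by linarith only [mul_nonneg (sub_nonneg.2 hy) (sub_nonneg.2 h1)]
  have h3 : 16 * a ^ 2 * y ≤ 16 * a ^ 2 * ym := by linarith
  exact le_of_mul_le_mul_left h3 (by positivity)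

lemma II34_q {q d : ℝ} (hq0 : 0 < q) (hq1 : q ≤ 1 / 2) (hd0 : 0 < d) (hd1 : d ≤ 1 / 2)
    (hd2 : d ≤ 2 * q) : II34 (1 - 2 * q) d := by
  obtain ⟨y, hy⟩ : ∃ y : ℝ, y = d ^ 2 / (4 * q ^ 2) := ⟨_, rfl⟩
  have hy0 : 0 < y := by rw [hy]; positivity
  have hd : d ^ 2 = 4 * q ^ 2 * y := by rw [hy]; field_simp
  have hy1 : y ≤ 1 := by
    have : d ^ 2 ≤ (2 * q) ^ 2 := pow_le_pow_left₀ hd0.le hd2 2
    rw [hd] at this
    have hq2 : 0 < 4 * q ^ 2 := by positivity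
    (by_contra nlg; linarith only [nlg, mul_pos (sub_pos.2 (not_le.1 nlg)) (sub_pos.2 hq2), this])
  have hqy : 16 * q ^ 2 * y ≤ 1 := by
    have : d ^ 2 ≤ (1 / 2) ^ 2 := pow_le_pow_left₀ hd0.le hd1 2
    rw [hd] at this
    linarith only [this]
  rcases le_total q (1 / 8) with c0 | c0
  · -- near μ = 1
    refine assemble (lo := q + q ^ 2 / 2) (up := q + q ^ 2 / 2 + 2 / 5 * q ^ 3) (la := 2079 / 1000)
      (γ := 3 / 1000) hq0 hq1 hy0 hd hd0 hd1 hd2 ?_ ?_ ?_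
      (cube_le (b := 1 / 8) hq0.le c0 (by norm_num) (by norm_num) (by norm_num)) ?_
    · have hs := sum_le_hasSum (Finset.range 2) (fun i _ => by positivity)
        (Real.hasSum_pow_div_log_of_abs_lt_one (x := q) (by rw [abs_of_pos hq0]; linarith))
      simp only [Finset.sum_range_succ, Finset.sum_range_zero] at hs
      norm_num at hs
      linarith only [hs]
    · refine (pt_num hq0.le (by linarith : q < 1) 4).2.trans ?_
      simp only [Finset.sum_range_succ, Finset.sum_range_zero]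
      have hp : 0 < 1 - q := by linarith only [c0, hq0]
      have h5 : q ^ (4 + 1) / (1 - q) ≤ q ^ 3 * (1 / 56) := by
        rw [div_le_iff₀ hp]
        have h2 : q ^ 2 ≤ 1 / 64 := by nlinarith only [c0, hq0]
        have h3 : 0 < q ^ 3 := by positivity
        have e : q ^ (4 + 1) = q ^ 3 * q ^ 2 := by ring
        rw [e, mul_assoc]
        exact mul_le_mul_of_nonneg_left (by linarith only [c0, h2]) h3.le
      have h4 : q ^ 4 ≤ q ^ 3 * (1 / 8) := by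
        have h3 : 0 < q ^ 3 := by positivity
        have e : q ^ 4 = q ^ 3 * q := by ring
        rw [e]
        exact mul_le_mul_of_nonneg_left c0 h3.le
      norm_num at h5 ⊢
      have h3 : 0 < q ^ 3 := by positivity
      linarith only [h4, h5, h3]
    · have h1 : Real.log q ≤ Real.log (1 / 8) := Real.log_le_log hq0 c0
      have h2 : Real.log (1 / 8) = -(3 * Real.log 2) := by
        rw [one_div, Real.log_inv, show (8 : ℝ) = 2 ^ 3 by norm_num, Real.log_pow]; norm_num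
      have := Real.log_two_gt_d9
      linarith only [h1, h2, this]
    · exact pt_cell0 hq0.le c0 hy0.le hy1
  rcases le_total q (1 / 4) with c1 | c1
  · exact cell_asm hq0 hq1 hy0 hd hd0 hd1 hd2 (by norm_num) (by norm_num) pt_lo1 pt_up1 pt_la1
      (cube_le (b := 1 / 4) hq0.le c1 (by norm_num) (by norm_num) (by norm_num))
      (pt_cell1 c0 c1 hy0.le hy1)
  rcases le_total q (5 / 16) with c2 | c2
  · exact cell_asm hq0 hq1 hy0 hd hd0 hd1 hd2 (by norm_num) (by norm_num) pt_lo2 pt_up2 pt_la2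
      (cube_le (b := 5 / 16) hq0.le c2 (by norm_num) (by norm_num) (by norm_num))
      (pt_cell2 c1 c2 hy0.le hy1)
  rcases le_total q (11 / 32) with c3 | c3
  · exact cell_asm hq0 hq1 hy0 hd hd0 hd1 hd2 (by norm_num) (by norm_num) pt_lo3 pt_up3 pt_la3
      (cube_le (b := 11 / 32) hq0.le c3 (by norm_num) (by norm_num) (by norm_num))
      (pt_cell3 c2 c3 hy0.le (y_le (by norm_num) c2 hy0.le hqy (by norm_num)))
  rcases le_total q (13 / 32) with c4 | c4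
  · exact cell_asm hq0 hq1 hy0 hd hd0 hd1 hd2 (by norm_num) (by norm_num) pt_lo4 pt_up4 pt_la4
      (cube_le (b := 13 / 32) hq0.le c4 (by norm_num) (by norm_num) (by norm_num))
      (pt_cell4 c3 c4 hy0.le (y_le (by norm_num) c3 hy0.le hqy (by norm_num)))
  · exact cell_asm hq0 hq1 hy0 hd hd0 hd1 hd2 (by norm_num) (by norm_num) pt_lo5 pt_up5 pt_la5
      (cube_le (b := 1 / 2) hq0.le hq1 (by norm_num) (by norm_num) (by norm_num))
      (pt_cell5 c4 hq1 hy0.le (y_le (by norm_num) c4 hy0.le hqy (by norm_num)))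

/-- The scalar inequality (II0) at `ρ = 3/4`, `0 ≤ μ`, `0 < d ≤ 1/2`, `μ + d ≤ 1`. -/
theorem II0_34 {μ d : ℝ} (hμ : 0 ≤ μ) (hd : 0 < d) (hμd : μ + d ≤ 1) (hd1 : d ≤ 1 / 2) :
    II34 μ d := by
  have h := II34_q (q := (1 - μ) / 2) (d := d) (by linarith) (by linarith) hd hd1 (by linarith)
  have e : 1 - 2 * ((1 - μ) / 2) = μ := by ring
  rw [e] at h
  exact h

end Vale.Agent.P322
end
end

section

section

/-! Regime A at the law level from the two conditions at one point `x₀`. -/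

namespace Vale.Agent.P322

/-- Regime A: the law-level step from the two one-point conditions. -/
theorem stepA_of_point {ρ x₀ k : ℝ} (hρ0 : 0 ≤ ρ) (hρ1 : ρ < 1) (hy0 : 0 < x₀) (hy1 : x₀ < 1)
    (hk0 : 0.8953 ≤ k) (hk1 : k ≤ 1) (hg : 0 < HH (ρ * x₀) - HH x₀)
    (h1 : k * HH ρ ^ 2 * x₀ ^ 3 * (atx x₀ - ρ * atx (ρ * x₀))
      ≤ 2 * Real.log 2 * (HH (ρ * x₀) - HH x₀) ^ 2)
    (h2 : 2 * (HH (ρ * x₀) - HH x₀) * (k * HH ρ - (HH (ρ * x₀) - HH x₀))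
      ≤ k * HH ρ * x₀ * (1 - x₀ ^ 2) * (atx x₀ - ρ * atx (ρ * x₀))) :
    Step ρ (SA ρ) := by
  have hSA : RegA.SA ρ k := by
    intro x hx0 hx1
    have h := SA_of_point hρ0 hρ1 hy0 hy1 (by linarith only [hk0]) hk1 hg h1 h2 x hx0 hx1
    have e1 : HH ρ = Real.log 2 - ph ρ := RegA.HH_ph ρ (by rw [abs_of_nonneg hρ0]; exact hρ1.le)
    have e2 : HH x = Real.log 2 - ph x := RegA.HH_ph x (by rw [abs_of_nonneg hx0]; exact hx1)
    have e3 : HH (ρ * x) = Real.log 2 - ph (ρ * x) := by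
      refine RegA.HH_ph _ ?_
      rw [abs_of_nonneg (mul_nonneg hρ0 hx0)]
      nlinarith only [hρ1, hρ0, hx1]
    have e4 : Real.log 2 - (Real.log 2 - HH ρ) * x ^ 2 = Real.log 2 - ph ρ * x ^ 2 := by
      rw [e1]; ring
    have e5 : HH (ρ * x) - HH x = ph x - ph (ρ * x) := by rw [e2, e3]; ring
    rw [e4, e5] at h
    exact h
  have hc := RegA.certHalf_regimeA hρ0 hρ1 hk0 hSA
  have hs := step_of_certHalf hc
  have e : RegA.SpotA ρ = SA ρ := by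
    funext μ
    unfold RegA.SpotA SA
    ring
  rw [e] at hs
  exact hs

end Vale.Agent.P322
end
end

section

section

/-! Regime A for all `ρ ∈ [7/10, 1)`. -/

namespace Vale.Agent.P322

lemma sa_hg {ρ : ℝ} (h1 : 7 / 10 ≤ ρ) (h2 : ρ < 1) :
    0 < HH (ρ * ((1 + ρ) / 2)) - HH ((1 + ρ) / 2) := by
  obtain ⟨η, rfl⟩ : ∃ η, ρ = 1 - η := ⟨1 - ρ, by ring⟩
  have h0 : 0 < η := by linarith
  have h3 : η ≤ 3 / 10 := by linarith
  have hx : (1 + (1 - η)) / 2 = 1 - η / 2 := by ring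
  rw [hx]
  obtain ⟨-, d2, -⟩ := sa_decomp h0 h3
  have d2' : HH ((1 - η) * (1 - η / 2)) - HH (1 - η / 2) = η / 2 * ((1 - η / 2) * Real.log (2 / η)
      + saC1 η) := by
    rw [d2]; unfold saC1; ring
  rw [d2']
  have hl := sa_log8 h0
  have l2 := Real.log_two_gt_d9
  have hlog : Real.log (4 * η) ≤ 4 * η - 1 := Real.log_le_sub_one_of_pos (by linarith only [h2])
  have hL : 1.5 ≤ Real.log (2 / η) := by linarith only [hlog, l2, hl, h1]
  have hc : -0.05 ≤ saC1 η := by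
    rcases le_total η (1 / 4) with h4 | h4
    · have := saC1_lin h0 h4; linarith only [h4, this]
    · have := saC1_lin2 h4 h3; linarith only [h1, this]
  have : 0 < (1 - η / 2) * Real.log (2 / η) + saC1 η := by nlinarith only [h1, hl, l2, hlog, hc]
  (clear * - h0 this; positivity)

/-- Regime A: the law-level step for every `ρ ∈ [7/10, 1)`. -/
theorem stepA_all {ρ : ℝ} (h1 : 7 / 10 ≤ ρ) (h2 : ρ < 1) : Step ρ (SA ρ) := by
  obtain ⟨e1, e2⟩ := SA2 h1 h2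
  refine stepA_of_point (x₀ := (1 + ρ) / 2) (k := 112 / 125) (by linarith only [h1]) h2 (by linarith only [h1])
    (by linarith only [h2]) (by norm_num) (by norm_num) (sa_hg h1 h2) ?_ ?_
  · refine le_trans (le_of_eq ?_) e1
    rw [atx_def, atx_def]
    ring
  · refine le_trans e2 (le_of_eq ?_)
    rw [atx_def, atx_def]
    ring

end Vale.Agent.P322
end
end

section

section

/-! Regime B: reduction of the scalar inequality `IneqB` from `ρ ≤ 3/4` to `ρ = 3/4`. -/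

namespace Vale.Agent.P322.MonoT

open Real Filter Topology Set
open Vale.Agent.P322 Vale.Agent.P322.RegA

/-! ### Series facts -/

lemma ph_scale_le {x y : ℝ} (hx0 : 0 ≤ x) (hx : x ≤ 1) (hy0 : 0 ≤ y) (hy : y ≤ 1) :
    ph (y * x) ≤ y ^ 2 * ph x := by
  rcases hx.lt_or_eq with h | h
  · have := ph_scale (ρ := x) (y := y) (by rw [abs_of_nonneg hx0]; exact h)
      (by rw [abs_of_nonneg hy0]; exact hy)
    rwa [mul_comm x y] at this
  · subst h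
    rw [mul_one, ph_one]
    rcases hy.lt_or_eq with h | h
    · have := ph_le_sq (m := y) (by rw [abs_of_nonneg hy0]; exact h)
      linarith
    · subst h
      rw [ph_one]; norm_num

lemma hasSum_q {ρ x : ℝ} (hρ : 0 < ρ) (h : |ρ * x| < 1) :
    HasSum (fun k : ℕ => (ρ ^ 2) ^ k * (x ^ 2) ^ (k + 1) / ((2 * k + 2) * (2 * k + 1)))
      (ph (ρ * x) / ρ ^ 2) := by
  refine hasSum_of_eq ((hasSum_ph h).div_const (ρ ^ 2)) (fun k => ?_) rfl
  have e : (ρ * x) ^ (2 * k + 2) = (ρ ^ 2) ^ k * (x ^ 2) ^ (k + 1) * ρ ^ 2 := by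
    rw [← pow_mul, ← pow_mul, mul_pow, show 2 * k + 2 = 2 * k + 2 from rfl, pow_add ρ (2 * k) 2,
      show 2 * (k + 1) = 2 * k + 2 by ring]
    ring
  rw [e]
  have : ρ ^ 2 ≠ 0 := by positivity
  field_simp

/-- Growth of `ph (ρ x) / ρ²` in `ρ`: the fourth order term. -/
lemma q_lower {ρ r x : ℝ} (hρ : 0 < ρ) (hρr : ρ ≤ r) (h : |r * x| < 1) :
    (r ^ 2 - ρ ^ 2) * x ^ 4 / 12 ≤ ph (r * x) / r ^ 2 - ph (ρ * x) / ρ ^ 2 := by
  have hr : 0 < r := lt_of_lt_of_le hρ hρr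
  have h' : |ρ * x| < 1 := by
    rw [abs_mul, abs_of_pos hρ]
    rw [abs_mul, abs_of_pos hr] at h
    exact lt_of_le_of_lt (mul_le_mul_of_nonneg_right hρr (abs_nonneg x)) h
  have hs := (hasSum_q hr h).sub (hasSum_q hρ h')
  have h2 : ρ ^ 2 ≤ r ^ 2 := by gcongr
  have h1 := le_hasSum hs 1 (fun j _ => by
    have h3 : (ρ ^ 2) ^ j ≤ (r ^ 2) ^ j := by gcongr
    rw [← sub_div]
    apply div_nonneg _ (by positivity)
    have h4 : 0 ≤ (x ^ 2) ^ (j + 1) := by positivity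
    linarith only [mul_nonneg (sub_nonneg.2 h3) h4])
  norm_num at h1
  have e : (x ^ 2) ^ 2 = x ^ 4 := by ring
  rw [e] at h1
  linarith only [h1]

lemma pow_diff {a b : ℝ} (hb : 0 ≤ b) (hab : b ≤ a) (k : ℕ) :
    a * (a ^ k - b ^ k) ≤ (a - b) * (k * a ^ k) := by
  have ha : 0 ≤ a := hb.trans hab
  induction k with
  | zero => simp
  | succ k ih =>
    have e : a * (a ^ (k + 1) - b ^ (k + 1)) = a * (a * (a ^ k - b ^ k)) + a * ((a - b) * b ^ k) := by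
      ring
    rw [e]
    have h1 := mul_le_mul_of_nonneg_left ih ha
    have h2 : b ^ k ≤ a ^ k := pow_le_pow_left₀ hb hab k
    have h3 : a * ((a - b) * b ^ k) ≤ a * ((a - b) * a ^ k) :=
      mul_le_mul_of_nonneg_left (mul_le_mul_of_nonneg_left h2 (sub_nonneg.2 hab)) ha
    push_cast
    calc a * (a * (a ^ k - b ^ k)) + a * ((a - b) * b ^ k)
        ≤ a * ((a - b) * (k * a ^ k)) + a * ((a - b) * a ^ k) := add_le_add h1 h3
      _ = (a - b) * ((↑k + 1) * a ^ (k + 1)) := by ring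

/-- closed form of `∑ k r^(2k-2) / ((2k+2)(2k+1))` -/
noncomputable def G1 (r : ℝ) : ℝ :=
  (-(Real.log (1 + r) + Real.log (1 - r)) / 2 - r * (Real.log (1 + r) - Real.log (1 - r)) / 4)
    / r ^ 4

/-- Growth of `ph ρ / ρ²` in `ρ`: upper bound. -/
lemma q_upper {ρ r : ℝ} (hρ : 0 < ρ) (hρr : ρ ≤ r) (hr1 : r < 1) :
    ph r / r ^ 2 - ph ρ / ρ ^ 2 ≤ (r ^ 2 - ρ ^ 2) * G1 r := by
  have hr : 0 < r := lt_of_lt_of_le hρ hρr
  have habs : |r| < 1 := by rw [abs_of_pos hr]; exact hr1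
  have habs' : |ρ| < 1 := by rw [abs_of_pos hρ]; exact lt_of_le_of_lt hρr hr1
  have hs := (hasSum_q (x := 1) hr (by simpa using habs)).sub
    (hasSum_q (x := 1) hρ (by simpa using habs'))
  rw [mul_one, mul_one] at hs
  have hg : HasSum (fun k : ℕ => (r ^ 2 - ρ ^ 2) / r ^ 4 *
      (r ^ (2 * k + 2) / (2 * k + 2) - 1 / 2 * (r ^ (2 * k + 2) / (2 * k + 1))))
      ((r ^ 2 - ρ ^ 2) * G1 r) := by
    refine hasSum_of_eq (((hasSum_ser1 habs).sub ((hasSum_ser2 habs).mul_left (1 / 2))).mul_left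
      ((r ^ 2 - ρ ^ 2) / r ^ 4)) (fun k => rfl) ?_
    unfold G1
    ring
  refine hasSum_le (fun k => ?_) hs hg
  have h2 : ρ ^ 2 ≤ r ^ 2 := by gcongr
  have hk := pow_diff (a := r ^ 2) (b := ρ ^ 2) (by positivity) h2 k
  have e1 : r ^ (2 * k + 2) = (r ^ 2) ^ k * r ^ 2 := by rw [← pow_mul, ← pow_add]
  have hr2 : (r : ℝ) ^ 2 ≠ 0 := by positivity
  have e2 : (r ^ 2 - ρ ^ 2) / r ^ 4 *
      (r ^ (2 * k + 2) / (2 * k + 2) - 1 / 2 * (r ^ (2 * k + 2) / (2 * k + 1)))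
      = ((r ^ 2 - ρ ^ 2) * (k * (r ^ 2) ^ k)) / r ^ 2 / ((2 * k + 2) * (2 * k + 1)) := by
    rw [e1]
    have h3 : (2 * (k : ℝ) + 1) ≠ 0 := by (clear * -; positivity)
    have h4 : (2 * (k : ℝ) + 2) ≠ 0 := by positivity
    field_simp
    ring
  rw [e2, one_pow, one_pow, mul_one, mul_one, ← sub_div]
  apply div_le_div_of_nonneg_right _ (by (clear * -; positivity))
  rw [le_div_iff₀ (by positivity)]
  linarith only [hk]

/-! ### Numerical constants -/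

lemma log7_gt : (1.9459 : ℝ) < Real.log 7 := by
  have h1 : Real.log 7 = 3 * Real.log 2 - Real.log (8 / 7) := by
    rw [Real.log_div (by norm_num) (by norm_num), show (8 : ℝ) = 2 ^ 3 by norm_num, Real.log_pow]
    push_cast
    ring
  have h2 : Real.log (8 / 7) ≤ 0.13354 := by
    rw [Real.log_le_iff_le_exp (by norm_num)]
    have := Real.sum_le_exp_of_nonneg (x := (0.13354 : ℝ)) (by norm_num) 5
    refine le_trans ?_ this
    simp only [Finset.sum_range_succ, Finset.sum_range_zero, Nat.factorial]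
    norm_num
  have h3 := Real.log_two_gt_d9
  rw [h1]
  linarith only [h2, h3]

lemma log3_lt : Real.log 3 < 1.0987 := by
  have h1 : Real.log 3 = 2 * Real.log 2 - Real.log (4 / 3) := by
    rw [Real.log_div (by norm_num) (by norm_num), show (4 : ℝ) = 2 ^ 2 by norm_num, Real.log_pow]
    push_cast
    ring
  have h2 : 0.28767 ≤ Real.log (4 / 3) := by
    have h3 : Real.log (4 / 3) = - Real.log (1 - 1 / 4) := by
      rw [← Real.log_inv]; norm_num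
    have h4 := Real.abs_log_sub_add_sum_range_le (x := (1 / 4 : ℝ)) (by norm_num [abs_of_pos]) 8
    have h5 := (abs_le.1 h4).2
    simp only [Finset.sum_range_succ, Finset.sum_range_zero] at h5
    norm_num [abs_of_pos] at h5
    rw [h3]
    norm_num
    linarith only [h5]
  have h3 := Real.log_two_lt_d9
  rw [h1]
  linarith only [h3, h2]

lemma log_quarters : Real.log (1 + 3 / 4) = Real.log 7 - 2 * Real.log 2 ∧
    Real.log (1 - 3 / 4) = - (2 * Real.log 2) := by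
  constructor
  · rw [show (1 : ℝ) + 3 / 4 = 7 / 4 by norm_num, Real.log_div (by norm_num) (by norm_num),
      show (4 : ℝ) = 2 ^ 2 by norm_num, Real.log_pow]
    push_cast
    ring
  · rw [show (1 : ℝ) - 3 / 4 = (2 ^ 2)⁻¹ by norm_num, Real.log_inv, Real.log_pow]
    push_cast
    ring

lemma G1_le : G1 (3 / 4) ≤ 1533 / 10000 := by
  unfold G1
  rw [log_quarters.1, log_quarters.2, div_le_iff₀ (by norm_num)]
  have h1 := log7_gt
  have h2 := Real.log_two_lt_d9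
  norm_num
  linarith

lemma k10_le : Real.log 2 - ph (3 / 4) / (3 / 4) ^ 2 ≤ 1308 / 10000 := by
  rw [ph_eq, log_quarters.1, log_quarters.2]
  have h1 := log7_gt
  have h2 := Real.log_two_lt_d9
  norm_num
  linarith

/-! ### Elementary bounds for logarithms -/

lemma neglog_le {v : ℝ} (h0 : 0 ≤ v) (h1 : v ≤ 1 / 4) :
    -Real.log (1 - v) ≤ v * (1 + 63 / 100 * v) := by
  have h4 := Real.abs_log_sub_add_sum_range_le (x := v) (by rw [abs_of_nonneg h0]; linarith only [h1]) 4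
  have h5 := (abs_le.1 h4).1
  simp only [Finset.sum_range_succ, Finset.sum_range_zero, abs_of_nonneg h0] at h5
  have h6 : v ^ (4 + 1) / (1 - v) ≤ v ^ 5 * (4 / 3) := by
    rw [div_le_iff₀ (by linarith only [h1])]
    have : 0 ≤ v ^ 5 := by positivity
    norm_num
    linarith only [mul_nonneg (sub_nonneg.2 h1) (sub_nonneg.2 this)]
  norm_num at h5 h6
  have h7 : 0 ≤ v ^ 2 * (13 / 100 - v / 3 - v ^ 2 / 4 - 4 / 3 * v ^ 3) := by
    apply mul_nonneg (by positivity)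
    have a2 : v ^ 2 ≤ 1 / 16 := by nlinarith only [h1, h0]
    have a3 : v ^ 3 ≤ 1 / 64 := by
      have : v ^ 3 = v * v ^ 2 := by ring
      nlinarith only [a2, h1]
    linarith only [h1, a2, a3]
  linarith only [h5, h6, h7]

lemma neglog_ge2 {v : ℝ} (h0 : 0 ≤ v) (h1 : v < 1) : v + v ^ 2 / 2 ≤ -Real.log (1 - v) := by
  have h := Real.hasSum_pow_div_log_of_abs_lt_one (x := v) (by rw [abs_of_nonneg h0]; exact h1)
  have := sum_le_hasSum (Finset.range 2) (fun i _ => by positivity) h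
  simp only [Finset.sum_range_succ, Finset.sum_range_zero] at this
  norm_num at this
  linarith only [this]

lemma neglog_ge3 {v : ℝ} (h0 : 0 ≤ v) (h1 : v < 1) :
    v + v ^ 2 / 2 + v ^ 3 / 3 ≤ -Real.log (1 - v) := by
  have h := Real.hasSum_pow_div_log_of_abs_lt_one (x := v) (by rw [abs_of_nonneg h0]; exact h1)
  have := sum_le_hasSum (Finset.range 3) (fun i _ => by (clear * - h0; positivity)) h
  simp only [Finset.sum_range_succ, Finset.sum_range_zero] at this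
  norm_num at this
  linarith only [this]

/-! ### The perspective function -/

noncomputable def Kf (μ c : ℝ) : ℝ :=
  (1 + μ) / 2 * ph (c / (1 + μ)) + (1 - μ) / 2 * ph (c / (1 - μ))

lemma Kf_eq (μ c : ℝ) :
    Kf μ c = (1 + μ) / 2 * ph (c / (1 + μ)) + (1 - μ) / 2 * ph (c / (1 - μ)) := rfl

lemma Kf_scale {μ c y : ℝ} (hμ : 0 ≤ μ) (hμ1 : μ < 1) (hc0 : 0 ≤ c) (hc : c ≤ 1 - μ) (hy0 : 0 ≤ y)
    (hy : y ≤ 1) : Kf μ (y * c) ≤ y ^ 2 * Kf μ c := by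
  have a1 : 0 < 1 + μ := by linarith
  have a2 : 0 < 1 - μ := by linarith
  have h1 := ph_scale_le (x := c / (1 + μ)) (y := y) (by positivity)
    (by rw [div_le_one a1]; linarith) hy0 hy
  have h2 := ph_scale_le (x := c / (1 - μ)) (y := y) (by positivity)
    (by rw [div_le_one a2]; linarith) hy0 hy
  rw [Kf_eq, Kf_eq, mul_div_assoc, mul_div_assoc]
  have h3 := mul_le_mul_of_nonneg_left h1 (show 0 ≤ (1 + μ) / 2 by linarith only [a1])
  have h4 := mul_le_mul_of_nonneg_left h2 (show 0 ≤ (1 - μ) / 2 by linarith only [hμ1])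
  linarith only [h4, h3]

lemma hV_Kf {ρ μ δ : ℝ} (h : |μ| + |ρ * δ| < 1) : hV ρ μ δ = HH μ - Kf μ (ρ * δ) := by
  rw [hV_pers h, Kf_eq]

/-- value at the corner line `δ = 1/2`, `0 ≤ μ < 1/2` -/
lemma em_half {μ : ℝ} (hμ : 0 ≤ μ) (hμ1 : μ < 1 / 2) :
    0.5622 * (1 - 4 * μ ^ 2) + 2 * μ ^ 2 * Real.log 2 ≤ HH μ - Kf μ (1 / 2) := by
  have h1 : hV 1 μ (1 / 2) = HH μ - Kf μ (1 / 2) := by
    rw [hV_Kf (by rw [abs_of_nonneg hμ]; norm_num [abs_of_pos]; linarith), one_mul]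
  have h2 : hV 1 (1 / 2) μ = HH (1 / 2) - Kf (1 / 2) μ := by
    rw [hV_Kf (by rw [one_mul, abs_of_nonneg hμ]; norm_num [abs_of_pos]; linarith), one_mul]
  have h3 : hV 1 μ (1 / 2) = hV 1 (1 / 2) μ := by
    unfold hV
    rw [one_mul, one_mul, show μ - 1 / 2 = -(1 / 2 - μ) by ring, HH_even, add_comm μ]
  have h4 : Kf (1 / 2) μ ≤ (2 * μ) ^ 2 * Kf (1 / 2) (1 / 2) := by
    have := Kf_scale (μ := 1 / 2) (c := 1 / 2) (y := 2 * μ) (by norm_num) (by norm_num)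
      (by norm_num) (by norm_num) (by linarith) (by linarith)
    rwa [show 2 * μ * (1 / 2) = μ by ring] at this
  have h5 : Kf (1 / 2) (1 / 2) = 3 / 2 * Real.log 2 - 3 / 4 * Real.log 3 := by
    rw [Kf_eq, show (1 / 2 : ℝ) / (1 - 1 / 2) = 1 by norm_num, ph_one,
      show (1 / 2 : ℝ) / (1 + 1 / 2) = 1 / 3 by norm_num, ph_eq,
      show (1 : ℝ) + 1 / 3 = 4 / 3 by norm_num, show (1 : ℝ) - 1 / 3 = 2 / 3 by norm_num,
      Real.log_div (by norm_num) (by norm_num), Real.log_div (by norm_num) (by norm_num),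
      show (4 : ℝ) = 2 ^ 2 by norm_num, Real.log_pow]
    push_cast
    ring
  have h6 : HH (1 / 2) = 2 * Real.log 2 - 3 / 4 * Real.log 3 := by
    rw [HH_ph _ (by norm_num [abs_of_pos]), ph_eq, show (1 : ℝ) + 1 / 2 = 3 / 2 by norm_num,
      show (1 : ℝ) - 1 / 2 = 1 / 2 by norm_num, Real.log_div (by norm_num) (by norm_num),
      Real.log_div (by norm_num) (by norm_num), Real.log_one]
    ring
  rw [← h1, h3, h2, h6]
  rw [h5] at h4
  have h7 := log3_lt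
  have h8 := Real.log_two_gt_d9
  have h9 : 0 ≤ (1 - 4 * μ ^ 2) * (2 * Real.log 2 - 3 / 4 * Real.log 3 - 0.5622) := by
    apply mul_nonneg
    · nlinarith only [hμ1, hμ]
    · norm_num at h7 h8 ⊢
      linarith only [h7, h8]
  linarith only [h9, h4]

/-- value at the corner line `δ = 1 - μ` -/
lemma em_diag {μ : ℝ} (hμ : 0 < μ) (hμ1 : μ < 1) :
    HH μ - Kf μ (1 - μ) = 1 / 2 * (-(μ * Real.log μ) - (1 - μ) * Real.log (1 - μ)) := by
  have a1 : 0 < 1 + μ := by linarith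
  have a2 : 0 < 1 - μ := by linarith
  rw [Kf_eq, div_self a2.ne', ph_one, HH_ph μ (by rw [abs_of_pos hμ]; exact hμ1.le), ph_eq, ph_eq,
    show 1 + (1 - μ) / (1 + μ) = 2 / (1 + μ) by field_simp; ring,
    show 1 - (1 - μ) / (1 + μ) = 2 * μ / (1 + μ) by field_simp; ring,
    Real.log_div (by norm_num) a1.ne', Real.log_div (by positivity) a1.ne',
    Real.log_mul (by norm_num) hμ.ne']
  field_simp
  ring

/-! ### The three one-variable inequalities -/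

/-- `log 2 - log (1 + μ)` -/
noncomputable def el (μ : ℝ) : ℝ := Real.log 2 - Real.log (1 + μ)

lemma el_nonneg {μ : ℝ} (h0 : 0 ≤ μ) (h1 : μ < 1) : 0 ≤ el μ := by
  unfold el
  have := Real.log_le_log (show 0 < 1 + μ by linarith) (show 1 + μ ≤ 2 by linarith)
  linarith

lemma el_le1 {μ : ℝ} (h0 : 0 ≤ μ) : el μ ≤ 0.6931472 - 2 * μ / (2 + μ) := by
  unfold el
  have h1 := Real.le_log_one_add_of_nonneg h0
  rw [add_comm μ 2] at h1
  have h2 := Real.log_two_lt_d9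
  norm_num at h2 ⊢
  linarith only [h2, h1]

lemma el_le2 {μ : ℝ} (h0 : 0 ≤ μ) : el μ ≤ (1 - μ) / (1 + μ) := by
  unfold el
  have a1 : 0 < 1 + μ := by linarith
  rw [← Real.log_div (by norm_num) a1.ne']
  refine (Real.log_le_sub_one_of_pos (by positivity)).trans (le_of_eq ?_)
  field_simp
  ring

lemma el_eq {μ : ℝ} (_h1 : μ < 1) (h0 : -1 < μ) : el μ = -Real.log (1 - (1 - μ) / 2) := by
  unfold el
  rw [show 1 - (1 - μ) / 2 = (1 + μ) / 2 by ring, Real.log_div (by linarith) (by norm_num)]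
  ring

lemma P0 {μ : ℝ} (h0 : 0 ≤ μ) (h1 : μ < 1) :
    1533 / 10000 * ((1 - μ ^ 2) + 2 * (1 + μ) ^ 2 * el μ) + (1 - μ ^ 2) * (1308 / 10000)
      ≤ HH μ := by
  have a1 : 0 < 1 + μ := by linarith
  have h2 := el_le2 h0
  have h3 : (1 + μ) ^ 2 * el μ ≤ 1 - μ ^ 2 := by
    calc (1 + μ) ^ 2 * el μ ≤ (1 + μ) ^ 2 * ((1 - μ) / (1 + μ)) :=
          mul_le_mul_of_nonneg_left h2 (by positivity)
      _ = 1 - μ ^ 2 := by field_simp; ring
  have h4 := HH_ge_sq (m := μ) (by rw [abs_of_nonneg h0]; exact h1)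
  have h5 := Real.log_two_gt_d9
  have h6 : 0 ≤ 1 - μ ^ 2 := by nlinarith only [h1, h0]
  have h7 : 0 ≤ (Real.log 2 - 0.6931) * (1 - μ ^ 2) := by
    apply mul_nonneg _ h6
    norm_num at h5 ⊢
    linarith only [h5]
  linarith only [h7, h4, h3, h6]

/-- `((1+μ)⁻³ + (1-μ)⁻³)/2` -/
noncomputable def kap2 (μ : ℝ) : ℝ := (1 / (1 + μ) ^ 3 + 1 / (1 - μ) ^ 3) / 2

lemma kap2_eq {μ : ℝ} (h0 : 0 ≤ μ) (h1 : μ < 1) :
    (1 + μ) ^ 2 * kap2 μ = (1 + 3 * μ ^ 2) / ((1 - μ) ^ 3 * (1 + μ)) := by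
  have a1 : 0 < 1 + μ := by linarith
  have a2 : 0 < 1 - μ := by linarith
  unfold kap2
  field_simp
  ring

lemma kap2_pos {μ : ℝ} (h0 : 0 ≤ μ) (h1 : μ < 1) : 0 < kap2 μ := by
  have a1 : 0 < 1 + μ := by linarith
  have a2 : 0 < 1 - μ := by linarith
  unfold kap2
  positivity

/-- the left hand side, affine in `D` -/
noncomputable def AB (μ D : ℝ) : ℝ :=
  1533 / 10000 * ((1 - μ ^ 2) + 2 * (1 + μ) ^ 2 * el μ
    + D * (63 / 100 * ((1 - μ) / (1 + μ)) + 6124 / 10000))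
    + (1 - μ ^ 2 - D) * (1308 / 10000) - el μ * D * ((1 + μ) ^ 2 * kap2 μ) / 6

lemma AB_zero (μ : ℝ) : AB μ 0 = 1533 / 10000 * ((1 - μ ^ 2) + 2 * (1 + μ) ^ 2 * el μ)
    + (1 - μ ^ 2) * (1308 / 10000) := by
  unfold AB; ring

lemma AB_affine (μ D E l : ℝ) (h : D = l * E) : AB μ D = (1 - l) * AB μ 0 + l * AB μ E := by
  unfold AB; rw [h]; ring

lemma poly1 {μ : ℝ} (h0 : 0 ≤ μ) (h1 : μ ≤ 1 / 2) :
    (((1533 / 10000 + 1308 / 10000) * ((1 + μ) * (1 - μ)) + (1533 / 10000 * (6124 / 40000)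
      - 1308 / 40000)) * (24 * (1 - μ) ^ 3 * (1 + μ)) * (2 + μ)
      + 24 * (1533 / 10000) * (63 / 400) * (1 - μ) ^ 4 * (2 + μ))
      + (2 * (1533 / 10000) * (1 + μ) ^ 2 * (24 * (1 - μ) ^ 3 * (1 + μ)) - (1 + 3 * μ ^ 2))
        * (0.6931472 * (2 + μ) - 2 * μ)
      ≤ (0.5622 * (1 - 4 * μ ^ 2) + 2 * μ ^ 2 * 0.6931471) * (24 * (1 - μ) ^ 3 * (1 + μ))
        * (2 + μ) := by
  have hb : 0 ≤ 1 / 2 - μ := by linarith
  have b0 : 0 ≤ (1 / 2 - μ) ^ 7 := by positivity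
  have b1 : 0 ≤ μ * (1 / 2 - μ) ^ 6 := by positivity
  have b2 : 0 ≤ μ ^ 2 * (1 / 2 - μ) ^ 5 := by positivity
  have b3 : 0 ≤ μ ^ 3 * (1 / 2 - μ) ^ 4 := by positivity
  have b4 : 0 ≤ μ ^ 4 * (1 / 2 - μ) ^ 3 := by positivity
  have b5 : 0 ≤ μ ^ 5 * (1 / 2 - μ) ^ 2 := by positivity
  have b6 : 0 ≤ μ ^ 6 * (1 / 2 - μ) := by positivity
  have b7 : 0 ≤ μ ^ 7 := by positivity
  norm_num
  linarith

lemma P1 {μ : ℝ} (h0 : 0 ≤ μ) (h1 : μ < 1 / 2) :
    AB μ (1 / 4) ≤ 0.5622 * (1 - 4 * μ ^ 2) + 2 * μ ^ 2 * Real.log 2 := by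
  have a1 : 0 < 1 + μ := by linarith
  have a2 : 0 < 1 - μ := by linarith
  have a3 : 0 < 2 + μ := by linarith
  have hden : 0 < 24 * (1 - μ) ^ 3 * (1 + μ) := by positivity
  have hel := el_le1 h0
  have hL := Real.log_two_gt_d9
  have hp := poly1 h0 h1.le
  -- coefficient of `el`
  have hc : 0 ≤ 2 * (1533 / 10000) * (1 + μ) ^ 2 - (1 + 3 * μ ^ 2) / (24 * (1 - μ) ^ 3 * (1 + μ)) := by
    rw [sub_nonneg, div_le_iff₀ hden]
    have c1 : 1 + 3 * μ ^ 2 ≤ 7 / 4 := by nlinarith only [h1, h0]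
    have c2 : (1 / 2 : ℝ) ≤ 1 - μ := by linarith only [h1]
    have c3 : (3 / 4 : ℝ) ≤ (1 + μ) * (1 - μ) := by linarith only [c1]
    have c4 : (3 / 4 : ℝ) ^ 3 ≤ ((1 + μ) * (1 - μ)) ^ 3 := by gcongr
    have c5 : ((1 + μ) * (1 - μ)) ^ 3 = (1 + μ) ^ 2 * ((1 - μ) ^ 3 * (1 + μ)) := by ring
    rw [c5] at c4
    linarith only [c1, c4]
  have e1 : AB μ (1 / 4) = (1533 / 10000 + 1308 / 10000) * ((1 + μ) * (1 - μ))
      + (1533 / 10000 * (6124 / 40000) - 1308 / 40000)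
      + 1533 / 10000 * (63 / 400) * ((1 - μ) / (1 + μ))
      + (2 * (1533 / 10000) * (1 + μ) ^ 2 - (1 + 3 * μ ^ 2) / (24 * (1 - μ) ^ 3 * (1 + μ)))
        * el μ := by
    unfold AB
    rw [kap2_eq h0 (by linarith only [h1])]
    field_simp
    ring
  have e2 : (2 * (1533 / 10000) * (1 + μ) ^ 2 - (1 + 3 * μ ^ 2) / (24 * (1 - μ) ^ 3 * (1 + μ)))
        * el μ ≤ (2 * (1533 / 10000) * (1 + μ) ^ 2 - (1 + 3 * μ ^ 2)
          / (24 * (1 - μ) ^ 3 * (1 + μ))) * (0.6931472 - 2 * μ / (2 + μ)) :=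
    mul_le_mul_of_nonneg_left hel hc
  have e3 : (1533 / 10000 + 1308 / 10000) * ((1 + μ) * (1 - μ))
      + (1533 / 10000 * (6124 / 40000) - 1308 / 40000)
      + 1533 / 10000 * (63 / 400) * ((1 - μ) / (1 + μ))
      + (2 * (1533 / 10000) * (1 + μ) ^ 2 - (1 + 3 * μ ^ 2)
          / (24 * (1 - μ) ^ 3 * (1 + μ))) * (0.6931472 - 2 * μ / (2 + μ))
      ≤ 0.5622 * (1 - 4 * μ ^ 2) + 2 * μ ^ 2 * 0.6931471 := by
    rw [← mul_le_mul_iff_left₀ (show 0 < (24 * (1 - μ) ^ 3 * (1 + μ)) * (2 + μ) by positivity)]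
    refine le_trans (le_of_eq ?_) (le_trans hp (le_of_eq ?_))
    · field_simp
    · ring
  have e4 : 2 * μ ^ 2 * 0.6931471 ≤ 2 * μ ^ 2 * Real.log 2 := by
    apply mul_le_mul_of_nonneg_left _ (by positivity)
    norm_num at hL ⊢
    linarith only [hL]
  rw [e1]
  linarith only [e4, e3, e2]

lemma poly2 {w : ℝ} (h0 : 0 ≤ w) (h1 : w ≤ 1 / 2) :
    1533 / 10000 * ((2 - w) * (w * (2 - w)) + 63 / 100 * w ^ 3
      + (2 - w) ^ 2 * (1 + 315 / 1000 * w) * (w * (2 - w))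
      + 6124 / 10000 * w * (w * (2 - w))) + 2 * (1 - w) * (1308 / 10000) * (w * (2 - w))
      ≤ (1 / 24 + w / 96) * (w ^ 3 + (2 - w) ^ 3)
        + 1 / 2 * (2.6931471 - 5 / 2 * w - w ^ 2 / 6 - w ^ 3 / 3) * (w * (2 - w)) := by
  have hb : 0 ≤ 1 / 2 - w := by linarith only [h1]
  have b0 : 0 ≤ (1 / 2 - w) ^ 5 := by positivity
  have b1 : 0 ≤ w * (1 / 2 - w) ^ 4 := by positivity
  have b2 : 0 ≤ w ^ 2 * (1 / 2 - w) ^ 3 := by positivity
  have b3 : 0 ≤ w ^ 3 * (1 / 2 - w) ^ 2 := by positivity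
  have b4 : 0 ≤ w ^ 4 * (1 / 2 - w) := by positivity
  have b5 : 0 ≤ w ^ 5 := by positivity
  norm_num
  linarith only [b4, b3, b2, b1, b0]

lemma P2 {μ : ℝ} (h0 : 1 / 2 ≤ μ) (h1 : μ < 1) :
    AB μ ((1 - μ) ^ 2) ≤ 1 / 2 * (-(μ * Real.log μ) - (1 - μ) * Real.log (1 - μ)) := by
  obtain ⟨w, hw⟩ : ∃ w, w = 1 - μ := ⟨_, rfl⟩
  have hμw : μ = 1 - w := by linarith only [hw]
  subst hμw
  have hw0 : 0 < w := by linarith
  have hw1 : w ≤ 1 / 2 := by linarith only [h0]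
  have ew : 1 - (1 - w) = w := by ring
  have a2 : 0 < 2 - w := by linarith
  have hel : el (1 - w) = -Real.log (1 - w / 2) := by
    rw [el_eq h1 (by linarith), ew]
  have hup : el (1 - w) ≤ w / 2 * (1 + 63 / 100 * (w / 2)) := by
    rw [hel]; exact neglog_le (by positivity) (by linarith only [hw1])
  have hlo : w / 2 + (w / 2) ^ 2 / 2 ≤ el (1 - w) := by
    rw [hel]; exact neglog_ge2 (by positivity) (by linarith only [h0])
  have hlw : Real.log 2 + 1 - 2 * w ≤ -Real.log w := by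
    have := Real.log_le_sub_one_of_pos (show 0 < 2 * w by positivity)
    rw [Real.log_mul (by norm_num) hw0.ne'] at this
    linarith only [this]
  have hl1w := neglog_ge3 hw0.le (show w < 1 by linarith only [h0])
  have hL := Real.log_two_gt_d9
  have hp := poly2 hw0.le hw1
  -- lower bound for the entropy
  have hent : w * (0.6931471 + 1 - 2 * w) + (1 - w) * (w + w ^ 2 / 2 + w ^ 3 / 3)
      ≤ -((1 - w) * Real.log (1 - w)) - w * Real.log w := by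
    have t1 : w * (0.6931471 + 1 - 2 * w) ≤ w * (-Real.log w) := by
      apply mul_le_mul_of_nonneg_left _ hw0.le
      norm_num at hL ⊢
      linarith only [hL, hlw]
    have t2 : (1 - w) * (w + w ^ 2 / 2 + w ^ 3 / 3) ≤ (1 - w) * (-Real.log (1 - w)) :=
      mul_le_mul_of_nonneg_left hl1w (by linarith only [h0])
    linarith only [t2, t1]
  rw [ew]
  have e1 : AB (1 - w) (w ^ 2) = 1533 / 10000 * (w * (2 - w) + 2 * (2 - w) ^ 2 * el (1 - w)
      + 63 / 100 * (w ^ 3 / (2 - w)) + 6124 / 10000 * w ^ 2) + 2 * w * (1 - w) * (1308 / 10000)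
      - el (1 - w) / 12 * (w ^ 2 / (2 - w) + (2 - w) ^ 2 / w) := by
    unfold AB kap2
    have ew2 : 1 + (1 - w) = 2 - w := by ring
    rw [ew, ew2]
    field_simp
    ring
  have e2 : AB (1 - w) (w ^ 2) ≤ 1533 / 10000 * (w * (2 - w)
      + 2 * (2 - w) ^ 2 * (w / 2 * (1 + 63 / 100 * (w / 2)))
      + 63 / 100 * (w ^ 3 / (2 - w)) + 6124 / 10000 * w ^ 2) + 2 * w * (1 - w) * (1308 / 10000)
      - (w / 2 + (w / 2) ^ 2 / 2) / 12 * (w ^ 2 / (2 - w) + (2 - w) ^ 2 / w) := by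
    rw [e1]
    have t1 : 2 * (2 - w) ^ 2 * el (1 - w) ≤ 2 * (2 - w) ^ 2 * (w / 2 * (1 + 63 / 100 * (w / 2))) :=
      mul_le_mul_of_nonneg_left hup (by positivity)
    have t2 : (w / 2 + (w / 2) ^ 2 / 2) / 12 * (w ^ 2 / (2 - w) + (2 - w) ^ 2 / w)
        ≤ el (1 - w) / 12 * (w ^ 2 / (2 - w) + (2 - w) ^ 2 / w) := by
      apply mul_le_mul_of_nonneg_right _ (by positivity)
      linarith only [hlo]
    linarith only [t1, t2]
  have e3 : 1533 / 10000 * (w * (2 - w)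
      + 2 * (2 - w) ^ 2 * (w / 2 * (1 + 63 / 100 * (w / 2)))
      + 63 / 100 * (w ^ 3 / (2 - w)) + 6124 / 10000 * w ^ 2) + 2 * w * (1 - w) * (1308 / 10000)
      - (w / 2 + (w / 2) ^ 2 / 2) / 12 * (w ^ 2 / (2 - w) + (2 - w) ^ 2 / w)
      ≤ 1 / 2 * (w * (0.6931471 + 1 - 2 * w) + (1 - w) * (w + w ^ 2 / 2 + w ^ 3 / 3)) := by
    have hq : 0 < 2 - w := a2
    have key : 1 / 2 * (w * (0.6931471 + 1 - 2 * w) + (1 - w) * (w + w ^ 2 / 2 + w ^ 3 / 3))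
      - (1533 / 10000 * (w * (2 - w)
      + 2 * (2 - w) ^ 2 * (w / 2 * (1 + 63 / 100 * (w / 2)))
      + 63 / 100 * (w ^ 3 / (2 - w)) + 6124 / 10000 * w ^ 2) + 2 * w * (1 - w) * (1308 / 10000)
      - (w / 2 + (w / 2) ^ 2 / 2) / 12 * (w ^ 2 / (2 - w) + (2 - w) ^ 2 / w))
      = ((1 / 24 + w / 96) * (w ^ 3 + (2 - w) ^ 3)
        + 1 / 2 * (2.6931471 - 5 / 2 * w - w ^ 2 / 6 - w ^ 3 / 3) * (w * (2 - w))
        - (1533 / 10000 * ((2 - w) * (w * (2 - w)) + 63 / 100 * w ^ 3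
      + (2 - w) ^ 2 * (1 + 315 / 1000 * w) * (w * (2 - w))
      + 6124 / 10000 * w * (w * (2 - w))) + 2 * (1 - w) * (1308 / 10000) * (w * (2 - w))))
        / (2 - w) := by
      field_simp
      ring
    have : 0 ≤ ((1 / 24 + w / 96) * (w ^ 3 + (2 - w) ^ 3)
        + 1 / 2 * (2.6931471 - 5 / 2 * w - w ^ 2 / 6 - w ^ 3 / 3) * (w * (2 - w))
        - (1533 / 10000 * ((2 - w) * (w * (2 - w)) + 63 / 100 * w ^ 3
      + (2 - w) ^ 2 * (1 + 315 / 1000 * w) * (w * (2 - w))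
      + 6124 / 10000 * w * (w * (2 - w))) + 2 * (1 - w) * (1308 / 10000) * (w * (2 - w))))
        / (2 - w) := div_nonneg (sub_nonneg.2 hp) a2.le
    linarith only [key, this]
  linarith only [hent, e2, e3]

/-- The main two-variable inequality: all pieces are affine in `δ²` up to convexity. -/
lemma AB_le {μ δ : ℝ} (hμ : 0 ≤ μ) (hδ : 0 < δ) (h1 : μ + δ < 1) (h2 : δ ≤ 1 / 2) :
    AB μ (δ ^ 2) ≤ HH μ - Kf μ δ := by
  have hμ1 : μ < 1 := by linarith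
  have hP0 : AB μ 0 ≤ HH μ := by rw [AB_zero]; exact P0 hμ hμ1
  rcases lt_or_ge μ (1 / 2) with h | h
  · have hP1 := (P1 hμ h).trans (em_half hμ h)
    have hK := Kf_scale (μ := μ) (c := 1 / 2) (y := 2 * δ) hμ hμ1 (by norm_num) (by linarith only [h])
      (by linarith) (by linarith)
    rw [show 2 * δ * (1 / 2) = δ by ring] at hK
    rw [AB_affine μ (δ ^ 2) (1 / 4) ((2 * δ) ^ 2) (by ring)]
    have hl0 : 0 ≤ (2 * δ) ^ 2 := by positivity
    have hl1 : (2 * δ) ^ 2 ≤ 1 := by nlinarith only [h2, hδ]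
    have t1 := mul_le_mul_of_nonneg_left hP0 (sub_nonneg.2 hl1)
    have t2 := mul_le_mul_of_nonneg_left hP1 hl0
    linarith only [hK, t1, t2]
  · have hw : 0 < 1 - μ := by linarith
    have hP2 := P2 h hμ1
    rw [← em_diag (by linarith) hμ1] at hP2
    have hy1 : δ / (1 - μ) ≤ 1 := by rw [div_le_one hw]; linarith
    have hK := Kf_scale (μ := μ) (c := 1 - μ) (y := δ / (1 - μ)) hμ hμ1 hw.le le_rfl
      (by positivity) hy1
    rw [div_mul_cancel₀ _ hw.ne'] at hK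
    rw [AB_affine μ (δ ^ 2) ((1 - μ) ^ 2) ((δ / (1 - μ)) ^ 2) (by field_simp)]
    have hl0 : 0 ≤ (δ / (1 - μ)) ^ 2 := by positivity
    have hl1 : (δ / (1 - μ)) ^ 2 ≤ 1 := pow_le_one₀ (by positivity) hy1
    have t1 := mul_le_mul_of_nonneg_left hP0 (sub_nonneg.2 hl1)
    have t2 := mul_le_mul_of_nonneg_left hP2 hl0
    linarith only [hK, t1, t2]

/-! ### The reduction -/

/-- `log 2 - ph ρ / ρ²` -/
noncomputable def k1 (ρ : ℝ) : ℝ := Real.log 2 - ph ρ / ρ ^ 2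

lemma bB_k1 {ρ : ℝ} (h0 : 0 < ρ) (h1 : ρ < 1) : bB ρ = ρ ^ 2 * k1 ρ := by
  unfold k1
  rw [bB_eq, HH_ph ρ (by rw [abs_of_pos h0]; exact h1.le)]
  field_simp
  ring

/-- `X = H(μ) - (1-μ²) k - K(μ, ρδ)/ρ²` -/
noncomputable def Xf (ρ μ δ : ℝ) : ℝ := HH μ - (1 - μ ^ 2) * k1 ρ - Kf μ (ρ * δ) / ρ ^ 2

/-- `Y = H(μ) - K(μ, δ) - (1-μ²-δ²) k` -/
noncomputable def Yf (ρ μ δ : ℝ) : ℝ := HH μ - Kf μ δ - (1 - μ ^ 2 - δ ^ 2) * k1 ρ

lemma ineqB_iff {ρ μ δ : ℝ} (h0 : 0 < ρ) (h1 : ρ < 1) (hμ : 0 ≤ μ) (hδ : 0 < δ)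
    (hμδ : μ + δ < 1) :
    IneqB ρ μ δ ↔ NN μ (ρ * δ) * Yf ρ μ δ ≤ NN μ δ * Xf ρ μ δ := by
  have e1 : hV 1 μ δ = HH μ - Kf μ δ := by
    rw [hV_Kf (by rw [one_mul, abs_of_nonneg hμ, abs_of_pos hδ]; exact hμδ), one_mul]
  have hρδ : ρ * δ < δ := by nlinarith only [h1, hδ]
  have e2 : hV ρ μ δ = HH μ - Kf μ (ρ * δ) := by
    rw [hV_Kf (by rw [abs_of_nonneg hμ, abs_of_pos (by positivity)]; linarith)]
  have hρ2 : (0 : ℝ) < ρ ^ 2 := by positivity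
  unfold IneqB Xf Yf
  rw [bB_k1 h0 h1, e1, e2]
  have l1 : NN μ (ρ * δ) * (ρ ^ 2 * (HH μ - Kf μ δ) - ρ ^ 2 * k1 ρ * (1 - μ ^ 2 - δ ^ 2))
      = ρ ^ 2 * (NN μ (ρ * δ) * (HH μ - Kf μ δ - (1 - μ ^ 2 - δ ^ 2) * k1 ρ)) := by ring
  have l2 : NN μ δ * (HH μ - Kf μ (ρ * δ) - (1 - ρ ^ 2) * HH μ - ρ ^ 2 * k1 ρ * (1 - μ ^ 2))
      = ρ ^ 2 * (NN μ δ * (HH μ - (1 - μ ^ 2) * k1 ρ - Kf μ (ρ * δ) / ρ ^ 2)) := by
    field_simp
    ring
  rw [l1, l2]
  exact mul_le_mul_iff_right₀ hρ2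

lemma NN_log {μ x : ℝ} (h1 : 0 < 1 + μ + x) (h2 : 0 < 1 + μ - x) :
    NN μ x = Real.log 2 - Real.log ((1 + μ) ^ 2 - x ^ 2) / 2 := by
  rw [NN_eq, Lp_eq, ← Real.log_mul h1.ne' h2.ne']
  ring_nf

/-- `NN μ x = el μ - log (1 - x²/(1+μ)²)/2` -/
lemma NN_el {μ x : ℝ} (h0 : 0 < 1 + μ) (h1 : 0 < 1 + μ + x) (h2 : 0 < 1 + μ - x) :
    NN μ x = el μ + -Real.log (1 - x ^ 2 / (1 + μ) ^ 2) / 2 := by
  have h3 : 0 < (1 + μ) ^ 2 - x ^ 2 := by linarith only [mul_pos (sub_pos.2 h1) (sub_pos.2 h2)]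
  have e : 1 - x ^ 2 / (1 + μ) ^ 2 = ((1 + μ) ^ 2 - x ^ 2) / (1 + μ) ^ 2 := by
    field_simp
  rw [NN_log h1 h2, el, e, Real.log_div h3.ne' (by positivity), Real.log_pow]
  push_cast
  ring

/-- growth of `NN` -/
lemma NN_diff {μ x y : ℝ} (hμ : 0 ≤ μ) (hx : 0 ≤ x) (hxy : x ≤ y) (hy : μ + y < 1) :
    (y ^ 2 - x ^ 2) / (2 * (1 + μ) ^ 2) ≤ NN μ y - NN μ x := by
  have hy0 : 0 ≤ y := hx.trans hxy
  have a1 : 0 < 1 + μ := by linarith
  have hsq : x ^ 2 ≤ y ^ 2 := by gcongr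
  have p1 : 0 < (1 + μ) ^ 2 - y ^ 2 := by nlinarith only [hμ, hy, hx, hxy]
  have p2 : 0 < (1 + μ) ^ 2 - x ^ 2 := by linarith only [hsq, p1]
  rw [NN_log (x := y) (by linarith) (by linarith), NN_log (x := x) (by linarith) (by linarith)]
  have h1 := Real.log_le_sub_one_of_pos (show 0 < ((1 + μ) ^ 2 - y ^ 2) / ((1 + μ) ^ 2 - x ^ 2) by
    positivity)
  rw [Real.log_div p1.ne' p2.ne'] at h1
  have h2 : ((1 + μ) ^ 2 - y ^ 2) / ((1 + μ) ^ 2 - x ^ 2) - 1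
      = -((y ^ 2 - x ^ 2) / ((1 + μ) ^ 2 - x ^ 2)) := by
    field_simp
    ring
  have h3 : (y ^ 2 - x ^ 2) / (1 + μ) ^ 2 ≤ (y ^ 2 - x ^ 2) / ((1 + μ) ^ 2 - x ^ 2) := by
    apply div_le_div_of_nonneg_left (by linarith) p2
    nlinarith only
  have h4 : (y ^ 2 - x ^ 2) / (2 * (1 + μ) ^ 2) = (y ^ 2 - x ^ 2) / (1 + μ) ^ 2 / 2 := by
    field_simp
  rw [h4]
  linarith only [h1, h2, h3]

/-- The key inequality at `ρ = 3/4`. -/
lemma key {μ δ : ℝ} (hμ : 0 ≤ μ) (hδ : 0 < δ) (h1 : μ + δ < 1) (h2 : δ ≤ 1 / 2) :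
    1533 / 10000 * ((NN μ δ - el μ) * (1 - μ ^ 2) + NN μ (3 / 4 * δ) * δ ^ 2)
      ≤ δ ^ 2 / (2 * (1 + μ) ^ 2) * Yf (3 / 4) μ δ + NN μ δ * (δ ^ 4 * kap2 μ / 12) := by
  have a1 : 0 < 1 + μ := by linarith
  have a2 : 0 < 1 - μ := by linarith
  have hμ1 : μ < 1 := by linarith
  have hAB := AB_le hμ hδ h1 h2
  have hk := kap2_pos hμ hμ1
  have hel := el_nonneg hμ hμ1
  obtain ⟨u, hu⟩ : ∃ u, u = δ ^ 2 / (1 + μ) ^ 2 := ⟨_, rfl⟩
  have hu0 : 0 < u := by rw [hu]; positivity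
  have hu1 : u ≤ 1 / 4 := by
    rw [hu, div_le_iff₀ (by positivity)]
    nlinarith only [hμ, h2, hδ]
  have hδu : δ ^ 2 = u * (1 + μ) ^ 2 := by rw [hu]; field_simp
  -- bounds of the logarithms
  have n1 : NN μ δ - el μ ≤ u / 2 * (1 + 63 / 100 * u) := by
    rw [NN_el a1 (by linarith only [hμ, hδ]) (by linarith only [hu1, hu0, h2, hμ]), ← hu]
    have := neglog_le hu0.le hu1
    linarith only [this]
  have n2 : NN μ (3 / 4 * δ) ≤ el μ + 3062 / 10000 * u := by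
    rw [NN_el a1 (by linarith only [hμ, hδ]) (by linarith only [hμ, h1])]
    have e : (3 / 4 * δ) ^ 2 / (1 + μ) ^ 2 = 9 / 16 * u := by rw [hu]; ring
    rw [e]
    have := neglog_le (v := 9 / 16 * u) (by positivity) (by linarith only [hu1])
    nlinarith only [this, hu0, hu1]
  have n3 : el μ ≤ NN μ δ := by
    rw [NN_el a1 (by linarith only [hμ, hδ]) (by linarith only [hμ, h1]), ← hu]
    have := neglog_ge2 hu0.le (by linarith only [hu1] : u < 1)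
    nlinarith only [hu0, this]
  have hV : 0 < 1 - μ ^ 2 := by nlinarith only [hδ, h1, hμ]
  have hY : HH μ - Kf μ δ - (1 - μ ^ 2 - δ ^ 2) * (1308 / 10000) ≤ Yf (3 / 4) μ δ := by
    unfold Yf k1
    have h3 := k10_le
    have h4 : 0 ≤ 1 - μ ^ 2 - δ ^ 2 := by nlinarith only [h1, hμ, hδ]
    have := mul_le_mul_of_nonneg_left h3 h4
    linarith only [this]
  -- assemble
  have s1 : 1533 / 10000 * ((NN μ δ - el μ) * (1 - μ ^ 2) + NN μ (3 / 4 * δ) * δ ^ 2)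
      ≤ 1533 / 10000 * (u / 2 * (1 + 63 / 100 * u) * (1 - μ ^ 2)
        + (el μ + 3062 / 10000 * u) * δ ^ 2) := by
    have t1 := mul_le_mul_of_nonneg_right n1 hV.le
    have t2 := mul_le_mul_of_nonneg_right n2 (sq_nonneg δ)
    linarith only [t1, t2]
  have s2 : el μ * (δ ^ 4 * kap2 μ / 12) ≤ NN μ δ * (δ ^ 4 * kap2 μ / 12) :=
    mul_le_mul_of_nonneg_right n3 (by positivity)
  have s3 : δ ^ 2 / (2 * (1 + μ) ^ 2) * (HH μ - Kf μ δ - (1 - μ ^ 2 - δ ^ 2) * (1308 / 10000))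
      ≤ δ ^ 2 / (2 * (1 + μ) ^ 2) * Yf (3 / 4) μ δ := mul_le_mul_of_nonneg_left hY (by positivity)
  have s4 : δ ^ 2 / (2 * (1 + μ) ^ 2) * AB μ (δ ^ 2)
      ≤ δ ^ 2 / (2 * (1 + μ) ^ 2) * (HH μ - Kf μ δ) := mul_le_mul_of_nonneg_left hAB (by positivity)
  have s5 : 1533 / 10000 * (u / 2 * (1 + 63 / 100 * u) * (1 - μ ^ 2)
        + (el μ + 3062 / 10000 * u) * δ ^ 2)
      = δ ^ 2 / (2 * (1 + μ) ^ 2) * AB μ (δ ^ 2)
        - δ ^ 2 / (2 * (1 + μ) ^ 2) * ((1 - μ ^ 2 - δ ^ 2) * (1308 / 10000))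
        + el μ * (δ ^ 4 * kap2 μ / 12) := by
    unfold AB
    rw [hu]
    field_simp
    ring
  linarith only [s1, s2, s3, s4, s5]

lemma k1_diff_le {ρ : ℝ} (h0 : 0 < ρ) (hρ : ρ ≤ 3 / 4) :
    k1 ρ - k1 (3 / 4) ≤ ((3 / 4 : ℝ) ^ 2 - ρ ^ 2) * (1533 / 10000) := by
  have hs0 : 0 ≤ (3 / 4 : ℝ) ^ 2 - ρ ^ 2 := by nlinarith only [hρ, h0]
  have h2 := q_upper h0 hρ (by norm_num)
  have h3 := mul_le_mul_of_nonneg_left G1_le hs0
  unfold k1
  linarith only [h2, h3]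

lemma k1_diff_nonneg {ρ : ℝ} (h0 : 0 < ρ) (hρ : ρ ≤ 3 / 4) : 0 ≤ k1 ρ - k1 (3 / 4) := by
  have hs0 : 0 ≤ (3 / 4 : ℝ) ^ 2 - ρ ^ 2 := by nlinarith only [hρ, h0]
  have h2 := q_lower (x := 1) h0 hρ (by rw [mul_one, abs_of_pos (by norm_num)]; norm_num)
  rw [mul_one, mul_one] at h2
  unfold k1
  linarith

lemma Kf_diff {ρ μ δ : ℝ} (h0 : 0 < ρ) (hρ : ρ ≤ 3 / 4) (hμ : 0 ≤ μ) (hδ : 0 < δ)
    (hμδ : μ + δ < 1) :
    ((3 / 4 : ℝ) ^ 2 - ρ ^ 2) * (δ ^ 4 * kap2 μ / 12)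
      ≤ Kf μ (3 / 4 * δ) / (3 / 4) ^ 2 - Kf μ (ρ * δ) / ρ ^ 2 := by
  have a1 : 0 < 1 + μ := by linarith
  have a2 : 0 < 1 - μ := by linarith
  have q1 := q_lower (x := δ / (1 + μ)) h0 hρ (by
    rw [abs_of_pos (by positivity)]
    have : δ / (1 + μ) < 1 := by rw [div_lt_one a1]; linarith
    linarith)
  have q2 := q_lower (x := δ / (1 - μ)) h0 hρ (by
    rw [abs_of_pos (by positivity)]
    have : δ / (1 - μ) < 1 := by rw [div_lt_one a2]; linarith only [hμδ]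
    linarith only [this])
  have r1 := mul_le_mul_of_nonneg_left q1 (show 0 ≤ (1 + μ) / 2 by linarith only [hμ])
  have r2 := mul_le_mul_of_nonneg_left q2 (show 0 ≤ (1 - μ) / 2 by linarith only [hδ, hμδ])
  have e : ((3 / 4 : ℝ) ^ 2 - ρ ^ 2) * (δ ^ 4 * kap2 μ / 12)
      = (1 + μ) / 2 * (((3 / 4 : ℝ) ^ 2 - ρ ^ 2) * (δ / (1 + μ)) ^ 4 / 12)
      + (1 - μ) / 2 * (((3 / 4 : ℝ) ^ 2 - ρ ^ 2) * (δ / (1 - μ)) ^ 4 / 12) := by
    unfold kap2
    field_simp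
  have f1 : 3 / 4 * δ / (1 + μ) = 3 / 4 * (δ / (1 + μ)) := by ring
  have f2 : 3 / 4 * δ / (1 - μ) = 3 / 4 * (δ / (1 - μ)) := by ring
  have f3 : ρ * δ / (1 + μ) = ρ * (δ / (1 + μ)) := by ring
  have f4 : ρ * δ / (1 - μ) = ρ * (δ / (1 - μ)) := by ring
  rw [e, Kf_eq, Kf_eq, f1, f2, f3, f4]
  refine le_trans (add_le_add r1 r2) (le_of_eq ?_)
  ring

lemma NN_mono {μ x y : ℝ} (hμ : 0 ≤ μ) (hx : 0 ≤ x) (hxy : x ≤ y) (hy : μ + y < 1) :
    NN μ x ≤ NN μ y := by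
  have h1 := NN_diff hμ hx hxy hy
  have hsq : x ^ 2 ≤ y ^ 2 := by gcongr
  have h2 : 0 ≤ (y ^ 2 - x ^ 2) / (2 * (1 + μ) ^ 2) :=
    div_nonneg (by linarith) (by positivity)
  linarith only [h2, h1]

lemma el_le_NN {μ x : ℝ} (hμ : 0 ≤ μ) (hx : 0 ≤ x) (hy : μ + x < 1) : el μ ≤ NN μ x := by
  have a1 : 0 < 1 + μ := by linarith
  rw [NN_el a1 (by linarith) (by linarith)]
  have hv : x ^ 2 / (1 + μ) ^ 2 < 1 := by
    rw [div_lt_one (by positivity)]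
    nlinarith only [hμ, hy, hx]
  have h4 : 0 ≤ x ^ 2 / (1 + μ) ^ 2 := by positivity
  have := neglog_ge2 (v := x ^ 2 / (1 + μ) ^ 2) h4 hv
  nlinarith only [h4, this]

lemma Yf_nonneg {μ δ : ℝ} (hμ : 0 ≤ μ) (hδ : 0 < δ) (hμδ : μ + δ < 1) :
    0 ≤ Yf (3 / 4) μ δ := by
  have hh1 := HH_ge_sq (m := μ + δ) (by rw [abs_lt]; constructor <;> linarith)
  have hh2 := HH_ge_sq (m := μ - δ) (by rw [abs_lt]; constructor <;> linarith)
  have e1 : hV 1 μ δ = HH μ - Kf μ δ := by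
    rw [hV_Kf (by rw [one_mul, abs_of_nonneg hμ, abs_of_pos hδ]; exact hμδ), one_mul]
  have e2 : hV 1 μ δ = (HH (μ + δ) + HH (μ - δ)) / 2 := by
    unfold hV; rw [one_mul]
  have hVD : 0 ≤ 1 - μ ^ 2 - δ ^ 2 := by nlinarith only [hμδ, hμ, hδ]
  have h4 : k1 (3 / 4) ≤ Real.log 2 := by
    unfold k1
    have h6 : 0 ≤ ph (3 / 4) := by
      have := ph_ge (x := 3 / 4) (by rw [abs_of_pos (by norm_num)]; norm_num)
      linarith only [this, hμδ, hδ, hμ]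
    have : 0 ≤ ph (3 / 4) / (3 / 4) ^ 2 := by positivity
    linarith only [this]
  have h5 := mul_le_mul_of_nonneg_left h4 hVD
  have e3 : Yf (3 / 4) μ δ = (HH (μ + δ) + HH (μ - δ)) / 2 - (1 - μ ^ 2 - δ ^ 2) * k1 (3 / 4) := by
    unfold Yf
    rw [← e2, e1]
  rw [e3]
  have e4 : Real.log 2 * (1 - (μ + δ) ^ 2) / 2 + Real.log 2 * (1 - (μ - δ) ^ 2) / 2
      = (1 - μ ^ 2 - δ ^ 2) * Real.log 2 := by ring
  linarith only [hh1, hh2, h5]

/-- pure algebra of the reduction -/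
lemma alg {X0 Y0 E Δ N1 N0 Nr el s V D A K : ℝ} (h34 : N0 * Y0 ≤ N1 * X0)
    (hkey : 1533 / 10000 * ((N1 - el) * V + N0 * D) ≤ A * Y0 + N1 * K)
    (hs0 : 0 ≤ s) (hV : 0 ≤ V) (hD : 0 ≤ D) (hY0 : 0 ≤ Y0) (hel : 0 ≤ el)
    (hN : s * A ≤ N0 - Nr) (hN1 : N0 ≤ N1) (hN2 : Nr ≤ N0) (hN3 : el ≤ Nr)
    (hE : s * K ≤ E) (hD1 : Δ ≤ s * (1533 / 10000)) :
    Nr * (Y0 - (V - D) * Δ) ≤ N1 * (X0 - V * Δ + E) := by
  have hNr0 : 0 ≤ Nr := hel.trans hN3
  have hN10 : 0 ≤ N1 := hNr0.trans (hN2.trans hN1)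
  have t1 : s * A * Y0 ≤ (N0 - Nr) * Y0 := mul_le_mul_of_nonneg_right hN hY0
  have t2 : N1 * (s * K) ≤ N1 * E := mul_le_mul_of_nonneg_left hE hN10
  have hC0 : 0 ≤ (N1 - Nr) * V + Nr * D := by
    have h1 := mul_nonneg (sub_nonneg.2 (hN2.trans hN1)) hV
    have h2 := mul_nonneg hNr0 hD
    linarith only [h1, h2]
  have t3 : Δ * ((N1 - Nr) * V + Nr * D) ≤ s * (1533 / 10000) * ((N1 - Nr) * V + Nr * D) :=
    mul_le_mul_of_nonneg_right hD1 hC0
  have t4 : (N1 - Nr) * V + Nr * D ≤ (N1 - el) * V + N0 * D := by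
    have u1 : (N1 - Nr) * V ≤ (N1 - el) * V := mul_le_mul_of_nonneg_right (by linarith only [hN3]) hV
    have u2 : Nr * D ≤ N0 * D := mul_le_mul_of_nonneg_right hN2 hD
    linarith only [u1, u2]
  have t5 : s * (1533 / 10000) * ((N1 - Nr) * V + Nr * D)
      ≤ s * (1533 / 10000) * ((N1 - el) * V + N0 * D) :=
    mul_le_mul_of_nonneg_left t4 (by positivity)
  have t6 := mul_le_mul_of_nonneg_left hkey hs0
  have e : N1 * (X0 - V * Δ + E) - Nr * (Y0 - (V - D) * Δ)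
      = (N1 * X0 - N0 * Y0) + (N0 - Nr) * Y0 + N1 * E - Δ * ((N1 - Nr) * V + Nr * D) := by ring
  have e2 : s * (1533 / 10000 * ((N1 - el) * V + N0 * D))
      = s * (1533 / 10000) * ((N1 - el) * V + N0 * D) := by ring
  have e3 : s * (A * Y0 + N1 * K) = s * A * Y0 + N1 * (s * K) := by ring
  rw [e2, e3] at t6
  linarith only [h34, t1, t2, t3, t5, t6]

/-- **Reduction in `ρ`.** -/
theorem ineqB_of_34 {ρ μ δ : ℝ} (h0 : 0 < ρ) (hρ : ρ ≤ 3 / 4) (hμ : 0 ≤ μ) (hδ : 0 < δ)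
    (hμδ : μ + δ < 1) (hδ2 : δ ≤ 1 / 2) (h34 : IneqB (3 / 4) μ δ) : IneqB ρ μ δ := by
  have hμ1 : μ < 1 := by linarith
  rw [ineqB_iff (by norm_num) (by norm_num) hμ hδ hμδ] at h34
  rw [ineqB_iff h0 (by linarith) hμ hδ hμδ]
  have hkey := key hμ hδ hμδ hδ2
  have hs0 : 0 ≤ (3 / 4 : ℝ) ^ 2 - ρ ^ 2 := by nlinarith only [hρ, h0]
  have hρδ : ρ * δ ≤ 3 / 4 * δ := by nlinarith only [hρ, hδ]
  have hρδ0 : 0 ≤ ρ * δ := by positivity
  have hN : ((3 / 4 : ℝ) ^ 2 - ρ ^ 2) * (δ ^ 2 / (2 * (1 + μ) ^ 2))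
      ≤ NN μ (3 / 4 * δ) - NN μ (ρ * δ) := by
    have := NN_diff hμ hρδ0 hρδ (by linarith only [hδ, hμδ])
    refine le_trans (le_of_eq ?_) this
    ring
  have eX : Xf ρ μ δ = Xf (3 / 4) μ δ - (1 - μ ^ 2) * (k1 ρ - k1 (3 / 4))
      + (Kf μ (3 / 4 * δ) / (3 / 4) ^ 2 - Kf μ (ρ * δ) / ρ ^ 2) := by
    unfold Xf; ring
  have eY : Yf ρ μ δ = Yf (3 / 4) μ δ - (1 - μ ^ 2 - δ ^ 2) * (k1 ρ - k1 (3 / 4)) := by
    unfold Yf; ring
  rw [eX, eY]
  exact alg h34 hkey hs0 (by nlinarith only [hδ, hμδ, hμ]) (sq_nonneg δ) (Yf_nonneg hμ hδ hμδ)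
    (el_nonneg hμ hμ1) hN (NN_mono hμ (by positivity) (by linarith only [hδ]) hμδ)
    (NN_mono hμ hρδ0 hρδ (by linarith only [hδ, hμδ])) (el_le_NN hμ hρδ0 (by linarith only [hδ, hμδ, hρδ]))
    (Kf_diff h0 hρ hμ hδ hμδ) (k1_diff_le h0 hρ)

end Vale.Agent.P322.MonoT
end
end

section

section

/-! Regime B complete: `Step ρ (SB ρ)` for all `0 < ρ ≤ 3/4`. -/

namespace Vale.Agent.P322.MonoT

open Real Filter Topology Set
open Vale.Agent.P322 Vale.Agent.P322.RegA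

lemma ineqB34_of_II34 {μ δ : ℝ} (hμ : 0 ≤ μ) (hδ : 0 < δ) (hμδ : μ + δ < 1)
    (h : II34 μ δ) : IneqB (3 / 4) μ δ := by
  rw [ineqB_iff (by norm_num) (by norm_num) hμ hδ hμδ]
  unfold II34 at h
  have e1 : KK μ δ = Kf μ δ := rfl
  have e2 : KK μ (3 / 4 * δ) = Kf μ (3 / 4 * δ) := rfl
  have e3 : (3 / 4 : ℝ) ^ 2 = 9 / 16 := by norm_num
  rw [e1, e2] at h
  unfold Xf Yf k1
  rw [e3]
  linarith only [h]

/-- (II0) for `ρ ≤ 3/4` in the interior of the domain. -/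
theorem ineqB_int {ρ μ δ : ℝ} (h0 : 0 < ρ) (hρ : ρ ≤ 3 / 4) (hμ : 0 ≤ μ) (hδ : 0 < δ)
    (hμδ : μ + δ < 1) (hδ2 : δ ≤ 1 / 2) : IneqB ρ μ δ :=
  ineqB_of_34 h0 hρ hμ hδ hμδ hδ2
    (ineqB34_of_II34 hμ hδ hμδ (II0_34 hμ hδ hμδ.le hδ2))

lemma contAt_NN {μ ρ δ : ℝ} (h1 : 0 < 1 + μ + ρ * δ) (h2 : 0 < 1 + μ - ρ * δ) :
    ContinuousAt (fun r => NN μ (ρ * r)) δ := by
  have e : (fun r => NN μ (ρ * r))
      = fun r => Real.log 2 - (Real.log (1 + μ + ρ * r) + Real.log (1 + μ - ρ * r)) / 2 := by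
    funext r
    rw [NN_eq, Lp_eq]
  rw [e]
  have c1 : ContinuousAt (fun r : ℝ => Real.log (1 + μ + ρ * r)) δ :=
    ContinuousAt.log (by fun_prop) h1.ne'
  have c2 : ContinuousAt (fun r : ℝ => Real.log (1 + μ - ρ * r)) δ :=
    ContinuousAt.log (by fun_prop) h2.ne'
  exact (continuousAt_const.sub ((c1.add c2).div_const 2))

/-- (II0) for `ρ ≤ 3/4` on the closed domain. -/
theorem ineqB_all {ρ μ δ : ℝ} (h0 : 0 < ρ) (hρ : ρ ≤ 3 / 4) (hμ : 0 ≤ μ) (hδ : 0 < δ)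
    (hμδ : μ + δ ≤ 1) (hδ2 : δ ≤ 1 / 2) : IneqB ρ μ δ := by
  rcases hμδ.lt_or_eq with h | h
  · exact ineqB_int h0 hρ hμ hδ h hδ2
  · have hμ1 : 1 / 2 ≤ μ := by linarith only [hδ2, h]
    have hc := continuous_HH
    have hρδ : ρ * δ ≤ δ := by nlinarith only [hδ, hρ]
    have hρδ0 : 0 < ρ * δ := by positivity
    have cN1 : ContinuousAt (fun r => NN μ (ρ * r)) δ := contAt_NN (by linarith) (by linarith)
    have cN2 : ContinuousAt (fun r => NN μ r) δ := by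
      have := contAt_NN (μ := μ) (ρ := 1) (δ := δ) (by linarith) (by linarith)
      simpa using this
    have cV1 : Continuous (fun r => hV 1 μ r) := by unfold hV; fun_prop
    have cV2 : Continuous (fun r => hV ρ μ r) := by unfold hV; fun_prop
    have cL : ContinuousAt (fun r => NN μ (ρ * r) * (ρ ^ 2 * hV 1 μ r
        - bB ρ * (1 - μ ^ 2 - r ^ 2))) δ := by
      refine cN1.mul (Continuous.continuousAt ?_)
      exact (cV1.const_mul (ρ ^ 2)).sub (by fun_prop)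
    have cR : ContinuousAt (fun r => NN μ r * (hV ρ μ r - (1 - ρ ^ 2) * HH μ
        - bB ρ * (1 - μ ^ 2))) δ := by
      refine cN2.mul (Continuous.continuousAt ?_)
      exact (cV2.sub continuous_const).sub continuous_const
    have key : ∀ᶠ r in 𝓝[<] δ, NN μ (ρ * r) * (ρ ^ 2 * hV 1 μ r - bB ρ * (1 - μ ^ 2 - r ^ 2))
        ≤ NN μ r * (hV ρ μ r - (1 - ρ ^ 2) * HH μ - bB ρ * (1 - μ ^ 2)) := by
      filter_upwards [Ioo_mem_nhdsLT hδ] with r hr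
      exact ineqB_int h0 hρ hμ hr.1 (by linarith [hr.2]) (by linarith only [hr.2, hμ1, h])
    exact le_of_tendsto_of_tendsto (cL.tendsto.mono_left nhdsWithin_le_nhds)
      (cR.tendsto.mono_left nhdsWithin_le_nhds) key

/-- **Regime B.** -/
theorem step_regB {ρ : ℝ} (h0 : 0 < ρ) (hρ : ρ ≤ 3 / 4) : Step ρ (SB ρ) :=
  step_SB h0 (by linarith) (fun _ _ h1 h2 h3 _ h5 =>
    LBmd_of_ineqB h1 h2 (by linarith) h3 (ineqB_all h0 hρ h1 h2 h3 h5))

end Vale.Agent.P322.MonoT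
end
end

section

section

/-! The two regimes together. -/

namespace Vale.Agent.P322

/-- For every Boolean function `f`, the mutual information between `f(X)` and the noisy vector `Y`
is at most `1 - h2 ε`. -/
theorem courtade_kumar (n : ℕ) (f : (Fin n → ℤˣ) → ℤˣ) (ε : ℝ) (h0 : 0 ≤ ε) (h1 : ε ≤ 1 / 2) :
    mutualInfo (outLaw n ε f) ≤ 1 - h2 ε :=
  ck_of_regimes (7 / 10) (by norm_num) (fun _ h h' => stepA_all h h')
    (fun _ h h' _ => MonoT.step_regB h (h'.trans (by norm_num))) n f ε h0 h1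

end Vale.Agent.P322
end
end
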